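import Vale.Agent.P237.Petty.Lift.Bound
import Vale.Agent.P237.Petty.Stam.Section

/-!
# P237: the section of the entropy lift at a fixed height

For `Y = R t` with `t = y / R`, the law of `R` given `Y = y` is the law of `w = R arc (σ t)` with
the density `exp (ℓ)` against the chi law of `n + 1` degrees of freedom, `ℓ` being minus half the
square of `G = R σ t` minus the logarithm of the speed `M` of `Y` in `G`.
-/

namespace Vale.Agent.P237.Petty.Lift

open MeasureTheory Set Filter Topology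
open Ident (half rate)

variable {p : ℕ} {g σ : ℝ → ℝ}

/-- The left derivative of an even profile. -/
noncomputable def slopeL (g : ℝ → ℝ) (t : ℝ) : ℝ := -slopeR g (-t)

/-- The score of the radial law of the lift at a fixed height. -/
noncomputable def score (p : ℕ) (s t a r q R : ℝ) : ℝ :=
  arc s / (R * liftM s t r) * ((R ^ 2 * s + t / liftM s t r) * (t - s / r) -
    t * (1 - s ^ 2) / (r * liftM s t r) * (((p : ℝ) + 1) * (q / (a * r) + s / (1 - s ^ 2))))

/-- The speed along a profile. -/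
noncomputable def mFun (p : ℕ) (g σ : ℝ → ℝ) (t : ℝ) : ℝ := liftM (σ t) t (rate p g σ t)

/-- The chi variable at the height `y`. -/
noncomputable def liftW (σ : ℝ → ℝ) (y R : ℝ) : ℝ := R * arc (σ (y / R))

/-- The derivative of the chi variable. -/
noncomputable def liftW' (p : ℕ) (g σ : ℝ → ℝ) (y R : ℝ) : ℝ :=
  rate p g σ (y / R) * mFun p g σ (y / R) / arc (σ (y / R))

/-- The logarithm of the density against the chi law. -/
noncomputable def liftLog (p : ℕ) (g σ : ℝ → ℝ) (y R : ℝ) : ℝ :=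
  -((R * σ (y / R)) ^ 2) / 2 - Real.log (mFun p g σ (y / R))

theorem div_mem_Ioo {y R : ℝ} (hy : 0 < y) (hR : y < R) : y / R ∈ Ioo (0 : ℝ) 1 :=
  ⟨div_pos hy (hy.trans hR), (div_lt_one (hy.trans hR)).2 hR⟩

theorem arc_sq {s : ℝ} (hs : s ∈ Icc (0 : ℝ) 1) : arc s ^ 2 = 1 - s ^ 2 :=
  Real.sq_sqrt (by nlinarith [hs.1, hs.2])

section

variable (hg : Regular g) (hσ : Transport p g σ)
include hg hσ

theorem rate_pos {t : ℝ} (ht : t ∈ Ioo (0 : ℝ) 1) : 0 < rate p g σ t := by
  have hs := hσ.mem_Ioo t ht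
  exact div_pos (pow_pos (hg.pos_of_lt ⟨ht.1.le, ht.2⟩) _)
    (pow_pos (arc_pos ⟨by linarith [hs.1], hs.2⟩) _)

theorem mFun_pos {t : ℝ} (ht : t ∈ Ioo (0 : ℝ) 1) : 0 < mFun p g σ t := by
  have hs := hσ.mem_Ioo t ht
  have := rate_pos hg hσ ht
  have : 0 < 1 - σ t ^ 2 := by nlinarith [hs.1, hs.2]
  exact add_pos (by positivity) (mul_pos hs.1 ht.1)

theorem continuousOn_rate : ContinuousOn (rate p g σ) (Ioo 0 1) := by
  have hgc := (continuousOn_profile hg).mono (Ioo_subset_Icc_self (a := (0 : ℝ)) (b := 1))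
  have hσc := hσ.cont.mono (Ioo_subset_Icc_self (a := (0 : ℝ)) (b := 1))
  refine (hgc.pow _).div ((continuous_arc.comp_continuousOn hσc).pow _) fun t ht => ?_
  have hs := hσ.mem_Ioo t ht
  exact pow_ne_zero _ (arc_pos ⟨by linarith [hs.1], hs.2⟩).ne'

theorem continuousOn_mFun : ContinuousOn (mFun p g σ) (Ioo 0 1) := by
  have hσc := hσ.cont.mono (Ioo_subset_Icc_self (a := (0 : ℝ)) (b := 1))
  exact ((continuousOn_const.sub (hσc.pow 2)).div (continuousOn_rate hg hσ)
    fun t ht => (rate_pos hg hσ ht).ne').add (hσc.mul continuousOn_id)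

omit hg in
theorem liftW_pos {y R : ℝ} (hy : 0 < y) (hR : y < R) : 0 < liftW σ y R := by
  have hs := hσ.mem_Ioo _ (div_mem_Ioo hy hR)
  exact mul_pos (hy.trans hR) (arc_pos ⟨by linarith [hs.1], hs.2⟩)

theorem liftW'_pos {y R : ℝ} (hy : 0 < y) (hR : y < R) : 0 < liftW' p g σ y R := by
  have ht := div_mem_Ioo hy hR
  have hs := hσ.mem_Ioo _ ht
  exact div_pos (mul_pos (rate_pos hg hσ ht) (mFun_pos hg hσ ht))
    (arc_pos ⟨by linarith [hs.1], hs.2⟩)

omit hg in
theorem hasDerivAt_sigma_div {y R : ℝ} (hy : 0 < y) (hR : y < R) :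
    HasDerivAt (fun x => σ (y / x)) (rate p g σ (y / R) * (-(y / R) / R)) R := by
  have h1 : HasDerivAt (fun x : ℝ => y / x) (-(y / R) / R) R :=
    ((hasDerivAt_const R y).div (hasDerivAt_id' R) (hy.trans hR).ne').congr_deriv (by
      have := (hy.trans hR).ne'
      field_simp
      ring)
  exact (hσ.deriv _ (div_mem_Ioo hy hR)).comp R h1

theorem hasDerivAt_liftW {y R : ℝ} (hy : 0 < y) (hR : y < R) :
    HasDerivAt (liftW σ y) (liftW' p g σ y R) R := by
  have ht := div_mem_Ioo hy hR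
  have hs := hσ.mem_Ioo _ ht
  have hR0 := (hy.trans hR).ne'
  have hc : 0 < arc (σ (y / R)) := arc_pos ⟨by linarith [hs.1], hs.2⟩
  have hc2 := arc_sq (Ioo_subset_Icc_self hs)
  have hsd := hasDerivAt_sigma_div hσ hy hR
  have ha : HasDerivAt (fun x => arc (σ (y / x)))
      (-(2 * σ (y / R) * (rate p g σ (y / R) * (-(y / R) / R))) / (2 * arc (σ (y / R)))) R :=
    (((hsd.fun_pow 2).const_sub 1).sqrt (ne_of_gt (by nlinarith [hs.1, hs.2]))).congr_deriv (by
      simp [arc])
  refine ((hasDerivAt_id' R).mul ha).congr_deriv ?_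
  rw [liftW', mFun, liftM, ← hc2]
  have := (rate_pos hg hσ ht).ne'
  field_simp

/-- The density of the radius at a fixed height in the chi variable. -/
theorem liftLog_eq {y R : ℝ} (hy : 0 < y) (hR : y < R) :
    Stam.wt (p + 2) R * g (y / R) ^ (p + 1) =
      Real.exp (liftLog p g σ y R) * Stam.wt (p + 2) (liftW σ y R) * liftW' p g σ y R := by
  have ht := div_mem_Ioo hy hR
  have hs := hσ.mem_Ioo _ ht
  have hc : 0 < arc (σ (y / R)) := arc_pos ⟨by linarith [hs.1], hs.2⟩
  have hc2 := arc_sq (Ioo_subset_Icc_self hs)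
  have hM := mFun_pos hg hσ ht
  have e : rate p g σ (y / R) * arc (σ (y / R)) ^ (p + 1) = g (y / R) ^ (p + 1) :=
    div_mul_cancel₀ _ (pow_ne_zero _ hc.ne')
  have hexp : Real.exp (-((R * σ (y / R)) ^ 2) / 2) *
      Real.exp (-((R * arc (σ (y / R))) ^ 2) / 2) = Real.exp (-(R ^ 2) / 2) := by
    rw [← Real.exp_add]
    congr 1
    linear_combination (-(R ^ 2) / 2) * hc2
  rw [liftLog, Real.exp_sub, Real.exp_log hM, liftW', Stam.wt, Stam.wt, liftW, ← e, ← hexp,
    mul_pow R (arc _) (p + 2), pow_succ (arc _) (p + 1)]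
  field_simp

omit hσ in
theorem hasDerivWithinAt_profile_div {y R : ℝ} (hy : 0 < y) (hR : y < R) :
    HasDerivWithinAt (fun x => g (y / x)) (slopeL g (y / R) * (-(y / R) / R)) (Ioi R) R := by
  have ht := div_mem_Ioo hy hR
  have hR0 := hy.trans hR
  have h1 : HasDerivWithinAt (fun x : ℝ => -(y / x)) (y / R / R) (Ioi R) R :=
    (((hasDerivAt_const R y).div (hasDerivAt_id' R) hR0.ne').neg.congr_deriv (by
      have := hR0.ne'
      field_simp
      ring)).hasDerivWithinAt
  have hm : MapsTo (fun x : ℝ => -(y / x)) (Ioi R) (Ioi (-(y / R))) := fun x hx => by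
    have hx' : R < x := hx
    exact neg_lt_neg (div_lt_div_of_pos_left hy hR0 hx')
  have h2 := hasDerivWithinAt_slopeR hg.concave
    (⟨by linarith [ht.2], by linarith [ht.1]⟩ : -(y / R) ∈ Ioo (-1 : ℝ) 1)
  refine ((h2.comp R h1 hm).congr (fun x _ => (hg.even _).symm) (hg.even _).symm).congr_deriv ?_
  rw [slopeL]
  ring

/-- The derivative of the logarithm of the density is the score times the derivative of `w`. -/
theorem hasDerivWithinAt_liftLog {y R : ℝ} (hy : 0 < y) (hR : y < R) :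
    HasDerivWithinAt (liftLog p g σ y)
      (score p (σ (y / R)) (y / R) (g (y / R)) (rate p g σ (y / R)) (slopeL g (y / R)) R *
        liftW' p g σ y R) (Ioi R) R := by
  have ht := div_mem_Ioo hy hR
  have hs := hσ.mem_Ioo _ ht
  have hR0 := hy.trans hR
  have hc : 0 < arc (σ (y / R)) := arc_pos ⟨by linarith [hs.1], hs.2⟩
  have hc2 := arc_sq (Ioo_subset_Icc_self hs)
  have hgp : 0 < g (y / R) := hg.pos_of_lt ⟨ht.1.le, ht.2⟩
  have hr := rate_pos hg hσ ht
  have hM := mFun_pos hg hσ ht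
  have hsd := (hasDerivAt_sigma_div hσ hy hR).hasDerivWithinAt (s := Ioi R)
  have hgd := hasDerivWithinAt_profile_div hg hy hR
  have hdiv : HasDerivWithinAt (fun x : ℝ => y / x) (-(y / R) / R) (Ioi R) R :=
    (((hasDerivAt_const R y).div (hasDerivAt_id' R) hR0.ne').congr_deriv (by
      have := hR0.ne'
      field_simp
      ring)).hasDerivWithinAt
  have ha : HasDerivWithinAt (fun x => arc (σ (y / x)))
      (-(2 * σ (y / R) * (rate p g σ (y / R) * (-(y / R) / R))) / (2 * arc (σ (y / R))))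
      (Ioi R) R :=
    (((hasDerivAt_sigma_div hσ hy hR).fun_pow 2).const_sub 1 |>.sqrt
      (ne_of_gt (by nlinarith [hs.1, hs.2]))).hasDerivWithinAt.congr_deriv (by simp [arc])
  have hrd : HasDerivWithinAt (fun x => rate p g σ (y / x))
      (rate p g σ (y / R) * (-(y / R) / R) * (((p : ℝ) + 1) * (slopeL g (y / R) / g (y / R) +
        σ (y / R) * rate p g σ (y / R) / (1 - σ (y / R) ^ 2)))) (Ioi R) R := by
    refine ((hgd.pow (p + 1)).div (ha.pow (p + 1)) (pow_ne_zero _ hc.ne')).congr_deriv ?_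
    have hr1 : g (y / R) ^ (p + 1) = rate p g σ (y / R) * arc (σ (y / R)) ^ (p + 1) :=
      (div_mul_cancel₀ _ (pow_ne_zero _ hc.ne')).symm
    simp only [Pi.pow_apply, Nat.add_sub_cancel, Nat.cast_add, Nat.cast_one]
    rw [← hc2, show g (y / R) ^ p = g (y / R) ^ (p + 1) / g (y / R) by
      rw [pow_succ]; field_simp, hr1, pow_succ]
    have := pow_ne_zero p hc.ne'
    have := hR0.ne'
    field_simp
    ring
  have hMd : HasDerivWithinAt (fun x => mFun p g σ (y / x))
      (-(y / R) / R * (rate p g σ (y / R) * (y / R) - σ (y / R) -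
        (1 - σ (y / R) ^ 2) / rate p g σ (y / R) * (((p : ℝ) + 1) * (slopeL g (y / R) / g (y / R) +
          σ (y / R) * rate p g σ (y / R) / (1 - σ (y / R) ^ 2))))) (Ioi R) R := by
    refine ((((hsd.fun_pow 2).const_sub 1).div hrd hr.ne').add (hsd.mul hdiv)).congr_deriv ?_
    simp only [Nat.cast_ofNat]
    generalize (((p : ℝ) + 1) * (slopeL g (y / R) / g (y / R) +
      σ (y / R) * rate p g σ (y / R) / (1 - σ (y / R) ^ 2))) = X
    generalize hr' : rate p g σ (y / R) = r at hr
    generalize σ (y / R) = u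
    generalize -(y / R) / R = k
    generalize y / R = t
    field_simp
    ring
  refine (((((hasDerivWithinAt_id R (Ioi R)).mul hsd).pow 2).neg.div_const 2).sub
    (hMd.log hM.ne')).congr_deriv ?_
  simp only [liftW', score, mFun, id, Pi.mul_apply, Nat.cast_ofNat] at hM ⊢
  have hd0 : 1 - σ (y / R) ^ 2 ≠ 0 := by
    rw [← hc2]
    positivity
  generalize hM' : liftM (σ (y / R)) (y / R) (rate p g σ (y / R)) = M at hM
  generalize hc' : arc (σ (y / R)) = c at hc
  generalize hr' : rate p g σ (y / R) = r at hr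
  generalize ha' : g (y / R) = a at hgp
  generalize σ (y / R) = u at hd0 ⊢
  generalize slopeL g (y / R) = q
  generalize y / R = t
  field_simp
  ring

omit hg in
theorem tendsto_liftW_left {y : ℝ} (hy : 0 < y) : Tendsto (liftW σ y) (𝓝[>] y) (𝓝 0) := by
  have h1 : Tendsto (fun R => y / R) (𝓝[>] y) (𝓝[Icc 0 1] 1) := by
    refine tendsto_nhdsWithin_iff.2 ⟨?_, ?_⟩
    · have := (tendsto_const_nhds (x := y)).div (tendsto_id (x := 𝓝 y)) hy.ne'
      rw [div_self hy.ne'] at this
      exact this.mono_left nhdsWithin_le_nhds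
    · filter_upwards [self_mem_nhdsWithin] with R hR
      exact Ioo_subset_Icc_self (div_mem_Ioo hy hR)
  have h2 := (continuous_arc.tendsto (σ 1)).comp
    ((hσ.cont 1 (right_mem_Icc.2 zero_le_one)).tendsto.comp h1)
  rw [hσ.one, show arc 1 = 0 by simp [arc]] at h2
  have h3 := ((tendsto_id (x := 𝓝[>] y)).mono_right nhdsWithin_le_nhds).mul h2
  rw [mul_zero] at h3
  exact h3

omit hg in
theorem tendsto_liftW_top {y : ℝ} (hy : 0 < y) : Tendsto (liftW σ y) atTop atTop := by
  have h1 : Tendsto (fun R => y / R) atTop (𝓝[Icc 0 1] 0) := by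
    refine tendsto_nhdsWithin_iff.2 ⟨tendsto_const_nhds.div_atTop tendsto_id, ?_⟩
    filter_upwards [eventually_gt_atTop y] with R hR
    exact Ioo_subset_Icc_self (div_mem_Ioo hy hR)
  have h2 := (continuous_arc.tendsto (σ 0)).comp
    ((hσ.cont 0 (left_mem_Icc.2 zero_le_one)).tendsto.comp h1)
  rw [hσ.zero, show arc 0 = 1 by simp [arc]] at h2
  exact tendsto_id.atTop_mul_pos one_pos h2

theorem continuousOn_liftLog {y : ℝ} (hy : 0 < y) : ContinuousOn (liftLog p g σ y) (Ioi y) := by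
  have hd : ContinuousOn (fun R => y / R) (Ioi y) :=
    continuousOn_const.div continuousOn_id fun R hR => (hy.trans hR).ne'
  have hm : MapsTo (fun R => y / R) (Ioi y) (Ioo 0 1) := fun R hR => div_mem_Ioo hy hR
  have hσc : ContinuousOn (fun R => σ (y / R)) (Ioi y) :=
    (hσ.cont.mono Ioo_subset_Icc_self).comp hd hm
  have hMc : ContinuousOn (fun R => mFun p g σ (y / R)) (Ioi y) :=
    (continuousOn_mFun hg hσ).comp hd hm
  exact (((continuousOn_id.mul hσc).pow 2).neg.div_const 2).sub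
    (hMc.log fun R hR => (mFun_pos hg hσ (hm hR)).ne')

end

end Vale.Agent.P237.Petty.Lift
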