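import Vale.Agent.P237.Petty.Lift.Main

/-!
# P237: the closed curvature bound of the score

The supremum `s v - v ^ 2 / 2 + n (log (1 - v / w) + v / w)`, `v < w`, of the radial transport is at
most half the square of `s` damped by the curvature. At a radius `R`, with `X = R ^ 2`, `w = c R` and
`s = w (A + B / X)`, it is at most an explicit combination of `1 / X`, `1`, `X`, `X ^ 2` by the
tangent of `1 / (c ^ 2 X + n)`; its mean is the rational bound `curvE`. The first null field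
cancels the first variation of the calibrated integrand at the circle.
-/

namespace Vale.Agent.P237.Petty.Lift

open MeasureTheory Set Filter Topology intervalIntegral
open Ident (half rate)

variable {p : ℕ} {g σ : ℝ → ℝ}

/-- `log (1 + y)` is at most its rational upper bound. -/
theorem log_one_add_le {y : ℝ} (hy : 0 ≤ y) : Real.log (1 + y) ≤ y * (6 + y) / (6 + 4 * y) := by
  have hmono : MonotoneOn (fun x : ℝ => x * (6 + x) / (6 + 4 * x) - Real.log (1 + x)) (Ici 0) := by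
    refine monotoneOn_of_hasDerivWithinAt_nonneg (convex_Ici 0)
      (f' := fun x => 4 * x ^ 3 / ((6 + 4 * x) ^ 2 * (1 + x))) ?_ (fun x hx => ?_) fun x hx => ?_
    · intro x hx
      have hx0 : 0 ≤ x := hx
      have h1 : (6 : ℝ) + 4 * x ≠ 0 := by positivity
      have h2 : (1 : ℝ) + x ≠ 0 := by positivity
      exact ContinuousAt.continuousWithinAt (by fun_prop (disch := assumption))
    all_goals
      rw [interior_Ici] at hx
      have hx0 : 0 < x := hx
    · have h1 : (6 : ℝ) + 4 * x ≠ 0 := by positivity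
      have h2 : (1 : ℝ) + x ≠ 0 := by positivity
      refine HasDerivAt.hasDerivWithinAt ?_
      refine ((((hasDerivAt_id x).mul ((hasDerivAt_id x).const_add 6)).div
        (((hasDerivAt_id x).const_mul 4).const_add 6) h1).sub
        (((hasDerivAt_id x).const_add 1).log h2)).congr_deriv ?_
      simp only [id, Pi.mul_apply]
      field_simp
      ring
    · positivity
  have h := hmono (mem_Ici.2 le_rfl) (mem_Ici.2 hy) hy
  simp only [zero_mul, zero_div, add_zero, Real.log_one, sub_zero] at h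
  linarith

/-- `log (1 - u) + u` is at most `- u ^ 2 / 2`. -/
theorem log_one_sub_add_le {u : ℝ} (h0 : 0 ≤ u) (h1 : u < 1) :
    Real.log (1 - u) + u ≤ -(u ^ 2 / 2) := by
  have hmono : MonotoneOn (fun x : ℝ => -(x ^ 2 / 2) - x - Real.log (1 - x)) (Ico 0 1) := by
    refine monotoneOn_of_hasDerivWithinAt_nonneg (convex_Ico 0 1)
      (f' := fun x => x ^ 2 / (1 - x)) ?_ (fun x hx => ?_) fun x hx => ?_
    · intro x hx
      have h2 : (1 : ℝ) - x ≠ 0 := (sub_pos.2 hx.2).ne'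
      exact ContinuousAt.continuousWithinAt (by fun_prop (disch := assumption))
    all_goals rw [interior_Ico] at hx
    · have h2 : (1 : ℝ) - x ≠ 0 := (sub_pos.2 hx.2).ne'
      refine HasDerivAt.hasDerivWithinAt ?_
      refine ((((hasDerivAt_pow 2 x).div_const 2).neg.sub (hasDerivAt_id x)).sub
        (((hasDerivAt_id x).const_sub 1).log h2)).congr_deriv ?_
      simp only [id]
      field_simp
      ring
    · exact div_nonneg (sq_nonneg _) (sub_pos.2 hx.2).le
  have h := hmono (left_mem_Ico.2 one_pos) ⟨h0, h1⟩ h0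
  simp only [sub_zero, Real.log_one] at h
  norm_num at h
  linarith

/-- The bound of the supremum, damped by the curvature. -/
theorem curv_sup_le {n w s v : ℝ} (hn : 0 < n) (hw : 0 < w) (hv : v < w) :
    s * v - v ^ 2 / 2 + n * (Real.log (1 - v / w) + v / w) ≤
      s ^ 2 / 2 * (w ^ 2 / (w ^ 2 + n)) * (1 + 2 / 3 * max 0 (-s / w)) := by
  obtain ⟨u, rfl⟩ : ∃ u, v = w * u := ⟨v / w, by field_simp⟩
  have hu1 : u < 1 := by nlinarith
  obtain ⟨e, rfl⟩ : ∃ e, s = -(w * e) := ⟨-(s / w), by field_simp⟩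
  rw [mul_div_cancel_left₀ u hw.ne', show -(-(w * e)) / w = e by field_simp]
  have hk : 1 ≤ 1 + 2 / 3 * max 0 e := by linarith [le_max_left (0 : ℝ) e]
  have hD : 0 < w ^ 2 + n := by positivity
  have hR : 0 ≤ (-(w * e)) ^ 2 / 2 * (w ^ 2 / (w ^ 2 + n)) := by positivity
  rcases le_or_gt 0 u with hu | hu
  · refine le_trans ?_ (le_mul_of_one_le_right hR hk)
    have h := mul_le_mul_of_nonneg_left (log_one_sub_add_le hu hu1) hn.le
    rw [mul_div_assoc', le_div_iff₀ hD]
    nlinarith [sq_nonneg (w ^ 2 * e + u * (w ^ 2 + n))]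
  · set y := -u with hy
    have hy0 : 0 < y := neg_pos.2 hu
    have hl : Real.log (1 - u) + u ≤ -(3 * y ^ 2 / (6 + 4 * y)) := by
      have h := log_one_add_le hy0.le
      have he : y * (6 + y) / (6 + 4 * y) - y = -(3 * y ^ 2 / (6 + 4 * y)) := by field_simp; ring
      rw [show 1 - u = 1 + y by ring, show u = -y by ring]
      linarith
    have h := mul_le_mul_of_nonneg_left hl hn.le
    have h2 : 0 ≤ n * (3 * y ^ 2 / (6 + 4 * y)) := by positivity
    rcases le_or_gt e 0 with he | he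
    · nlinarith [mul_nonneg (mul_nonneg (sq_nonneg w) hy0.le) (neg_nonneg.2 he), sq_nonneg (w * y),
        mul_nonneg hR (zero_le_one.trans hk)]
    rw [max_eq_right he.le]
    -- it is enough to test the points below `e`
    have key : ∀ z, 0 ≤ z → z ≤ e → w ^ 2 * (e * z - z ^ 2 / 2) - n * (3 * z ^ 2 / (6 + 4 * z)) ≤
        (-(w * e)) ^ 2 / 2 * (w ^ 2 / (w ^ 2 + n)) * (1 + 2 / 3 * e) := by
      intro z hz0 hze
      set k := 1 + 2 / 3 * e with hk'
      have hk1 : 1 ≤ k := by linarith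
      have h1 : z ^ 2 / (2 * k) ≤ 3 * z ^ 2 / (6 + 4 * z) := by
        rw [div_le_div_iff₀ (by positivity) (by positivity)]
        nlinarith [sq_nonneg z]
      have h3 : w ^ 2 * (e * z - z ^ 2 / 2) - n * (z ^ 2 / (2 * k)) ≤
          (-(w * e)) ^ 2 / 2 * (w ^ 2 * k / (w ^ 2 * k + n)) := by
        have e2 : (-(w * e)) ^ 2 / 2 * (w ^ 2 * k / (w ^ 2 * k + n)) -
            (w ^ 2 * (e * z - z ^ 2 / 2) - n * (z ^ 2 / (2 * k))) =
            (z * (w ^ 2 * k + n) - w ^ 2 * e * k) ^ 2 / (2 * k * (w ^ 2 * k + n)) := by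
          field_simp
          ring
        rw [← sub_nonneg, e2]
        positivity
      have h4 : w ^ 2 * k / (w ^ 2 * k + n) ≤ w ^ 2 / (w ^ 2 + n) * k := by
        rw [div_mul_eq_mul_div]
        exact div_le_div_of_nonneg_left (by positivity) hD (by nlinarith)
      have h5 := mul_le_mul_of_nonneg_left h1 hn.le
      have h6 := mul_le_mul_of_nonneg_left h4 (show 0 ≤ (-(w * e)) ^ 2 / 2 by positivity)
      linarith
    rcases le_or_gt y e with hye | hye
    · nlinarith [key y hy0.le hye]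
    · have hm : 3 * e ^ 2 / (6 + 4 * e) ≤ 3 * y ^ 2 / (6 + 4 * y) := by
        rw [div_le_div_iff₀ (by positivity) (by positivity)]
        nlinarith [mul_nonneg (sub_nonneg.2 hye.le) (add_nonneg he.le hy0.le),
          mul_nonneg (mul_nonneg (sub_nonneg.2 hye.le) he.le) hy0.le]
      nlinarith [key e he.le le_rfl, mul_le_mul_of_nonneg_left hm hn.le,
        mul_nonneg (sq_nonneg w) (sq_nonneg (y - e))]

/-- The tangent bound of the first rational average, as a polynomial in `X`. -/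
noncomputable def curvP0 (n c A B X : ℝ) : ℝ :=
  B ^ 2 / n + X * ((A ^ 2 * (n + 4) + (2 * A * B - B ^ 2 * c ^ 2 / n)) / ((n + 4) * c ^ 2 + n) +
    (n * A ^ 2 - c ^ 2 * (2 * A * B - B ^ 2 * c ^ 2 / n)) / ((n + 4) * c ^ 2 + n) ^ 2 *
      (X - (n + 4)))

/-- The tangent bound of the second rational average. -/
noncomputable def curvP1 (n c A B X : ℝ) : ℝ :=
  B ^ 2 / n / X + (A ^ 2 * (n + 2) + (2 * A * B - B ^ 2 * c ^ 2 / n)) / ((n + 2) * c ^ 2 + n) +
    (n * A ^ 2 - c ^ 2 * (2 * A * B - B ^ 2 * c ^ 2 / n)) / ((n + 2) * c ^ 2 + n) ^ 2 *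
      (X - (n + 2))

/-- The bound of the supremum at a radius, as a function of its square. -/
noncomputable def curvPoly (n c A B X : ℝ) : ℝ :=
  c ^ 4 / 2 * ((1 + 2 / 3 * max 0 (-A)) * curvP0 n c A B X +
    2 / 3 * max 0 (-B) * curvP1 n c A B X)

/-- The mean of the first tangent bound. -/
noncomputable def curvT0 (n c A B : ℝ) : ℝ :=
  ((n + 2) * (n + 4) * A ^ 2 + 2 * (n + 2) * A * B + (1 + 2 * c ^ 2 / n) * B ^ 2) /
    ((n + 4) * c ^ 2 + n)

/-- The mean of the second tangent bound. -/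
noncomputable def curvT1 (n c A B : ℝ) : ℝ :=
  ((n + 2) * A ^ 2 + 2 * A * B + (1 + 2 * c ^ 2 / n) * B ^ 2 / n) / ((n + 2) * c ^ 2 + n)

/-- The mean of the bound of the supremum. -/
noncomputable def curvMean (n c A B : ℝ) : ℝ :=
  c ^ 4 / 2 * ((1 + 2 / 3 * max 0 (-A)) * curvT0 n c A B + 2 / 3 * max 0 (-B) * curvT1 n c A B)

/-- The rational bound of the entropy beyond the logarithm of the Jacobian. -/
noncomputable def curvE (p : ℕ) (s t a r q : ℝ) : ℝ :=
  curvMean ((p : ℝ) + 2) (arc s) (scoreA s t r / liftM s t r)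
    (scoreB p s t a r q / liftM s t r)

/-- The tangent bound of a fractional linear function. -/
theorem tangent_frac {n c X X0 A B : ℝ} (hn : 0 < n) (hX : 0 ≤ X) (hX0 : 0 ≤ X0) :
    (A ^ 2 * X + (2 * A * B - B ^ 2 * c ^ 2 / n)) / (c ^ 2 * X + n) ≤
      (A ^ 2 * X0 + (2 * A * B - B ^ 2 * c ^ 2 / n)) / (X0 * c ^ 2 + n) +
      (n * A ^ 2 - c ^ 2 * (2 * A * B - B ^ 2 * c ^ 2 / n)) / (X0 * c ^ 2 + n) ^ 2 * (X - X0) := by
  have hD : 0 < c ^ 2 * X + n := by positivity
  have hD0 : 0 < X0 * c ^ 2 + n := by positivity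
  have e : (A ^ 2 * X0 + (2 * A * B - B ^ 2 * c ^ 2 / n)) / (X0 * c ^ 2 + n) +
      (n * A ^ 2 - c ^ 2 * (2 * A * B - B ^ 2 * c ^ 2 / n)) / (X0 * c ^ 2 + n) ^ 2 * (X - X0) -
      (A ^ 2 * X + (2 * A * B - B ^ 2 * c ^ 2 / n)) / (c ^ 2 * X + n) =
      c ^ 2 * ((n * A - B * c ^ 2) ^ 2 / n) * (X - X0) ^ 2 /
        ((X0 * c ^ 2 + n) ^ 2 * (c ^ 2 * X + n)) := by
    field_simp
    ring
  rw [← sub_nonneg, e]
  positivity

/-- The supremum at a radius is at most the polynomial bound. -/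
theorem curv_le_poly {n c R A B v : ℝ} (hn : 0 < n) (hc : 0 < c) (hR : 0 < R) (hv : v < c * R) :
    c * R * (A + B / R ^ 2) * v - v ^ 2 / 2 +
        n * (Real.log (1 - v / (c * R)) + v / (c * R)) ≤ curvPoly n c A B (R ^ 2) := by
  have hw : 0 < c * R := mul_pos hc hR
  refine (curv_sup_le hn hw hv).trans ?_
  set X := R ^ 2 with hX
  have hX0 : 0 < X := by positivity
  have hD : 0 < c ^ 2 * X + n := by positivity
  set Q := (A * X + B) ^ 2 / (c ^ 2 * X + n) with hQ
  have e1 : (c * R * (A + B / X)) ^ 2 / 2 * ((c * R) ^ 2 / ((c * R) ^ 2 + n)) = c ^ 4 / 2 * Q := by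
    rw [hQ, mul_pow c R, ← hX, mul_pow, mul_pow, ← hX]
    field_simp
  have e2 : max 0 (-(c * R * (A + B / X)) / (c * R)) ≤ max 0 (-A) + max 0 (-B) / X := by
    rw [show -(c * R * (A + B / X)) / (c * R) = -A + -B / X by field_simp; ring]
    refine max_le (by positivity) (add_le_add (le_max_right _ _) ?_)
    exact div_le_div_of_nonneg_right (le_max_right _ _) hX0.le
  have hQ0 : 0 ≤ Q := by positivity
  have d0 : Q = B ^ 2 / n + X * ((A ^ 2 * X + (2 * A * B - B ^ 2 * c ^ 2 / n)) / (c ^ 2 * X + n)) := by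
    rw [hQ]
    field_simp
    ring
  have d1 : Q / X = B ^ 2 / n / X +
      (A ^ 2 * X + (2 * A * B - B ^ 2 * c ^ 2 / n)) / (c ^ 2 * X + n) := by
    rw [d0]
    field_simp
  have h0 : Q ≤ curvP0 n c A B X := by
    rw [d0, curvP0]
    gcongr
    exact tangent_frac hn hX0.le (by linarith)
  have h1 : Q / X ≤ curvP1 n c A B X := by
    rw [d1, curvP1, add_assoc]
    gcongr
    exact tangent_frac hn hX0.le (by linarith)
  rw [e1]
  calc c ^ 4 / 2 * Q * (1 + 2 / 3 * max 0 (-(c * R * (A + B / X)) / (c * R)))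
      ≤ c ^ 4 / 2 * Q * (1 + 2 / 3 * (max 0 (-A) + max 0 (-B) / X)) := by gcongr
    _ = c ^ 4 / 2 * ((1 + 2 / 3 * max 0 (-A)) * Q + 2 / 3 * max 0 (-B) * (Q / X)) := by ring
    _ ≤ curvPoly n c A B X := by rw [curvPoly]; gcongr

/-- The bound at a radius is integrable against the radial law and has the rational mean. -/
theorem integral_curvPoly (p : ℕ) (c A B : ℝ) :
    IntegrableOn (fun R => R ^ (p + 3) * Real.exp (-(R ^ 2) / 2) *
        curvPoly ((p : ℝ) + 2) c A B (R ^ 2)) (Ioi 0) ∧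
      ∫ R in Ioi (0 : ℝ), R ^ (p + 3) * Real.exp (-(R ^ 2) / 2) *
          curvPoly ((p : ℝ) + 2) c A B (R ^ 2) =
        radial (p + 3) * curvMean ((p : ℝ) + 2) c A B := by
  set n : ℝ := (p : ℝ) + 2 with hn
  have hn0 : 0 < n := by positivity
  set K := 2 * A * B - B ^ 2 * c ^ 2 / n with hK
  set u0 := 1 + 2 / 3 * max 0 (-A) with hu0
  set u1 := 2 / 3 * max 0 (-B) with hu1
  set β0 := (A ^ 2 * (n + 4) + K) / ((n + 4) * c ^ 2 + n) with hβ0
  set γ0 := (n * A ^ 2 - c ^ 2 * K) / ((n + 4) * c ^ 2 + n) ^ 2 with hγ0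
  set β1 := (A ^ 2 * (n + 2) + K) / ((n + 2) * c ^ 2 + n) with hβ1
  set γ1 := (n * A ^ 2 - c ^ 2 * K) / ((n + 2) * c ^ 2 + n) ^ 2 with hγ1
  set k0 := u1 * (B ^ 2 / n) with hk0
  set k1 := u0 * (B ^ 2 / n) + u1 * (β1 - γ1 * (n + 2)) with hk1
  set k2 := u0 * (β0 - γ0 * (n + 4)) + u1 * γ1 with hk2
  set k3 := u0 * γ0 with hk3
  have hP : ∀ R ∈ Ioi (0 : ℝ), c ^ 4 / 2 * (k0 * (R ^ (p + 1) * Real.exp (-(R ^ 2) / 2)) +
        k1 * (R ^ (p + 3) * Real.exp (-(R ^ 2) / 2)) +
        k2 * (R ^ (p + 5) * Real.exp (-(R ^ 2) / 2)) +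
        k3 * (R ^ (p + 7) * Real.exp (-(R ^ 2) / 2))) =
      R ^ (p + 3) * Real.exp (-(R ^ 2) / 2) * curvPoly n c A B (R ^ 2) := fun R hR => by
    have hR0 : R ≠ 0 := (show (0 : ℝ) < R from hR).ne'
    simp only [curvPoly, curvP0, curvP1, ← hK, ← hu0, ← hu1, ← hβ0, ← hγ0, ← hβ1, ← hγ1, hk0,
      hk1, hk2, hk3]
    simp only [pow_succ, pow_zero]
    field_simp
    ring
  have i0 := (integrableOn_radial (p + 1)).const_mul k0
  have i1 := (integrableOn_radial (p + 3)).const_mul k1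
  have i2 := (integrableOn_radial (p + 5)).const_mul k2
  have i3 := (integrableOn_radial (p + 7)).const_mul k3
  refine ⟨IntegrableOn.congr_fun ((((i0.add i1).add i2).add i3).const_mul (c ^ 4 / 2)) hP
    measurableSet_Ioi, ?_⟩
  rw [← setIntegral_congr_fun measurableSet_Ioi hP, MeasureTheory.integral_const_mul,
    MeasureTheory.integral_add, MeasureTheory.integral_add, MeasureTheory.integral_add]
  rotate_left
  · exact i0
  · exact i1
  · exact i0.add i1
  · exact i2
  · exact (i0.add i1).add i2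
  · exact i3
  simp only [MeasureTheory.integral_const_mul]
  simp only [show ∀ k : ℕ, ∫ R in Ioi (0 : ℝ), R ^ k * Real.exp (-(R ^ 2) / 2) = radial k from
    fun k => rfl]
  have r1 := radial_step (p + 1)
  have r2 := radial_step (p + 3)
  have r3 := radial_step (p + 5)
  push_cast at r1 r2 r3
  rw [r3, r2, show radial (p + 1) = radial (p + 3) / n by
    rw [eq_div_iff hn0.ne', r1, hn]; ring]
  have hD0 : 0 < (n + 4) * c ^ 2 + n := by positivity
  have hD1 : 0 < (n + 2) * c ^ 2 + n := by positivity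
  simp only [curvMean, curvT0, curvT1, ← hu0, ← hu1, hk0, hk1, hk2, hk3, hβ0, hγ0, hβ1, hγ1, hK,
    show (p : ℝ) = n - 2 by rw [hn]; ring]
  field_simp
  ring

/-- The mean of the bound is nonnegative. -/
theorem curvMean_nonneg {n c A B : ℝ} (hn : 0 < n) : 0 ≤ curvMean n c A B := by
  have h0 : 0 ≤ (n + 2) * (n + 4) * A ^ 2 + 2 * (n + 2) * A * B + (1 + 2 * c ^ 2 / n) * B ^ 2 := by
    have h : 0 ≤ 2 * c ^ 2 / n * B ^ 2 := by positivity
    nlinarith [sq_nonneg ((n + 2) * A + B)]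
  have h1 : 0 ≤ (n + 2) * A ^ 2 + 2 * A * B + (1 + 2 * c ^ 2 / n) * B ^ 2 / n := by
    have h : 0 ≤ (n + 2) * A ^ 2 * n + 2 * A * B * n + (1 + 2 * c ^ 2 / n) * B ^ 2 := by
      have : 0 ≤ 2 * c ^ 2 / n * B ^ 2 := by positivity
      nlinarith [sq_nonneg (n * A + B)]
    rw [show (n + 2) * A ^ 2 + 2 * A * B + (1 + 2 * c ^ 2 / n) * B ^ 2 / n =
      ((n + 2) * A ^ 2 * n + 2 * A * B * n + (1 + 2 * c ^ 2 / n) * B ^ 2) / n by field_simp]
    positivity
  simp only [curvMean, curvT0, curvT1]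
  positivity

theorem curvE_nonneg (p : ℕ) (s t a r q : ℝ) : 0 ≤ curvE p s t a r q :=
  curvMean_nonneg (by positivity)

/-- The mean of the bound grows at most like the cube of the coefficients. -/
theorem curvMean_le {n c A B W : ℝ} (hn : 1 ≤ n) (hc : c ^ 2 ≤ 1) (hA : 1 + |A| + |B| ≤ W) :
    curvMean n c A B ≤ c ^ 4 / 2 * (((n + 4) ^ 2 + 2 * (n + 4) + 3) * W ^ 3) := by
  have hW : 1 ≤ W := by linarith [abs_nonneg A, abs_nonneg B]
  have hA2 : A ^ 2 ≤ W ^ 2 := sq_le_sq.2 (by rw [abs_of_nonneg (by linarith : (0:ℝ) ≤ W)]; linarith [abs_nonneg B])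
  have hB2 : B ^ 2 ≤ W ^ 2 := sq_le_sq.2 (by rw [abs_of_nonneg (by linarith : (0:ℝ) ≤ W)]; linarith [abs_nonneg A])
  have hAB : A * B ≤ W ^ 2 := by nlinarith [sq_nonneg (A - B)]
  have hk3 : 1 + 2 * c ^ 2 / n ≤ 3 := by
    have : 2 * c ^ 2 / n ≤ 2 := by rw [div_le_iff₀ (by linarith)]; nlinarith
    linarith
  have hk0 : 0 ≤ 1 + 2 * c ^ 2 / n := by positivity
  have hKB : (1 + 2 * c ^ 2 / n) * B ^ 2 ≤ 3 * W ^ 2 :=
    mul_le_mul hk3 hB2 (sq_nonneg _) (by norm_num)
  set C := (n + 4) ^ 2 + 2 * (n + 4) + 3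
  have hC : 0 ≤ C * W ^ 2 := by positivity
  have h0 : curvT0 n c A B ≤ C * W ^ 2 := by
    rw [curvT0, div_le_iff₀ (by positivity)]
    refine le_trans ?_ (le_mul_of_one_le_right hC (by nlinarith [sq_nonneg c]))
    nlinarith [mul_le_mul_of_nonneg_left hA2 (show 0 ≤ (n + 2) * (n + 4) by positivity),
      mul_le_mul_of_nonneg_left hAB (show 0 ≤ n + 2 by positivity), sq_nonneg W]
  have h1 : curvT1 n c A B ≤ C * W ^ 2 := by
    rw [curvT1, div_le_iff₀ (by positivity)]
    refine le_trans ?_ (le_mul_of_one_le_right hC (by nlinarith [sq_nonneg c]))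
    have : (1 + 2 * c ^ 2 / n) * B ^ 2 / n ≤ 3 * W ^ 2 := (div_le_self (by positivity) hn).trans hKB
    nlinarith [mul_le_mul_of_nonneg_left hA2 (show 0 ≤ n + 2 by positivity), sq_nonneg W,
      mul_nonneg (sq_nonneg W) (show 0 ≤ n by linarith)]
  have hmA : max 0 (-A) ≤ |A| := max_le (abs_nonneg _) (neg_le_abs A)
  have hmB : max 0 (-B) ≤ |B| := max_le (abs_nonneg _) (neg_le_abs B)
  calc curvMean n c A B ≤ c ^ 4 / 2 *
        ((1 + 2 / 3 * max 0 (-A)) * (C * W ^ 2) + 2 / 3 * max 0 (-B) * (C * W ^ 2)) := by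
        rw [curvMean]; gcongr
    _ ≤ c ^ 4 / 2 * (W * (C * W ^ 2)) := by
        rw [← add_mul]
        gcongr
        linarith [abs_nonneg A, abs_nonneg B]
    _ = _ := by ring

/-- The coefficients are linear in `1`, `1 / r` and the weighted slope. -/
theorem abs_coeff_le {p : ℕ} {s t a r q d : ℝ} (S : LiftState p s t a r q) (hd : 0 < d)
    (hM : d ≤ liftM s t r) :
    1 + |scoreA s t r / liftM s t r| + |scoreB p s t a r q / liftM s t r| ≤
      (1 + 1 / d + ((p : ℝ) + 2) / d ^ 2) *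
        (1 + 1 / r + (1 - s ^ 2) / r * (-q / a) / r) := by
  set M := liftM s t r with hMd
  have hMp : 0 < M := hd.trans_le hM
  have hr := S.rate_pos
  have ha := S.pos
  have hs : |s| ≤ 1 := abs_le.2 ⟨by linarith [S.s_mem.1], S.s_mem.2.le⟩
  have ht : |t| ≤ 1 := abs_le.2 ⟨by linarith [S.t_mem.1], S.t_mem.2.le⟩
  set Z := (1 - s ^ 2) / r * (-q / a) / r with hZd
  have hs2 : 0 ≤ 1 - s ^ 2 := by nlinarith [S.s_mem.1, S.s_mem.2]
  have hq : 0 ≤ -q := neg_nonneg.2 S.slope
  have hZ : 0 ≤ Z := by positivity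
  have hr1 : 0 ≤ 1 / r := by positivity
  have hsr : |s / r| ≤ 1 / r := by
    rw [abs_div, abs_of_pos hr]
    exact div_le_div_of_nonneg_right hs hr.le
  have hts : |t - s / r| ≤ 1 + 1 / r := (abs_sub _ _).trans (add_le_add ht hsr)
  set x := 1 + 1 / r + Z with hx
  have hx0 : 0 ≤ x := by positivity
  have hA : |scoreA s t r / M| ≤ 1 / d * x := by
    rw [abs_div, abs_of_pos hMp, one_div_mul_eq_div]
    refine div_le_div₀ hx0 ?_ hd hM
    rw [scoreA, abs_mul]
    exact (mul_le_of_le_one_left (abs_nonneg _) hs).trans (hts.trans (by linarith))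
  have hZe : |(1 - s ^ 2) / r * (q / (a * r))| = Z := by
    rw [show (1 - s ^ 2) / r * (q / (a * r)) = -Z by rw [hZd]; field_simp]
    rw [abs_neg, abs_of_nonneg hZ]
  have hin : |t - s / r - ((p : ℝ) + 1) * ((1 - s ^ 2) / r * (q / (a * r)) + s / r)| ≤
      ((p : ℝ) + 2) * x := by
    refine (abs_sub _ _).trans ?_
    rw [abs_mul, abs_of_pos (show (0 : ℝ) < (p : ℝ) + 1 by positivity)]
    have h3 := mul_le_mul_of_nonneg_left ((abs_add_le _ _).trans (add_le_add hZe.le hsr))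
      (show (0 : ℝ) ≤ (p : ℝ) + 1 by positivity)
    rw [hx]
    linarith [Nat.cast_nonneg (α := ℝ) p]
  have hB : |scoreB p s t a r q / M| ≤ ((p : ℝ) + 2) / d ^ 2 * x := by
    have e : scoreB p s t a r q / M =
        t * (t - s / r - ((p : ℝ) + 1) * ((1 - s ^ 2) / r * (q / (a * r)) + s / r)) / M ^ 2 := by
      rw [scoreB, ← hMd]
      ring
    rw [e, abs_div, abs_mul, abs_of_pos (pow_pos hMp 2)]
    refine (div_le_div₀ (mul_nonneg (by positivity) hx0) ((mul_le_of_le_one_left (abs_nonneg _)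
      ht).trans hin) (pow_pos hd 2) (pow_le_pow_left₀ hd.le hM 2)).trans (le_of_eq ?_)
    ring
  linarith

/-- The cube of the size of the coefficients against the section law is bounded. -/
theorem weight_cube_le {s t a r q : ℝ} (S : LiftState p s t a r q)
    (hG : a ^ (p + 1) ≤ g 0 ^ (p + 1)) :
    a ^ (p + 1) * arc s ^ 4 * (1 + 1 / r + (1 - s ^ 2) / r * (-q / a) / r) ^ 3 ≤
      9 * (g 0 ^ (p + 1) + ((p : ℝ) + 3) ^ 2 + ((p : ℝ) + 3) ^ 5) := by
  have hc := S.arc_pos'
  have hc1 : arc s ≤ 1 := Real.sqrt_le_one.2 (by nlinarith [S.s_mem.1])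
  have hc2 : arc s ^ 2 = 1 - s ^ 2 := Real.sq_sqrt (by nlinarith [S.s_mem.1, S.s_mem.2])
  have hr := S.rate_pos
  have hX := S.sq_le
  rw [← hc2] at hX ⊢
  set c := arc s
  set K : ℝ := (p : ℝ) + 3
  have hK : 0 ≤ K := by positivity
  set G := a ^ (p + 1) with hGd
  have hG0 : 0 < G := pow_pos S.pos _
  have hGr : G = r * c ^ (p + 1) := by rw [S.rate_eq, div_mul_cancel₀ _ (pow_pos hc _).ne']
  set u := -q / a with hud
  have hu0 : 0 ≤ u := div_nonneg (neg_nonneg.2 S.slope) S.pos.le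
  have hu1 : u * (1 - t) ≤ 1 := by rw [hud, div_mul_eq_mul_div, div_le_one S.pos]; exact S.slope_le
  have h1t : 0 ≤ 1 - t := by linarith [S.t_mem.2]
  have h1t' : 1 - t ≤ 1 := by linarith [S.t_mem.1]
  have hX0 : 0 ≤ c ^ 2 / r := by positivity
  set Z := c ^ 2 / r * u / r with hZd
  have hZ : 0 ≤ Z := by positivity
  have hc4 : 0 ≤ G * c ^ 4 := by positivity
  have b1 : G * c ^ 4 ≤ g 0 ^ (p + 1) :=
    (mul_le_of_le_one_right hG0.le (pow_le_one₀ hc.le hc1)).trans hG
  have b2 : G * c ^ 4 * (1 / r) ^ 3 ≤ K ^ 2 := by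
    calc G * c ^ 4 * (1 / r) ^ 3 = c ^ (p + 1) * (c ^ 2 / r) ^ 2 := by
          rw [hGr]; field_simp
      _ ≤ 1 * K ^ 2 := mul_le_mul (pow_le_one₀ hc.le hc1)
          (pow_le_pow_left₀ hX0 (hX.trans (mul_le_of_le_one_right hK h1t')) 2) (by positivity)
          zero_le_one
      _ = _ := one_mul _
  have b3 : G * c ^ 4 * Z ^ 3 ≤ K ^ 5 := by
    calc G * c ^ 4 * Z ^ 3 = c ^ (p + 1) * ((c ^ 2 / r) ^ 5 * u ^ 3) := by
          rw [hGr, hZd]; field_simp
      _ ≤ 1 * ((K * (1 - t)) ^ 5 * u ^ 3) := mul_le_mul (pow_le_one₀ hc.le hc1)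
          (mul_le_mul_of_nonneg_right (pow_le_pow_left₀ hX0 hX 5) (pow_nonneg hu0 3))
          (mul_nonneg (pow_nonneg hX0 5) (pow_nonneg hu0 3)) zero_le_one
      _ = K ^ 5 * ((1 - t) ^ 2 * (u * (1 - t)) ^ 3) := by ring
      _ ≤ K ^ 5 * (1 * 1) := mul_le_mul_of_nonneg_left (mul_le_mul (pow_le_one₀ h1t h1t')
            (pow_le_one₀ (mul_nonneg hu0 h1t) hu1) (pow_nonneg (mul_nonneg hu0 h1t) 3)
            zero_le_one) (pow_nonneg hK 5)
      _ = _ := by ring
  have hcube : (1 + 1 / r + Z) ^ 3 ≤ 9 * (1 + (1 / r) ^ 3 + Z ^ 3) := by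
    have hb : (0 : ℝ) ≤ 1 / r := by positivity
    generalize 1 / r = b at hb ⊢
    nlinarith [mul_nonneg (add_nonneg zero_le_one hb) (sq_nonneg (1 - b)),
        mul_nonneg (add_nonneg zero_le_one hZ) (sq_nonneg (1 - Z)),
        mul_nonneg (add_nonneg hb hZ) (sq_nonneg (b - Z)), mul_nonneg hb (sq_nonneg (1 - Z)),
        mul_nonneg hZ (sq_nonneg (1 - b)), sq_nonneg (b - Z)]
  refine (mul_le_mul_of_nonneg_left hcube hc4).trans ?_
  linarith

/-- The rational bound against the section law is bounded along a transport. -/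
theorem curvE_bound (hg : Regular g) (hσ : Transport p g σ) :
    ∃ C : ℝ, ∀ t ∈ Ioo (0 : ℝ) 1,
      |g t ^ (p + 1) * curvE p (σ t) t (g t) (rate p g σ t) (slopeR g t)| ≤ C := by
  obtain ⟨d, hd, hb⟩ := liftM_bounds hg hσ
  set n : ℝ := (p : ℝ) + 2 with hn
  set Cw := 1 + 1 / d + n / d ^ 2 with hCw
  refine ⟨((n + 4) ^ 2 + 2 * (n + 4) + 3) / 2 * Cw ^ 3 *
    (9 * (g 0 ^ (p + 1) + ((p : ℝ) + 3) ^ 2 + ((p : ℝ) + 3) ^ 5)), fun t ht => ?_⟩
  have S := liftState_profile hg hσ ht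
  have hG0 : g t ^ (p + 1) ≤ g 0 ^ (p + 1) := pow_le_pow_left₀ S.pos.le
    (antitoneOn_of_concave_even hg.concave hg.even (left_mem_Icc.2 zero_le_one)
      (Ioo_subset_Icc_self ht) ht.1.le) _
  have hc := S.arc_pos'
  have hle := curvMean_le (n := n) (by rw [hn]; linarith [Nat.cast_nonneg (α := ℝ) p])
    (pow_le_one₀ hc.le (Real.sqrt_le_one.2 (by nlinarith [S.s_mem.1])))
    (abs_coeff_le S hd (hb t ht).1)
  rw [← hn] at hle
  rw [abs_of_nonneg (mul_nonneg (pow_nonneg S.pos.le _) (curvE_nonneg _ _ _ _ _ _))]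
  refine (mul_le_mul_of_nonneg_left hle (pow_nonneg S.pos.le _)).trans ?_
  calc g t ^ (p + 1) * (arc (σ t) ^ 4 / 2 * (((n + 4) ^ 2 + 2 * (n + 4) + 3) * (Cw *
        (1 + 1 / rate p g σ t +
          (1 - σ t ^ 2) / rate p g σ t * (-slopeR g t / g t) / rate p g σ t)) ^ 3))
      = ((n + 4) ^ 2 + 2 * (n + 4) + 3) / 2 * Cw ^ 3 * (g t ^ (p + 1) * arc (σ t) ^ 4 *
          (1 + 1 / rate p g σ t +
            (1 - σ t ^ 2) / rate p g σ t * (-slopeR g t / g t) / rate p g σ t) ^ 3) := by ring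
    _ ≤ _ := mul_le_mul_of_nonneg_left (weight_cube_le S hG0) (by positivity)

/-- The rational bound against the section law is integrable. -/
theorem integrable_curvE (hg : Regular g) (hσ : Transport p g σ) :
    IntervalIntegrable (fun t => g t ^ (p + 1) *
      curvE p (σ t) t (g t) (rate p g σ t) (slopeR g t)) volume 0 1 := by
  obtain ⟨h1, h2, h3, h4⟩ := measurable_data hg hσ
  obtain ⟨C, hC⟩ := curvE_bound hg hσ
  have hid : AEMeasurable (fun t : ℝ => t) (volume.restrict (Ioo (0 : ℝ) 1)) := aemeasurable_id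
  refine integrable_of_bound ?_ hC
  simp only [curvE, curvMean, curvT0, curvT1, scoreA, scoreB, liftM, arc]
  fun_prop

/-- The integrand of the entropy bound along a transport is integrable. -/
theorem integrable_entropy_curvE (hg : Regular g) (hσ : Transport p g σ) :
    IntervalIntegrable (fun t => g t ^ (p + 1) * (Real.log (liftM (σ t) t (rate p g σ t)) +
      curvE p (σ t) t (g t) (rate p g σ t) (slopeR g t))) volume 0 1 := by
  simpa only [mul_add] using (integrable_log_liftM hg hσ).add (integrable_curvE hg hσ)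

/-- A primitive at `t` minus the same primitive at `s` is a null field. -/
theorem nullField_primitive {φ : ℝ → ℝ} (hφ : Continuous φ) :
    NullField p fun s t _ r _ => φ t - φ s * r := fun g σ hg hσ => by
  set A : ℝ → ℝ := fun x => ∫ u in (0 : ℝ)..x, φ u with hA
  have hAd : ∀ x, HasDerivAt A (φ x) x := fun x => (hφ.integral_hasStrictDerivAt 0 x).hasDerivAt
  have hAc : Continuous A := continuous_iff_continuousAt.2 fun x => (hAd x).continuousAt
  refine ⟨fun t => A t - A (σ t), hAc.continuousOn.sub (hAc.comp_continuousOn hσ.cont), ?_,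
    fun t ht => ?_⟩
  · simp only [hσ.one, hσ.zero, sub_self, le_refl]
  · exact ((hAd t).sub ((hAd (σ t)).comp t (hσ.deriv t ht))).hasDerivWithinAt

/-- The density of the first null field. -/
noncomputable def firstWeight (p : ℕ) (x : ℝ) : ℝ :=
  -(obsWeight p x / ((p : ℝ) + 1) + Ident.b0 p * arc x ^ p -
    (p : ℝ) / (((p : ℝ) + 4) * Ident.b0 p ^ 2) * arc x ^ (p + 3))

/-- The first null field: it cancels the first variation at the circle for
`nu = L - muMin / 2`. -/
noncomputable def firstNull (p : ℕ) (s t r : ℝ) : ℝ := firstWeight p t - firstWeight p s * r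

theorem continuous_firstWeight (p : ℕ) : Continuous (firstWeight p) :=
  ((((continuous_obsWeight p).div_const _).add (continuous_const.mul (continuous_arc.pow _))).sub
    (continuous_const.mul (continuous_arc.pow _))).neg

theorem nullField_first (p : ℕ) : NullField p fun s t _ r _ => firstNull p s t r :=
  nullField_primitive (continuous_firstWeight p)

end Vale.Agent.P237.Petty.Lift
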