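import Vale.Agent.P237.Petty.Lift.Main

/-!
# P237: the criterion with a Gaussian test density

With a centred Gaussian test density the entropy term of a profile is at most half the logarithm of
its normalised second moment. So an inequality between the shadow, the axial Fisher excess, the
obstacle gain and that moment gives the step, with no lift; it is needed only where the shadow is
not larger than that of the circle, and no strictness is needed. Its pointwise form has the state
`(t, g)`, a mass multiplier and the variance, and may use the transport.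
-/

namespace Vale.Agent.P237.Petty.Lift

open MeasureTheory Set Filter Topology intervalIntegral
open Ident (half rate)

universe u

variable {p : ℕ} {g σ : ℝ → ℝ}

/-- The centred Gaussian density of variance `s0`. -/
noncomputable def gaussDens (s0 x : ℝ) : ℝ :=
  Real.exp (-(x ^ 2 / (2 * s0))) / √(2 * Real.pi * s0)

theorem log_gaussDens {s0 : ℝ} (hs : 0 < s0) (x : ℝ) :
    Real.log (gaussDens s0 x) = -(x ^ 2 / (2 * s0)) - Real.log (2 * Real.pi * s0) / 2 := by
  rw [gaussDens, Real.log_div (Real.exp_pos _).ne' (by positivity), Real.log_exp,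
    Real.log_sqrt (by positivity)]

theorem densityTest_gauss {s0 : ℝ} (hs : 0 < s0) : DensityTest (gaussDens s0) where
  continuous := by unfold gaussDens; fun_prop
  positive x := div_pos (Real.exp_pos _) (by positivity)
  integrable := by
    have h := (integrable_exp_neg_mul_sq (b := (2 * s0)⁻¹) (by positivity)).div_const
      √(2 * Real.pi * s0)
    refine h.congr (Eventually.of_forall fun x => ?_)
    simp only [gaussDens]
    congr 2
    ring
  mass := by
    refine le_of_eq ?_
    simp only [gaussDens]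
    rw [MeasureTheory.integral_div, show (fun x : ℝ => Real.exp (-(x ^ 2 / (2 * s0)))) =
        fun x => Real.exp (-(2 * s0)⁻¹ * x ^ 2) from funext fun x => by congr 1; ring,
      integral_gaussian, show Real.pi / (2 * s0)⁻¹ = 2 * Real.pi * s0 by field_simp,
      div_self (by positivity)]
  growth := by
    refine ⟨1 / (2 * s0) + |Real.log (2 * Real.pi * s0)|, 2, fun x => ?_⟩
    rw [log_gaussDens hs, abs_le]
    have h0 := abs_nonneg x
    have h1 : x ^ 2 ≤ (1 + |x|) ^ 2 := by nlinarith [sq_abs x]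
    have h2 : 1 ≤ (1 + |x|) ^ 2 := one_le_pow₀ (by linarith)
    have e : x ^ 2 / (2 * s0) = 1 / (2 * s0) * x ^ 2 := by ring
    have h3 := mul_le_mul_of_nonneg_left h1 (show 0 ≤ 1 / (2 * s0) by positivity)
    have h4 := mul_le_mul_of_nonneg_left h2 (abs_nonneg (Real.log (2 * Real.pi * s0)))
    constructor <;> nlinarith [abs_nonneg (Real.log (2 * Real.pi * s0)),
      le_abs_self (Real.log (2 * Real.pi * s0)), neg_abs_le (Real.log (2 * Real.pi * s0)),
      mul_nonneg (show 0 ≤ 1 / (2 * s0) by positivity) (sq_nonneg x)]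

/-- The normalised second moment of a profile; it is `1` for the circle. -/
noncomputable def secondMom (p : ℕ) (g : ℝ → ℝ) : ℝ :=
  ((p : ℝ) + 4) * (∫ t in (0 : ℝ)..1, t ^ 2 * g t ^ (p + 1)) / half (p + 1)

theorem secondMom_pos (hg : Regular g) (p : ℕ) : 0 < secondMom p g :=
  div_pos (mul_pos (by positivity) (intervalIntegral.intervalIntegral_pos_of_pos_on
    (ContinuousOn.intervalIntegrable (by
      rw [uIcc_of_le zero_le_one]
      exact (continuousOn_id.pow 2).mul ((continuousOn_profile hg).pow _)))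
    (fun t ht => mul_pos (pow_pos ht.1 2) (pow_pos (hg.pos_of_lt ⟨ht.1.le, ht.2⟩) _))
    zero_lt_one)) (Ident.half_pos _)

/-- The entropy term of a Gaussian test density. -/
theorem entTerm_gauss (hg : Regular g)
    (hv : (∫ t in (-1 : ℝ)..1, g t ^ (p + 1)) = circ (p + 1)) {s0 : ℝ} (hs : 0 < s0) :
    entTerm p g (gaussDens s0) = (secondMom p g / s0 + Real.log s0 - 1) / 2 := by
  set α := -(Real.log (2 * Real.pi * s0) / 2) with hα
  set M2 := ∫ t in (-1 : ℝ)..1, t ^ 2 * g t ^ (p + 1) with hM2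
  have hu : uIcc (-1 : ℝ) 1 = Icc (-1) 1 := uIcc_of_le (by norm_num)
  have i1 : IntervalIntegrable (fun t => g t ^ (p + 1)) volume (-1) 1 :=
    ContinuousOn.intervalIntegrable (by rw [hu]; exact hg.cont.pow _)
  have i2 : IntervalIntegrable (fun t => t ^ 2 * g t ^ (p + 1)) volume (-1) 1 :=
    ContinuousOn.intervalIntegrable (by rw [hu]; exact (continuousOn_id.pow 2).mul (hg.cont.pow _))
  have hC := circ_pos (p + 1)
  have hav : ∀ w : ℝ, pavg (p + 1) g (fun t => Real.log (gaussDens s0 (w * t))) =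
      α + -(w ^ 2 / (2 * s0)) * (M2 / circ (p + 1)) := fun w => by
    have e : ∀ t, Real.log (gaussDens s0 (w * t)) * g t ^ (p + 1) =
        α * g t ^ (p + 1) + -(w ^ 2 / (2 * s0)) * (t ^ 2 * g t ^ (p + 1)) := fun t => by
      rw [log_gaussDens hs, hα]; ring
    simp only [pavg, e]
    rw [intervalIntegral.integral_add (i1.const_mul _) (i2.const_mul _),
      intervalIntegral.integral_const_mul, intervalIntegral.integral_const_mul, hv, ← hM2]
    field_simp
  have j1 := (integrableOn_radial (p + 3)).const_mul α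
  have j2 := (integrableOn_radial (p + 5)).const_mul (-(M2 / circ (p + 1) / (2 * s0)))
  have hI : ∫ w in Ioi (0 : ℝ), w ^ (p + 3) * Real.exp (-(w ^ 2) / 2) *
      (α + -(w ^ 2 / (2 * s0)) * (M2 / circ (p + 1))) =
      α * radial (p + 3) + -(M2 / circ (p + 1) / (2 * s0)) * radial (p + 5) := by
    rw [setIntegral_congr_fun measurableSet_Ioi (g := fun w =>
      α * (w ^ (p + 3) * Real.exp (-(w ^ 2) / 2)) +
        -(M2 / circ (p + 1) / (2 * s0)) * (w ^ (p + 5) * Real.exp (-(w ^ 2) / 2)))
      fun w _ => by ring,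
      MeasureTheory.integral_add j1 j2, MeasureTheory.integral_const_mul,
      MeasureTheory.integral_const_mul]
    rfl
  have hr := radial_step (p + 3)
  push_cast at hr
  have hM : M2 = 2 * ∫ t in (0 : ℝ)..1, t ^ 2 * g t ^ (p + 1) := by
    rw [hM2, integral_even (fun t => by rw [hg.even, neg_sq]) i2]
  simp only [entTerm, hav]
  rw [hI, show relVolume p g = 1 by rw [relVolume, hv, div_self hC.ne'], Real.log_one, zero_div,
    sub_zero, hr, secondMom, hM, Ident.circ_eq_half, hα,
    Real.log_mul (show (2 * Real.pi : ℝ) ≠ 0 by positivity) hs.ne',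
    Real.log_mul (show (2 * Real.pi : ℝ) ≠ 0 by positivity) (Real.exp_ne_zero 1), Real.log_exp]
  have := radial_pos (p + 3)
  have := Ident.half_pos (p + 1)
  field_simp
  ring

/-- The inequality of the Gaussian test gives the lifted bound. -/
theorem gBound_of_gauss {kappa nu : ℝ}
    (h : ∀ g : ℝ → ℝ, Regular g → (∫ t in (-1 : ℝ)..1, g t ^ (p + 1)) = circ (p + 1) →
      0 ≤ ((p : ℝ) + 1) * ((∫ t in (-1 : ℝ)..1, g t ^ p) / circ p - 1) +
        nu * (jInt p g / circ (p + 1) - 1) +
        (∫ t in (0 : ℝ)..1, obsPart p g t) / half (p + 1) -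
        kappa / 2 * Real.log (secondMom p g)) :
    GBound p kappa nu := fun g hg hv ε hε => by
  have hS := secondMom_pos hg p
  refine ⟨gaussDens (secondMom p g), densityTest_gauss hS, ?_⟩
  rw [entTerm_gauss hg hv hS, div_self hS.ne']
  linarith [h g hg hv]

/-- The criterion of the Gaussian test: only the profiles whose shadow is not larger than that of
the circle are asked for. -/
def GaussBound (p : ℕ) (kappa nu : ℝ) : Prop :=
  ∀ g : ℝ → ℝ, Regular g → (∫ t in (-1 : ℝ)..1, g t ^ (p + 1)) = circ (p + 1) →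
    (∫ t in (-1 : ℝ)..1, g t ^ p) ≤ circ p →
    0 ≤ nu * (jInt p g / circ (p + 1) - 1) +
      (∫ t in (0 : ℝ)..1, obsPart p g t) / half (p + 1) - kappa / 2 * Real.log (secondMom p g)

/-- A profile above the circle with the mass of the circle has its shadow. -/
theorem shadow_eq_of_above (hg : Regular g)
    (hv : (∫ t in (-1 : ℝ)..1, g t ^ (p + 1)) = circ (p + 1))
    (hge : ∀ t ∈ Icc (-1 : ℝ) 1, √(1 - t ^ 2) ≤ g t) :
    (∫ t in (-1 : ℝ)..1, g t ^ p) = circ p := by
  have hu : uIcc (-1 : ℝ) 1 = Icc (-1) 1 := uIcc_of_le (by norm_num)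
  have hcc : Continuous fun t : ℝ => √(1 - t ^ 2) ^ (p + 1) := by fun_prop
  have hgi : IntervalIntegrable (fun t => g t ^ (p + 1)) volume (-1) 1 :=
    ContinuousOn.intervalIntegrable (by rw [hu]; exact hg.cont.pow _)
  have hd : IntervalIntegrable (fun t => g t ^ (p + 1) - √(1 - t ^ 2) ^ (p + 1)) volume (-1) 1 :=
    hgi.sub (hcc.intervalIntegrable _ _)
  have hnn : 0 ≤ᵐ[volume.restrict (Ioc (-1 : ℝ) 1)]
      fun t => g t ^ (p + 1) - √(1 - t ^ 2) ^ (p + 1) := by
    filter_upwards [ae_restrict_mem measurableSet_Ioc] with t ht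
    exact sub_nonneg.2 (pow_le_pow_left₀ (Real.sqrt_nonneg _) (hge t (Ioc_subset_Icc_self ht)) _)
  have h0 : ∫ t in (-1 : ℝ)..1, g t ^ (p + 1) - √(1 - t ^ 2) ^ (p + 1) = 0 := by
    rw [intervalIntegral.integral_sub hgi (hcc.intervalIntegrable _ _), hv, circ, sub_self]
  have hz := (intervalIntegral.integral_eq_zero_iff_of_le_of_nonneg_ae (by norm_num) hnn hd).1 h0
  rw [circ, intervalIntegral.integral_of_le (by norm_num),
    intervalIntegral.integral_of_le (by norm_num)]
  refine integral_congr_ae ?_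
  filter_upwards [hz, ae_restrict_mem measurableSet_Ioc] with t hzt ht
  rw [pow_left_inj₀ (hg.nonneg t (Ioc_subset_Icc_self ht)) (Real.sqrt_nonneg _)
    (Nat.succ_ne_zero p) |>.1 (sub_eq_zero.1 hzt)]

/-- The criterion of the Gaussian test gives the step, with the case of equality. -/
theorem stepHolds_of_gauss (hp : 1 ≤ p) {kappa nu : ℝ} (hk : Ident.muMin p ≤ kappa) (hnu : 0 ≤ nu)
    (hG : GaussBound p kappa nu) : StepHolds.{u} p := by
  refine stepHolds_of_criterion (criterion_of_bound ((muMin_pos hp).le.trans hk) hnu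
    (fun g => kappa / 2 * Real.log (secondMom p g) - nu * (jInt p g / circ (p + 1) - 1))
    (fun g hg hv ε hε => ?_) fun g s hg hv hs hs1 hge hC => ?_)
  · have hS := secondMom_pos hg p
    refine ⟨gaussDens (secondMom p g), densityTest_gauss hS, ?_⟩
    rw [entTerm_gauss hg hv hS, div_self hS.ne']
    linarith
  have hlow : (∫ t in (-1 : ℝ)..1, g t ^ p) ≤ circ p → s = 1 := fun hA => by
    have h := hG g hg hv hA
    obtain ⟨h1, h2⟩ := obstacle_gain_le hp hg hv hs hs1 hge
    have hlog : 0 ≤ -Real.log s := neg_nonneg.2 (Real.log_nonpos hs.le hs1)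
    have h3 : Ident.muMin p * (((p : ℝ) + 1) / ((p : ℝ) + 2)) * -Real.log s ≤
        kappa * (((p : ℝ) + 1) / ((p : ℝ) + 2)) * -Real.log s := by gcongr
    exact h2 (by linarith)
  have hcp := circ_pos p
  refine ⟨?_, fun he => hlow (le_of_eq ((div_eq_one_iff_eq hcp.ne').1 he))⟩
  rw [one_le_div hcp]
  by_contra hlt
  have hs' := hlow (le_of_not_ge hlt)
  subst hs'
  exact hlt (le_of_eq (shadow_eq_of_above hg hv fun t ht => by simpa using hge t ht).symm)

/-- The pointwise integrand of the Gaussian criterion: `gam` multiplies the shadow excess, `mu`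
the mass excess and `s0` is the variance of the test. -/
noncomputable def gaussPart (p : ℕ) (nu kappa gam mu s0 t a q : ℝ) : ℝ :=
  gam * (Ident.b0 p * a ^ p - a ^ (p + 1)) +
    nu * (((p : ℝ) + 1) * a ^ p * q ^ 2 / (a - t * q) + ((p : ℝ) + 1) * t * a ^ p * q) +
    obsWeight p t * max 0 (Real.log (arc t / a)) + mu * (a ^ (p + 1) - arc t ^ (p + 1)) -
    kappa / 2 * ((((p : ℝ) + 4) * t ^ 2 / s0 + Real.log s0 - 1) * a ^ (p + 1))

/-- The Fisher excess without the transport. -/
theorem integral_jLine (hg : Regular g) (hσ : Transport p g σ) :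
    IntervalIntegrable (fun t => ((p : ℝ) + 1) * g t ^ p * slopeR g t ^ 2 / (g t - t * slopeR g t) +
        ((p : ℝ) + 1) * t * g t ^ p * slopeR g t) volume 0 1 ∧
      ∫ t in (0 : ℝ)..1, (((p : ℝ) + 1) * g t ^ p * slopeR g t ^ 2 / (g t - t * slopeR g t) +
        ((p : ℝ) + 1) * t * g t ^ p * slopeR g t) = half (p + 1) * jExc p g := by
  have hu : uIcc (0 : ℝ) 1 = Icc 0 1 := uIcc_of_le zero_le_one
  have hgc := continuousOn_profile hg
  have hsub : uIcc (0 : ℝ) 1 ⊆ uIcc (-1 : ℝ) 1 := by
    rw [hu, uIcc_of_le (by norm_num)]; exact Icc_subset_Icc (by norm_num) le_rfl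
  have iQ : IntervalIntegrable
      (fun t => ((p : ℝ) + 1) * (g t ^ p * slopeR g t ^ 2 / icept g t)) volume 0 1 :=
    ((Ident.integrable_jInt hg p).mono_set hsub).const_mul _
  have iq : IntervalIntegrable (fun t => ((p : ℝ) + 1) * t * g t ^ p * slopeR g t) volume 0 1 :=
    (hg.integrable_slopeR.mono_set hsub).continuousOn_mul (by rw [hu]; fun_prop)
  have im : IntervalIntegrable (fun t => g t ^ (p + 1)) volume 0 1 :=
    ContinuousOn.intervalIntegrable (by rw [hu]; exact hgc.pow _)
  have hψ : ∀ t ∈ Ioo (0 : ℝ) 1, HasDerivWithinAt (fun x => x * g x ^ (p + 1))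
      (g t ^ (p + 1) + ((p : ℝ) + 1) * t * g t ^ p * slopeR g t) (Ioi t) t := fun t ht => by
    have hq := hasDerivWithinAt_slopeR hg.concave (⟨by linarith [ht.1], ht.2⟩ : t ∈ Ioo (-1 : ℝ) 1)
    refine ((hasDerivWithinAt_id t _).fun_mul (hq.fun_pow (p + 1))).congr_deriv ?_
    simp only [Nat.add_sub_cancel, id]
    push_cast
    ring
  have hF := intervalIntegral.integral_eq_sub_of_hasDeriv_right_of_le zero_le_one
    (continuousOn_id.mul (hgc.pow _)) hψ (im.add iq)
  rw [intervalIntegral.integral_add im iq, integral_mass hσ] at hF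
  simp only [Pi.mul_apply, Pi.pow_apply, id, one_mul, zero_mul, sub_zero] at hF
  have e : ∀ t, ((p : ℝ) + 1) * g t ^ p * slopeR g t ^ 2 / (g t - t * slopeR g t) =
      ((p : ℝ) + 1) * (g t ^ p * slopeR g t ^ 2 / icept g t) := fun t => by rw [icept]; ring
  simp only [e]
  refine ⟨iQ.add iq, ?_⟩
  rw [intervalIntegral.integral_add iQ iq, intervalIntegral.integral_const_mul, jExc_eq hg p]
  have := (Ident.half_pos (p + 1)).ne'
  field_simp
  linarith

/-- A sign along one profile, up to a null function, gives the Gaussian criterion there. -/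
theorem gauss_of_sign (hg : Regular g) (hσ : Transport p g σ) {nu kappa gam mu s0 : ℝ}
    (hkap : 0 ≤ kappa) (hs0 : 0 < s0)
    (hA : gam * ((∫ t in (-1 : ℝ)..1, g t ^ p) / circ p - 1) ≤ 0)
    {ψ ψ' : ℝ → ℝ} (hψc : ContinuousOn ψ (Icc 0 1)) (hends : ψ 1 ≤ ψ 0)
    (hψd : ∀ t ∈ Ioo (0 : ℝ) 1, HasDerivWithinAt ψ (ψ' t) (Ioi t) t)
    (hpos : ∀ t ∈ Ioo (0 : ℝ) 1,
      0 ≤ gaussPart p nu kappa gam mu s0 t (g t) (slopeR g t) + ψ' t) :
    0 ≤ nu * (jInt p g / circ (p + 1) - 1) +
      (∫ t in (0 : ℝ)..1, obsPart p g t) / half (p + 1) -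
      kappa / 2 * Real.log (secondMom p g) := by
  have hu : uIcc (0 : ℝ) 1 = Icc 0 1 := uIcc_of_le zero_le_one
  have hgc := continuousOn_profile hg
  have ipow : ∀ j : ℕ, IntervalIntegrable (fun t => g t ^ j) volume 0 1 := fun j =>
    ContinuousOn.intervalIntegrable (by rw [hu]; exact hgc.pow j)
  have ic : IntervalIntegrable (fun t => arc t ^ (p + 1)) volume 0 1 :=
    (continuous_arc.pow _).intervalIntegrable _ _
  have i2 : IntervalIntegrable (fun t => t ^ 2 * g t ^ (p + 1)) volume 0 1 :=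
    ContinuousOn.intervalIntegrable (by rw [hu]; exact (continuousOn_id.pow 2).mul (hgc.pow _))
  have iG : IntervalIntegrable
      (fun t => (((p : ℝ) + 4) * t ^ 2 / s0 + Real.log s0 - 1) * g t ^ (p + 1)) volume 0 1 :=
    ContinuousOn.intervalIntegrable (by rw [hu]; fun_prop)
  have iA : IntervalIntegrable (fun t => Ident.b0 p * g t ^ p - g t ^ (p + 1)) volume 0 1 :=
    ((ipow p).const_mul _).sub (ipow _)
  have iM : IntervalIntegrable (fun t => g t ^ (p + 1) - arc t ^ (p + 1)) volume 0 1 :=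
    (ipow _).sub ic
  obtain ⟨iJ, eJ⟩ := integral_jLine hg hσ
  have iO := integrable_obsPart hg p
  have hFi : IntervalIntegrable
      (fun t => gaussPart p nu kappa gam mu s0 t (g t) (slopeR g t)) volume 0 1 :=
    ((((iA.const_mul gam).add (iJ.const_mul nu)).add iO).add (iM.const_mul mu)).sub
      (iG.const_mul (kappa / 2))
  have hkey := intervalIntegral.sub_le_integral_of_hasDeriv_right_of_le zero_le_one hψc.neg
    (fun t ht => (hψd t ht).neg)
    ((intervalIntegrable_iff_integrableOn_Icc_of_le zero_le_one).1 hFi)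
    fun t ht => by linarith [hpos t ht]
  simp only [Pi.neg_apply] at hkey
  set S := ∫ t in (0 : ℝ)..1, t ^ 2 * g t ^ (p + 1) with hS
  have eA : ∫ t in (0 : ℝ)..1, Ident.b0 p * g t ^ p - g t ^ (p + 1) =
      half (p + 1) * ((∫ t in (-1 : ℝ)..1, g t ^ p) / circ p - 1) := by
    rw [intervalIntegral.integral_sub ((ipow p).const_mul _) (ipow _),
      intervalIntegral.integral_const_mul, integral_mass hσ, Ident.circ_eq_half,
      integral_even (fun t => by rw [hg.even]) (ContinuousOn.intervalIntegrable (by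
        rw [uIcc_of_le (by norm_num)]; exact hg.cont.pow p)), Ident.b0]
    have := (Ident.half_pos p).ne'
    field_simp
  have eM : ∫ t in (0 : ℝ)..1, g t ^ (p + 1) - arc t ^ (p + 1) = 0 := by
    rw [intervalIntegral.integral_sub (ipow _) ic, integral_mass hσ]
    exact sub_self _
  have eG : ∫ t in (0 : ℝ)..1, (((p : ℝ) + 4) * t ^ 2 / s0 + Real.log s0 - 1) * g t ^ (p + 1) =
      ((p : ℝ) + 4) / s0 * S + (Real.log s0 - 1) * half (p + 1) := by
    rw [← integral_mass hσ, hS, ← intervalIntegral.integral_const_mul,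
      ← intervalIntegral.integral_const_mul,
      ← intervalIntegral.integral_add (i2.const_mul _) ((ipow _).const_mul _)]
    exact intervalIntegral.integral_congr fun t _ => by ring
  have hI : ∫ t in (0 : ℝ)..1, gaussPart p nu kappa gam mu s0 t (g t) (slopeR g t) =
      gam * (half (p + 1) * ((∫ t in (-1 : ℝ)..1, g t ^ p) / circ p - 1)) +
        nu * (half (p + 1) * jExc p g) + (∫ t in (0 : ℝ)..1, obsPart p g t) +
        mu * (∫ t in (0 : ℝ)..1, g t ^ (p + 1) - arc t ^ (p + 1)) -
        kappa / 2 * (((p : ℝ) + 4) / s0 * S + (Real.log s0 - 1) * half (p + 1)) := by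
    rw [← eA, ← eJ, ← eG, ← intervalIntegral.integral_const_mul, ← intervalIntegral.integral_const_mul,
      ← intervalIntegral.integral_const_mul (kappa / 2),
      ← intervalIntegral.integral_add (iA.const_mul gam) (iJ.const_mul nu),
      ← intervalIntegral.integral_add ((iA.const_mul gam).add (iJ.const_mul nu)) iO,
      ← intervalIntegral.integral_const_mul mu,
      ← intervalIntegral.integral_add (((iA.const_mul gam).add (iJ.const_mul nu)).add iO)
        (iM.const_mul mu),
      ← intervalIntegral.integral_sub ((((iA.const_mul gam).add (iJ.const_mul nu)).add iO).add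
        (iM.const_mul mu)) (iG.const_mul (kappa / 2))]
    exact intervalIntegral.integral_congr fun t _ => rfl
  rw [hI, eM, mul_zero, add_zero] at hkey
  have hB := Ident.half_pos (p + 1)
  have hlog := Real.log_le_sub_one_of_pos (div_pos (secondMom_pos hg p) hs0)
  rw [Real.log_div (secondMom_pos hg p).ne' hs0.ne'] at hlog
  have e : secondMom p g / s0 * half (p + 1) = ((p : ℝ) + 4) / s0 * S := by
    rw [secondMom, ← hS]
    field_simp
  have h1 := mul_le_mul_of_nonneg_left (mul_le_mul_of_nonneg_right hlog hB.le)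
    (show 0 ≤ kappa / 2 by linarith)
  have h2 := mul_nonpos_of_nonpos_of_nonneg hA hB.le
  have hJ : jExc p g = jInt p g / circ (p + 1) - 1 := rfl
  refine nonneg_of_mul_nonneg_right (a := half (p + 1)) ?_ hB
  rw [show half (p + 1) * (nu * (jInt p g / circ (p + 1) - 1) +
      (∫ t in (0 : ℝ)..1, obsPart p g t) / half (p + 1) - kappa / 2 * Real.log (secondMom p g)) =
      nu * (half (p + 1) * (jInt p g / circ (p + 1) - 1)) + (∫ t in (0 : ℝ)..1, obsPart p g t) -
      kappa / 2 * (Real.log (secondMom p g) * half (p + 1)) by field_simp]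
  rw [← hJ]
  have e' : kappa / 2 * (secondMom p g / s0 * half (p + 1)) =
      kappa / 2 * (((p : ℝ) + 4) / s0 * S) := by rw [e]
  linarith

/-- The pointwise form of the Gaussian criterion: scalars and one null field, which may use the
transport. -/
def PointwiseGauss (p : ℕ) : Prop :=
  ∃ (nu gam mu s0 : ℝ) (D : ℝ → ℝ → ℝ → ℝ → ℝ → ℝ), 0 ≤ nu ∧ 0 ≤ gam ∧ 0 < s0 ∧ NullField p D ∧
    ∀ s t a r q : ℝ, LiftState p s t a r q →
      0 ≤ gaussPart p nu (Ident.muMin p) gam mu s0 t a q + D s t a r q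

/-- The pointwise sign gives the Gaussian criterion. -/
theorem gaussBound_of_pointwise (hp : 1 ≤ p) (h : PointwiseGauss p) :
    ∃ nu : ℝ, 0 ≤ nu ∧ GaussBound p (Ident.muMin p) nu := by
  obtain ⟨nu, gam, mu, s0, D, hnu, hgam, hs0, hD, hpos⟩ := h
  refine ⟨nu, hnu, fun g hg hv hA => ?_⟩
  obtain ⟨σ, hσ⟩ := Ident.exists_transport_of_circ hg p hv
  obtain ⟨ψ, hψc, hends, hψd⟩ := hD g σ hg hσ
  refine gauss_of_sign hg hσ (muMin_pos hp).le hs0 ?_ hψc hends hψd fun t ht =>
    hpos _ _ _ _ _ (liftState_profile hg hσ ht)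
  exact mul_nonpos_of_nonneg_of_nonpos hgam (by
    rw [sub_nonpos, div_le_one (circ_pos p)]; exact hA)

/-- The pointwise sign gives the step in dimension `p + 2`. -/
theorem stepHolds_of_pointwiseGauss (hp : 1 ≤ p) (h : PointwiseGauss p) : StepHolds.{u} p := by
  obtain ⟨nu, hnu, hG⟩ := gaussBound_of_pointwise hp h
  exact stepHolds_of_gauss hp le_rfl hnu hG

/-- A potential of the state `(t, g)` with no increase gives a null field. -/
theorem nullField_state {Φ Φt Φg : ℝ → ℝ → ℝ}
    (hΦ : ∀ t ∈ Ioo (0 : ℝ) 1, ∀ y : ℝ, 0 < y →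
      HasFDerivAt (fun x : ℝ × ℝ => Φ x.1 x.2)
        (Φt t y • ContinuousLinearMap.fst ℝ ℝ ℝ + Φg t y • ContinuousLinearMap.snd ℝ ℝ ℝ) (t, y))
    (hc : ContinuousOn (fun x : ℝ × ℝ => Φ x.1 x.2) (Icc 0 1 ×ˢ Ici 0))
    (hends : ∀ a b : ℝ, 0 < a → 0 ≤ b → b ≤ a → b ^ (p + 1) ≤ half (p + 1) →
      half (p + 1) ≤ a ^ (p + 1) → Φ 1 b ≤ Φ 0 a) :
    NullField p fun _ t a _ q => Φt t a + Φg t a * q := fun g σ hg hσ => by
  refine ⟨fun t => Φ t (g t), ?_, ?_, fun t ht => ?_⟩
  · exact hc.comp (continuousOn_id.prodMk (continuousOn_profile hg)) fun t ht =>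
      ⟨ht, hg.nonneg t ⟨by linarith [ht.1], ht.2⟩⟩
  · exact hends _ _ hg.pos (hg.nonneg 1 (by norm_num))
      (antitoneOn_of_concave_even hg.concave hg.even (left_mem_Icc.2 zero_le_one)
        (right_mem_Icc.2 zero_le_one) zero_le_one) (end_le_half hg hσ) (half_le_top hg hσ)
  · have h1 : HasDerivWithinAt (fun u => (u, g u)) ((1 : ℝ), slopeR g t) (Ioi t) t :=
      (hasDerivWithinAt_id t _).prodMk
        (hasDerivWithinAt_slopeR hg.concave ⟨by linarith [ht.1], ht.2⟩)
    refine (HasFDerivAt.comp_hasDerivWithinAt (f := fun u => (u, g u))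
      (l := fun x : ℝ × ℝ => Φ x.1 x.2) t (hΦ t ht _ (hg.pos_of_lt ⟨ht.1.le, ht.2⟩)) h1).congr_deriv ?_
    simp

/-- The Gaussian criterion below `N` and the calibrated lift from `N` on give the inequality in
every dimension. -/
theorem petty_of_split (N : ℕ) (E : ℕ → ℝ → ℝ → ℝ → ℝ → ℝ → ℝ)
    (hlow : ∀ p, 4 ≤ p → p < N → PointwiseGauss p)
    (hE : ∀ p, 4 ≤ p → N ≤ p → EntropyBound p (E p))
    (hF : ∀ p, 4 ≤ p → N ≤ p → PointwiseField p (E p)) {n : ℕ}
    (hn : 3 ≤ n) {V : Type} [NormedAddCommGroup V] [InnerProductSpace ℝ V] [FiniteDimensional ℝ V]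
    [MeasurableSpace V] [BorelSpace V] (hfin : Module.finrank ℝ V = n) {K : Set V} (hK : Body K) :
    cPetty n * volume.real K ^ (n - 1) ≤ volume.real (projBody K) ∧
      (volume.real (projBody K) = cPetty n * volume.real K ^ (n - 1) ↔
        ∃ (T : V ≃L[ℝ] V) (a : V), K = (fun x => a + x) '' (T '' Metric.closedBall 0 1)) :=
  petty_of_steps hn (fun p hp1 _ => by
    rcases lt_or_ge p 4 with h | h
    · exact Hull.Five.steps_upto_five p hp1 (by omega)
    rcases lt_or_ge p N with h' | h'
    · exact stepHolds_of_pointwiseGauss hp1 (hlow p h h')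
    · exact stepHolds_of_pointwise hp1 (hE p h h') (hF p h h')) hfin hK

end Vale.Agent.P237.Petty.Lift
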