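import Vale.Agent.P237.Petty.Lift.Obstacle
import Vale.Agent.P237.Petty.Hull.Five

/-!
# P237: every dimension from the lifted bound

With the steps up to dimension five, the lifted bound for every `4 ≤ p` gives the sharp inequality
with its equality cases in every dimension.
-/

namespace Vale.Agent.P237.Petty.Lift

open MeasureTheory Set Module

/-- The lifted bound in every order from four on gives the inequality in every dimension. -/
theorem petty_of_gBound (kappa nu : ℕ → ℝ) (hk : ∀ p, 4 ≤ p → Ident.muMin p ≤ kappa p)
    (hnu : ∀ p, 4 ≤ p → 0 ≤ nu p) (hG : ∀ p, 4 ≤ p → GBound p (kappa p) (nu p)) {n : ℕ}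
    (hn : 3 ≤ n) {E : Type} [NormedAddCommGroup E] [InnerProductSpace ℝ E] [FiniteDimensional ℝ E]
    [MeasurableSpace E] [BorelSpace E] (hfin : finrank ℝ E = n) {K : Set E} (hK : Body K) :
    cPetty n * volume.real K ^ (n - 1) ≤ volume.real (projBody K) ∧
      (volume.real (projBody K) = cPetty n * volume.real K ^ (n - 1) ↔
        ∃ (T : E ≃L[ℝ] E) (a : E), K = (fun x => a + x) '' (T '' Metric.closedBall 0 1)) :=
  petty_of_steps hn (fun p hp1 _ => by
    rcases lt_or_ge p 4 with h | h
    · exact Hull.Five.steps_upto_five p hp1 (by omega)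
    · exact stepHolds_of_gBound hp1 (hk p h) (hnu p h) (hG p h)) hfin hK

end Vale.Agent.P237.Petty.Lift
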