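import Vale.Agent.P237.Petty.Lift.State

/-!
# P237: the integrand of the entropy bound along the transport is integrable

With `c = arc σ` and `r` the speed of the transport, the quantity `c ^ 2 / r` is at most
`(m + 2) (1 - t)`, so the Jacobian of the lift is bounded on both sides and the square of the score
against the law of the section is bounded on `(0, 1)`.
-/

namespace Vale.Agent.P237.Petty.Lift

open MeasureTheory Set Filter Topology intervalIntegral
open Ident (half rate)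

variable {p : ℕ} {g σ : ℝ → ℝ}

/-- The Jacobian of the lift. -/
noncomputable def liftM (s t r : ℝ) : ℝ := (1 - s ^ 2) / r + s * t

/-- The coefficient of the square of the radius in the score. -/
noncomputable def scoreA (s t r : ℝ) : ℝ := s * (t - s / r)

/-- The constant coefficient of the score. -/
noncomputable def scoreB (p : ℕ) (s t a r q : ℝ) : ℝ :=
  t / liftM s t r *
    (t - s / r - ((p : ℝ) + 1) * ((1 - s ^ 2) / r * (q / (a * r)) + s / r))

/-- Half of the mean square of the score over the radius. -/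
noncomputable def scoreSq (p : ℕ) (s t a r q : ℝ) : ℝ :=
  (arc s / liftM s t r) ^ 2 / 2 * (((p : ℝ) + 4) * scoreA s t r ^ 2 +
    2 * scoreA s t r * scoreB p s t a r q + scoreB p s t a r q ^ 2 / ((p : ℝ) + 2))

/-- The mass of the circle above `s` is at least a power of the ordinate. -/
theorem arc_pow_le_high (p : ℕ) {s : ℝ} (hs : s ∈ Icc (0 : ℝ) 1) :
    arc s ^ (p + 3) ≤ ((p : ℝ) + 3) * circHigh p s := by
  have hd : ∀ u ∈ Ioo s 1, HasDerivAt (fun x => -arc x ^ (p + 3))
      (((p : ℝ) + 3) * (u * arc u ^ (p + 1))) u := fun u hu => by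
    have h0 : 0 < 1 - u ^ 2 := by nlinarith [hs.1, hu.1, hu.2]
    refine ((((hasDerivAt_pow 2 u).const_sub 1).sqrt h0.ne').fun_pow (p + 3)).neg.congr_deriv ?_
    simp only [show p + 3 - 1 = p + 1 + 1 from rfl]
    rw [pow_succ]
    have hr : √(1 - u ^ 2) ≠ 0 := (Real.sqrt_pos.2 h0).ne'
    simp only [arc]
    field_simp
    push_cast
    ring
  have hc : Continuous arc := continuous_arc
  have h := intervalIntegral.integral_eq_sub_of_hasDerivAt_of_le hs.2
    (hc.pow (p + 3)).neg.continuousOn hd (Continuous.intervalIntegrable (by fun_prop) _ _)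
  simp only [Pi.neg_apply, Pi.pow_apply] at h
  rw [show arc 1 = 0 by simp [arc], zero_pow (by omega), neg_zero, zero_sub, neg_neg] at h
  rw [← h, intervalIntegral.integral_const_mul, circHigh]
  refine mul_le_mul_of_nonneg_left (intervalIntegral.integral_mono_on hs.2
    (Continuous.intervalIntegrable (by fun_prop) _ _)
    ((hc.pow _).intervalIntegrable _ _) fun u hu => ?_) (by positivity)
  exact mul_le_of_le_one_left (pow_nonneg (Real.sqrt_nonneg _) _) hu.2

/-- The basic bound: `c ^ 2 / r ≤ (m + 2) (1 - t)`. -/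
theorem sq_div_rate_le (hg : Regular g) (hσ : Transport p g σ) {t : ℝ} (ht : t ∈ Ioo (0 : ℝ) 1) :
    (1 - σ t ^ 2) / rate p g σ t ≤ ((p : ℝ) + 3) * (1 - t) := by
  have hs := hσ.mem_Ioo t ht
  have hc : 0 < arc (σ t) := arc_pos ⟨by linarith [hs.1], hs.2⟩
  have hgp : 0 < g t := hg.pos_of_lt ⟨ht.1.le, ht.2⟩
  have hanti := antitoneOn_of_concave_even hg.concave hg.even
  have h1 := (arc_pow_le_high p (Ioo_subset_Icc_self hs))
  have h2 : circHigh p (σ t) ≤ (1 - t) * g t ^ (p + 1) := by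
    rw [← (mass_split hg hσ (Ioo_subset_Icc_self ht)).2]
    calc ∫ u in t..(1 : ℝ), g u ^ (p + 1) ≤ ∫ _ in t..(1 : ℝ), g t ^ (p + 1) :=
          intervalIntegral.integral_mono_on ht.2.le
            (((continuousOn_profile hg).mono (Icc_subset_Icc ht.1.le le_rfl)).pow _
              |>.intervalIntegrable_of_Icc ht.2.le) intervalIntegrable_const fun u hu =>
            pow_le_pow_left₀ (hg.nonneg u ⟨by linarith [hu.1, ht.1], hu.2⟩)
              (hanti (Ioo_subset_Icc_self ht) ⟨ht.1.le.trans hu.1, hu.2⟩ hu.1) _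
      _ = _ := by simp
  have e : (1 - σ t ^ 2) / rate p g σ t = arc (σ t) ^ (p + 3) / g t ^ (p + 1) := by
    rw [rate, show 1 - σ t ^ 2 = arc (σ t) ^ 2 from (Real.sq_sqrt (by nlinarith [hs.1, hs.2])).symm]
    field_simp
    ring
  rw [e, div_le_iff₀ (pow_pos hgp _)]
  calc arc (σ t) ^ (p + 3) ≤ ((p : ℝ) + 3) * circHigh p (σ t) := h1
    _ ≤ ((p : ℝ) + 3) * ((1 - t) * g t ^ (p + 1)) := mul_le_mul_of_nonneg_left h2 (by positivity)
    _ = _ := by ring

/-- The Jacobian of the lift is bounded on both sides. -/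
theorem liftM_bounds (hg : Regular g) (hσ : Transport p g σ) :
    ∃ d : ℝ, 0 < d ∧ ∀ t ∈ Ioo (0 : ℝ) 1,
      d ≤ liftM (σ t) t (rate p g σ t) ∧ liftM (σ t) t (rate p g σ t) ≤ (p : ℝ) + 4 := by
  have hG : 0 < g 0 ^ (p + 1) := pow_pos hg.pos _
  set P := circLow p (1 / 2) with hP
  have hP0 : 0 < P := intervalIntegral.intervalIntegral_pos_of_pos_on
    ((continuous_arc.pow _).intervalIntegrable _ _)
    (fun u hu => pow_pos (arc_pos ⟨by linarith [hu.1], by linarith [hu.2]⟩) _) (by norm_num)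
  refine ⟨min (arc (1 / 2) ^ (p + 3) / g 0 ^ (p + 1)) (P / (2 * g 0 ^ (p + 1))),
    lt_min (div_pos (pow_pos (arc_pos ⟨by norm_num, by norm_num⟩) _) hG) (by positivity),
    fun t ht => ?_⟩
  have hs := hσ.mem_Ioo t ht
  have hc : 0 < arc (σ t) := arc_pos ⟨by linarith [hs.1], hs.2⟩
  have hc2 : arc (σ t) ^ 2 = 1 - σ t ^ 2 := Real.sq_sqrt (by nlinarith [hs.1, hs.2])
  have hgp : 0 < g t := hg.pos_of_lt ⟨ht.1.le, ht.2⟩
  have hanti := antitoneOn_of_concave_even hg.concave hg.even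
  have hle0 : ∀ u ∈ Icc (0 : ℝ) 1, g u ^ (p + 1) ≤ g 0 ^ (p + 1) := fun u hu =>
    pow_le_pow_left₀ (hg.nonneg u ⟨by linarith [hu.1], hu.2⟩)
      (hanti (left_mem_Icc.2 zero_le_one) hu hu.1) _
  have hq : (1 - σ t ^ 2) / rate p g σ t = arc (σ t) ^ (p + 3) / g t ^ (p + 1) := by
    rw [rate, ← hc2]
    field_simp
    ring
  have hq0 : 0 ≤ (1 - σ t ^ 2) / rate p g σ t := by rw [hq]; positivity
  have hst : 0 ≤ σ t * t := mul_nonneg hs.1.le ht.1.le
  constructor
  · rcases le_or_gt (σ t) (1 / 2) with h | h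
    · refine (min_le_left _ _).trans (le_trans ?_ (le_add_of_nonneg_right hst))
      rw [hq]
      refine (div_le_div₀ (by positivity) ?_ (pow_pos hgp _) (hle0 t (Ioo_subset_Icc_self ht)))
      exact pow_le_pow_left₀ (Real.sqrt_nonneg _)
        (Real.sqrt_le_sqrt (by nlinarith [hs.1])) _
    · refine (min_le_right _ _).trans (le_trans ?_ (le_add_of_nonneg_left hq0))
      have h1 : P ≤ circLow p (σ t) := intervalIntegral.integral_mono_interval le_rfl (by norm_num)
        h.le (Eventually.of_forall fun u => pow_nonneg (Real.sqrt_nonneg _) _)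
        ((continuous_arc.pow _).intervalIntegrable _ _)
      have h2 : circLow p (σ t) ≤ t * g 0 ^ (p + 1) := by
        rw [← (mass_split hg hσ (Ioo_subset_Icc_self ht)).1]
        calc ∫ u in (0 : ℝ)..t, g u ^ (p + 1) ≤ ∫ _ in (0 : ℝ)..t, g 0 ^ (p + 1) :=
              intervalIntegral.integral_mono_on ht.1.le
                (((continuousOn_profile hg).mono (Icc_subset_Icc le_rfl ht.2.le)).pow _
                  |>.intervalIntegrable_of_Icc ht.1.le) intervalIntegrable_const fun u hu =>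
                hle0 u ⟨hu.1, hu.2.trans ht.2.le⟩
          _ = _ := by simp
      rw [div_le_iff₀ (by positivity)]
      nlinarith [mul_pos ht.1 hG, h1.trans h2, mul_nonneg (sub_nonneg.2 h.le) (mul_pos ht.1 hG).le]
  · have h := sq_div_rate_le hg hσ ht
    simp only [liftM]
    nlinarith [ht.1, ht.2, hs.1, hs.2, Nat.cast_nonneg (α := ℝ) p]

/-- The three quantities whose squares against the section law bound the score. -/
theorem score_parts (hg : Regular g) (hσ : Transport p g σ) {t : ℝ} (ht : t ∈ Ioo (0 : ℝ) 1) :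
    g t ^ (p + 1) * (arc (σ t) / rate p g σ t) ^ 2 ≤ (p : ℝ) + 3 ∧
      g t ^ (p + 1) * (arc (σ t) * ((1 - σ t ^ 2) / rate p g σ t *
        (slopeR g t / (g t * rate p g σ t)))) ^ 2 ≤ ((p : ℝ) + 3) ^ 3 := by
  have hs := hσ.mem_Ioo t ht
  set c := arc (σ t) with hc'
  set G := g t ^ (p + 1) with hG'
  have hc : 0 < c := arc_pos ⟨by linarith [hs.1], hs.2⟩
  have hc1 : c ≤ 1 := Real.sqrt_le_one.2 (by nlinarith [hs.1])
  have hc2 : c ^ 2 = 1 - σ t ^ 2 := Real.sq_sqrt (by nlinarith [hs.1, hs.2])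
  have hgp : 0 < g t := hg.pos_of_lt ⟨ht.1.le, ht.2⟩
  have hG : 0 < G := pow_pos hgp _
  set K := ((p : ℝ) + 3) * (1 - t) with hK
  have hX : c ^ (p + 3) / G ≤ K := by
    have h := sq_div_rate_le hg hσ ht
    rw [rate, ← hc', ← hG', ← hc2] at h
    refine le_trans (le_of_eq ?_) h
    field_simp
    ring
  have hK1 : K ≤ (p : ℝ) + 3 := by
    nlinarith [ht.1, ht.2, Nat.cast_nonneg (α := ℝ) p]
  have hX0 : 0 ≤ c ^ (p + 3) / G := by positivity
  constructor
  · calc G * (c / rate p g σ t) ^ 2 = c ^ (p + 1) * (c ^ (p + 3) / G) := by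
          rw [rate, ← hc', ← hG']
          field_simp
          ring
      _ ≤ 1 * K := mul_le_mul (pow_le_one₀ hc.le hc1) hX hX0 zero_le_one
      _ ≤ _ := by rwa [one_mul]
  · have hq0 := slope_nonpos hg ht
    have hq : (slopeR g t / g t) ^ 2 * (1 - t) ^ 2 ≤ 1 := by
      have h := neg_slope_mul_le hg ht
      rw [← mul_pow, div_mul_eq_mul_div, div_pow, div_le_one (pow_pos hgp 2)]
      nlinarith [mul_nonneg (neg_nonneg.2 hq0) (sub_nonneg.2 ht.2.le)]
    calc G * (c * ((1 - σ t ^ 2) / rate p g σ t * (slopeR g t / (g t * rate p g σ t)))) ^ 2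
        = c ^ (p + 1) * ((c ^ (p + 3) / G) ^ 3 * (slopeR g t / g t) ^ 2) := by
          rw [rate, ← hc', ← hG', ← hc2]
          field_simp
          ring
      _ ≤ 1 * (K ^ 3 * (slopeR g t / g t) ^ 2) := mul_le_mul (pow_le_one₀ hc.le hc1)
          (mul_le_mul_of_nonneg_right (pow_le_pow_left₀ hX0 hX 3) (sq_nonneg _))
          (by positivity) zero_le_one
      _ = ((p : ℝ) + 3) ^ 3 * (1 - t) * ((slopeR g t / g t) ^ 2 * (1 - t) ^ 2) := by
          rw [hK]; ring
      _ ≤ ((p : ℝ) + 3) ^ 3 * 1 * 1 := by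
          refine mul_le_mul (mul_le_mul_of_nonneg_left (by linarith [ht.1]) (by positivity)) hq
            (by positivity) (by positivity)
      _ = _ := by ring

/-- Two elementary bounds for a weighted square. -/
theorem weighted_sq_le {G a s u M d U : ℝ} (hG : 0 ≤ G) (hs : s ^ 2 ≤ 1) (hd : 0 < d) (hM : d ≤ M)
    (k : ℕ) (hU : G * (a + u) ^ 2 ≤ U) : G * (s * (a + u)) ^ 2 / M ^ k ≤ U / d ^ k := by
  refine div_le_div₀ ((mul_nonneg hG (sq_nonneg _)).trans hU) ?_ (pow_pos hd k)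
    (pow_le_pow_left₀ hd.le hM k)
  refine le_trans ?_ hU
  rw [mul_pow, mul_left_comm]
  exact mul_le_of_le_one_left (mul_nonneg hG (sq_nonneg _)) hs

/-- The coefficient of the square of the radius against the section law. -/
theorem sq_scoreA_le {G c t s r M d U K : ℝ} (hG : 0 ≤ G) (hs : s ^ 2 ≤ 1) (hd : 0 < d) (hM : d ≤ M)
    (hU : G * (c * t) ^ 2 ≤ U) (hK : G * (c / r) ^ 2 ≤ K) :
    G * (c / M * scoreA s t r) ^ 2 ≤ (2 * U + 2 * K) / d ^ 2 := by
  have hMp : 0 < M := hd.trans_le hM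
  have e : G * (c / M * scoreA s t r) ^ 2 =
      G * (s * (c * t + -(s * (c / r)))) ^ 2 / M ^ 2 := by
    rw [scoreA]
    field_simp
    ring
  rw [e]
  refine weighted_sq_le hG hs hd hM 2 ?_
  have h1 : G * (s * (c / r)) ^ 2 ≤ K := by
    refine le_trans ?_ hK
    rw [mul_pow, mul_left_comm]
    exact mul_le_of_le_one_left (mul_nonneg hG (sq_nonneg _)) hs
  have h2 := mul_nonneg hG (sq_nonneg (c * t + s * (c / r)))
  linear_combination h2 + 2 * hU + 2 * h1

/-- The constant coefficient of the score against the section law. -/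
theorem sq_scoreB_le {p : ℕ} {G c a s t r q M d U K W : ℝ} (hG : 0 ≤ G) (hs : s ^ 2 ≤ 1)
    (ht : t ^ 2 ≤ 1) (hd : 0 < d) (hMe : liftM s t r = M) (hM : d ≤ M)
    (hU : G * (c * t) ^ 2 ≤ U) (hK : G * (c / r) ^ 2 ≤ K)
    (hW : G * (c * ((1 - s ^ 2) / r * (q / (a * r)))) ^ 2 ≤ W) :
    G * (c / M * scoreB p s t a r q) ^ 2 ≤
      3 * (U + ((p : ℝ) + 2) ^ 2 * K + ((p : ℝ) + 1) ^ 2 * W) / d ^ 4 := by
  have hMp : 0 < M := hd.trans_le hM
  set X := c * t with hX
  set Y := -(((p : ℝ) + 2) * (s * (c / r))) with hY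
  set Z := -(((p : ℝ) + 1) * (c * ((1 - s ^ 2) / r * (q / (a * r))))) with hZ
  have e : G * (c / M * scoreB p s t a r q) ^ 2 = G * (t * (X + (Y + Z))) ^ 2 / M ^ 4 := by
    rw [scoreB, hMe, hX, hY, hZ]
    generalize q / (a * r) = w
    field_simp
    ring
  rw [e]
  refine weighted_sq_le hG ht hd hM 4 ?_
  have h1 : G * Y ^ 2 ≤ ((p : ℝ) + 2) ^ 2 * K := by
    rw [hY, neg_sq, mul_pow, mul_pow, mul_left_comm]
    refine mul_le_mul_of_nonneg_left (le_trans ?_ hK) (sq_nonneg _)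
    rw [mul_left_comm]
    exact mul_le_of_le_one_left (mul_nonneg hG (sq_nonneg _)) hs
  have h2 : G * Z ^ 2 ≤ ((p : ℝ) + 1) ^ 2 * W := by
    rw [hZ, neg_sq, mul_pow, mul_left_comm]
    exact mul_le_mul_of_nonneg_left hW (sq_nonneg _)
  have h3 := mul_nonneg hG (sq_nonneg (X - Y))
  have h4 := mul_nonneg hG (sq_nonneg (Y - Z))
  have h5 := mul_nonneg hG (sq_nonneg (Z - X))
  linear_combination h3 + h4 + h5 + 3 * hU + 3 * h1 + 3 * h2

/-- Half of the mean square of the score against the section law is bounded. -/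
theorem scoreSq_bound (hg : Regular g) (hσ : Transport p g σ) :
    ∃ C : ℝ, ∀ t ∈ Ioo (0 : ℝ) 1,
      |g t ^ (p + 1) * scoreSq p (σ t) t (g t) (rate p g σ t) (slopeR g t)| ≤ C := by
  obtain ⟨d, hd, hb⟩ := liftM_bounds hg hσ
  set U := 2 * g 0 ^ (p + 1) + 2 * ((p : ℝ) + 3) with hU
  set V := 3 * (g 0 ^ (p + 1) + ((p : ℝ) + 2) ^ 2 * ((p : ℝ) + 3) +
    ((p : ℝ) + 1) ^ 2 * ((p : ℝ) + 3) ^ 3) with hV
  refine ⟨(((p : ℝ) + 5) * (U / d ^ 2) + 2 * (V / d ^ 4)) / 2, fun t ht => ?_⟩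
  obtain ⟨hdM, -⟩ := hb t ht
  obtain ⟨h1, h2⟩ := score_parts hg hσ ht
  have hs := hσ.mem_Ioo t ht
  have hgp : 0 < g t := hg.pos_of_lt ⟨ht.1.le, ht.2⟩
  have hG : 0 < g t ^ (p + 1) := pow_pos hgp _
  have hs1 : σ t ^ 2 ≤ 1 := by nlinarith [hs.1, hs.2]
  have ht1 : t ^ 2 ≤ 1 := by nlinarith [ht.1, ht.2]
  have hGc : g t ^ (p + 1) * (arc (σ t) * t) ^ 2 ≤ g 0 ^ (p + 1) := by
    refine le_trans (mul_le_of_le_one_right hG.le ?_) (pow_le_pow_left₀ hgp.le
      (antitoneOn_of_concave_even hg.concave hg.even (left_mem_Icc.2 zero_le_one)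
        (Ioo_subset_Icc_self ht) ht.1.le) _)
    rw [mul_pow]
    exact mul_le_one₀ (pow_le_one₀ (Real.sqrt_nonneg _)
      (Real.sqrt_le_one.2 (by nlinarith [hs.1]))) (sq_nonneg _) ht1
  have hA := sq_scoreA_le hG.le hs1 hd hdM hGc h1
  have hB := sq_scoreB_le (p := p) (a := g t) (q := slopeR g t) hG.le hs1 ht1 hd rfl hdM hGc h1 h2
  rw [← hU] at hA
  rw [← hV] at hB
  set A := arc (σ t) / liftM (σ t) t (rate p g σ t) * scoreA (σ t) t (rate p g σ t) with hA'
  set B := arc (σ t) / liftM (σ t) t (rate p g σ t) *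
    scoreB p (σ t) t (g t) (rate p g σ t) (slopeR g t) with hB'
  have e : scoreSq p (σ t) t (g t) (rate p g σ t) (slopeR g t) =
      (((p : ℝ) + 4) * A ^ 2 + 2 * A * B + B ^ 2 / ((p : ℝ) + 2)) / 2 := by
    rw [scoreSq, hA', hB']
    ring
  have hB3 : B ^ 2 / ((p : ℝ) + 2) ≤ B ^ 2 :=
    div_le_self (sq_nonneg _) (by linarith [Nat.cast_nonneg (α := ℝ) p])
  have hB4 : 0 ≤ B ^ 2 / ((p : ℝ) + 2) := by positivity
  have hp0 := Nat.cast_nonneg (α := ℝ) p
  have hn : |(((p : ℝ) + 4) * A ^ 2 + 2 * A * B + B ^ 2 / ((p : ℝ) + 2)) / 2| ≤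
      (((p : ℝ) + 5) * A ^ 2 + 2 * B ^ 2) / 2 :=
    abs_le.2 ⟨by nlinarith [sq_nonneg (A + B)], by nlinarith [sq_nonneg (A - B)]⟩
  rw [e, abs_mul, abs_of_pos hG]
  refine (mul_le_mul_of_nonneg_left hn hG.le).trans ?_
  have hp5 := mul_le_mul_of_nonneg_left hA (show (0 : ℝ) ≤ (p : ℝ) + 5 by positivity)
  linarith

theorem measurable_data (hg : Regular g) (hσ : Transport p g σ) :
    AEMeasurable σ (volume.restrict (Ioo (0 : ℝ) 1)) ∧
      AEMeasurable g (volume.restrict (Ioo (0 : ℝ) 1)) ∧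
      AEMeasurable (slopeR g) (volume.restrict (Ioo (0 : ℝ) 1)) ∧
      AEMeasurable (fun t => rate p g σ t) (volume.restrict (Ioo (0 : ℝ) 1)) := by
  have h1 : AEMeasurable σ (volume.restrict (Ioo (0 : ℝ) 1)) :=
    (hσ.cont.mono Ioo_subset_Icc_self).aemeasurable measurableSet_Ioo
  have h2 : AEMeasurable g (volume.restrict (Ioo (0 : ℝ) 1)) :=
    ((continuousOn_profile hg).mono Ioo_subset_Icc_self).aemeasurable measurableSet_Ioo
  have h3 : AEMeasurable (slopeR g) (volume.restrict (Ioo (0 : ℝ) 1)) :=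
    (((intervalIntegrable_iff_integrableOn_Ioc_of_le (by norm_num : (-1 : ℝ) ≤ 1)).1
      hg.integrable_slopeR).mono_set fun x hx => ⟨by linarith [hx.1], hx.2.le⟩).aemeasurable
  exact ⟨h1, h2, h3, (h2.pow_const _).div ((continuous_arc.measurable.comp_aemeasurable h1).pow_const _)⟩

/-- A measurable multiple of the section law dominated by the bounded parts is integrable. -/
theorem integrable_of_bound {F : ℝ → ℝ} (hm : AEMeasurable F (volume.restrict (Ioo (0 : ℝ) 1)))
    {C : ℝ} (hC : ∀ t ∈ Ioo (0 : ℝ) 1, |F t| ≤ C) : IntervalIntegrable F volume 0 1 := by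
  rw [intervalIntegrable_iff_integrableOn_Ioo_of_le zero_le_one]
  refine (integrableOn_const (C := C) (by simp)).mono' hm.aestronglyMeasurable ?_
  filter_upwards [ae_restrict_mem measurableSet_Ioo] with t ht
  exact hC t ht

/-- The logarithm of the Jacobian against the section law is integrable. -/
theorem integrable_log_liftM (hg : Regular g) (hσ : Transport p g σ) :
    IntervalIntegrable (fun t => g t ^ (p + 1) * Real.log (liftM (σ t) t (rate p g σ t)))
      volume 0 1 := by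
  obtain ⟨h1, h2, -, h4⟩ := measurable_data hg hσ
  obtain ⟨d, hd, hb⟩ := liftM_bounds hg hσ
  have hid : AEMeasurable (fun t : ℝ => t) (volume.restrict (Ioo (0 : ℝ) 1)) := aemeasurable_id
  refine integrable_of_bound ?_ (C := g 0 ^ (p + 1) * (|Real.log d| + |Real.log ((p : ℝ) + 4)|))
    fun t ht => ?_
  · simp only [liftM]
    fun_prop
  · obtain ⟨l, u⟩ := hb t ht
    have hgp : 0 < g t := hg.pos_of_lt ⟨ht.1.le, ht.2⟩
    have hG0 : g t ^ (p + 1) ≤ g 0 ^ (p + 1) := pow_le_pow_left₀ hgp.le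
      (antitoneOn_of_concave_even hg.concave hg.even (left_mem_Icc.2 zero_le_one)
        (Ioo_subset_Icc_self ht) ht.1.le) _
    rw [abs_mul, abs_of_pos (pow_pos hgp _)]
    refine mul_le_mul hG0 (abs_le.2 ⟨?_, ?_⟩) (abs_nonneg _) (pow_nonneg hg.pos.le _)
    · linarith [Real.log_le_log hd l, neg_abs_le (Real.log d), abs_nonneg (Real.log ((p : ℝ) + 4))]
    · linarith [Real.log_le_log (hd.trans_le l) u, le_abs_self (Real.log ((p : ℝ) + 4)),
        abs_nonneg (Real.log d)]

/-- Half of the mean square of the score against the section law is integrable. -/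
theorem integrable_scoreSq (hg : Regular g) (hσ : Transport p g σ) :
    IntervalIntegrable (fun t => g t ^ (p + 1) *
      scoreSq p (σ t) t (g t) (rate p g σ t) (slopeR g t)) volume 0 1 := by
  obtain ⟨h1, h2, h3, h4⟩ := measurable_data hg hσ
  obtain ⟨C, hC⟩ := scoreSq_bound hg hσ
  have hid : AEMeasurable (fun t : ℝ => t) (volume.restrict (Ioo (0 : ℝ) 1)) := aemeasurable_id
  refine integrable_of_bound ?_ hC
  simp only [scoreSq, scoreA, scoreB, liftM, arc]
  fun_prop

end Vale.Agent.P237.Petty.Lift
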