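import Vale.Agent.P237.Petty.Ident.Forms
import Vale.Agent.P237.Petty.LargeN.Const

/-!
# P237: the budget of the rescaled criterion

With `a = selA p s` the deficit of the rescaled potential below the circle, from the obstacle `s`
up to the circle, is less than `(muMin p / (p + 2)) * log (1 / s)` for `4 ≤ p` and `0 < s < 1`.
-/

namespace Vale.Agent.P237.Petty.Lift

open Set Real

/-- The first order value of the budget. -/
noncomputable def rateQ (p : ℕ) : ℝ := Ident.muMin p / ((p : ℝ) + 2)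

/-- The scale of the criterion at the obstacle `s`. -/
noncomputable def selA (p : ℕ) (s : ℝ) : ℝ :=
  (2 + (p : ℝ) * (1 - s)) / (2 + ((p : ℝ) + 1) * (1 - s))

/-- The deficit of the rescaled potential between `s` and the circle. -/
noncomputable def deficit (p : ℕ) (a s : ℝ) : ℝ :=
  a ^ 3 * (1 - s ^ p) - 3 * (p : ℝ) / (2 * ((p : ℝ) + 1)) * a ^ 2 * (1 - s ^ (p + 1)) +
    LargeN.bigL p * (1 - s ^ (p + 3))

theorem rateQ_eq (p : ℕ) : rateQ p = ((p : ℝ) + 3) * LargeN.bigL p - (p : ℝ) / 2 := by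
  have := LargeN.ratSq_pos p
  have hr : LargeN.ratSq p = Ident.b0 p ^ 2 := by
    rw [LargeN.ratSq, Ident.b0, Ident.circ_eq_half, Ident.circ_eq_half,
      mul_div_mul_left _ _ two_ne_zero]
  rw [rateQ, Ident.muMin, ← hr, LargeN.bigL]
  field_simp
  ring

theorem le_rateQ {p : ℕ} (hp : 1 ≤ p) :
    (p : ℝ) ^ 2 * (3 * (p : ℝ) + 5) /
      (2 * ((p : ℝ) + 4) * ((p : ℝ) + 1) ^ 2 * (2 * (p : ℝ) + 3)) ≤ rateQ p := by
  obtain ⟨j, rfl⟩ : ∃ j, p = j + 1 := ⟨p - 1, by omega⟩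
  have h1 := LargeN.ratSq_succ_le j
  have hr := LargeN.ratSq_pos (j + 1)
  rw [rateQ_eq, LargeN.bigL]
  push_cast
  set R := LargeN.ratSq (j + 1)
  have hR : R ≤ ((j : ℝ) + 2) ^ 2 * (2 * (j : ℝ) + 5) / (((j : ℝ) + 3) ^ 2 * (2 * (j : ℝ) + 3)) := by
    refine h1.trans (le_of_eq ?_)
    unfold LargeN.low
    field_simp
  calc ((j : ℝ) + 1) ^ 2 * (3 * ((j : ℝ) + 1) + 5) /
        (2 * ((j : ℝ) + 1 + 4) * ((j : ℝ) + 1 + 1) ^ 2 * (2 * ((j : ℝ) + 1) + 3))
      = ((j : ℝ) + 1 + 3) * (((j : ℝ) + 1) / (2 * ((j : ℝ) + 1 + 4) *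
          (((j : ℝ) + 2) ^ 2 * (2 * (j : ℝ) + 5) / (((j : ℝ) + 3) ^ 2 * (2 * (j : ℝ) + 3))))) -
          ((j : ℝ) + 1) / 2 := by field_simp; ring
    _ ≤ _ := by gcongr

/-- The truncated series of `(1 - h) ^ (-p)`. -/
noncomputable def ser (p : ℝ) (h : ℝ) : ℝ :=
  1 + p * h + p * (p + 1) / 2 * h ^ 2 + p * (p + 1) * (p + 2) / 6 * h ^ 3 +
    p * (p + 1) * (p + 2) * (p + 3) / 24 * h ^ 4 +
    p * (p + 1) * (p + 2) * (p + 3) * (p + 4) / 120 * h ^ 5

theorem ser_le (p : ℕ) {h : ℝ} (h0 : 0 ≤ h) (h1 : h ≤ 1) : (1 - h) ^ p * ser p h ≤ 1 := by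
  induction p with
  | zero => simp [ser]
  | succ p ih =>
    refine le_trans ?_ ih
    rw [pow_succ, mul_assoc]
    refine mul_le_mul_of_nonneg_left ?_ (pow_nonneg (by linarith) p)
    have e : (1 - h) * ser ((p + 1 : ℕ) : ℝ) h = ser p h -
        ((p : ℝ) + 1) * ((p : ℝ) + 2) * ((p : ℝ) + 3) * ((p : ℝ) + 4) * ((p : ℝ) + 5) / 120 *
          h ^ 6 := by
      simp only [ser]; push_cast; ring
    rw [e, sub_le_self_iff]
    positivity

theorem pow_mul_quad_le (p : ℕ) {h : ℝ} (h0 : 0 ≤ h) (h1 : h ≤ 1) :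
    (1 - h) ^ p * (1 + (p : ℝ) * h + (p : ℝ) * ((p : ℝ) + 1) / 2 * h ^ 2) ≤ 1 := by
  refine le_trans (mul_le_mul_of_nonneg_left ?_ (pow_nonneg (by linarith) p)) (ser_le p h0 h1)
  simp only [ser]
  have : (0 : ℝ) ≤ p := Nat.cast_nonneg p
  have e3 : 0 ≤ (p : ℝ) * ((p : ℝ) + 1) * ((p : ℝ) + 2) / 6 * h ^ 3 := by positivity
  have e4 : 0 ≤ (p : ℝ) * ((p : ℝ) + 1) * ((p : ℝ) + 2) * ((p : ℝ) + 3) / 24 * h ^ 4 := by
    positivity
  have e5 : 0 ≤ (p : ℝ) * ((p : ℝ) + 1) * ((p : ℝ) + 2) * ((p : ℝ) + 3) * ((p : ℝ) + 4) / 120 *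
      h ^ 5 := by positivity
  linarith

/-- The polynomial inequality behind the budget, for `5 ≤ p`. -/
theorem series_ineq {p h : ℝ} (hp : 5 ≤ p) (h0 : 0 < h) :
    (p + 4) * (p + 1) ^ 2 * (2 * p + 3) * h ^ 2 * (1 + (p + 1) * h) ^ 2 *
        ((1 - h) * (2 + (p + 1) * h) + 4 + 2 * p * h) <
      (3 * p + 5) * p * (ser p h - (1 - h) ^ 3) * (2 + (p + 1) * h) ^ 3 := by
  obtain ⟨k, hk, rfl⟩ : ∃ k : ℝ, 0 ≤ k ∧ p = k + 5 := ⟨p - 5, by linarith, by ring⟩
  rw [← sub_pos]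
  set n := k + 6 with hn
  rcases le_total (19 / 10) (n * h) with hy | hy
  · obtain ⟨z, hz, rfl⟩ : ∃ z : ℝ, 0 ≤ z ∧ h = (19 / 10 + z) / n :=
      ⟨n * h - 19 / 10, by linarith, by rw [hn]; field_simp; ring⟩
    simp only [ser, hn]
    field_simp
    ring_nf
    positivity
  · obtain ⟨w, hw, rfl⟩ : ∃ w : ℝ, 0 ≤ w ∧ h = 19 / (10 * n * (1 + w)) := by
      refine ⟨19 / (10 * (n * h)) - 1, ?_, ?_⟩
      · rw [sub_nonneg, one_le_div (by rw [hn]; positivity)]; linarith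
      · rw [hn]; field_simp; ring
    simp only [ser, hn]
    field_simp
    ring_nf
    positivity

/-- The polynomial inequality behind the budget, for `p = 4`. -/
theorem four_ineq {h : ℝ} (h0 : 0 < h) (h1 : h ≤ 1) :
    (1 - h) ^ 4 * (2 * h ^ 2 * (1 + 5 * h) ^ 2 * ((1 - h) * (2 + 5 * h) + 4 + 8 * h)) <
      17 / 275 * (1 - (1 - h) ^ 7) * (2 + 5 * h) ^ 3 := by
  rw [← sub_pos]
  rcases le_or_gt h (1 / 3) with hh | hh
  · obtain ⟨w, hw, rfl⟩ : ∃ w : ℝ, 0 ≤ w ∧ h = 1 / (3 * (1 + w)) :=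
      ⟨1 / (3 * h) - 1, by rw [sub_nonneg, one_le_div (by positivity)]; linarith,
        by field_simp; ring⟩
    field_simp
    ring_nf
    positivity
  · rcases eq_or_lt_of_le h1 with rfl | h1'
    · norm_num
    obtain ⟨w, hw, rfl⟩ : ∃ w : ℝ, 0 ≤ w ∧ h = (3 + w) / (3 * (1 + w)) := by
      refine ⟨(3 - 3 * h) / (3 * h - 1), ?_, ?_⟩
      · exact div_nonneg (by linarith) (by linarith)
      · have : 3 * h - 1 ≠ 0 := by linarith
        rw [eq_comm, div_eq_iff]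
        · field_simp
          ring
        · have : 1 + (3 - 3 * h) / (3 * h - 1) = 2 / (3 * h - 1) := by
            field_simp
            ring
          rw [this]
          exact mul_ne_zero three_ne_zero (div_ne_zero two_ne_zero (by linarith))
    field_simp
    ring_nf
    positivity

/-- The integrand of the deficit is below the budget. -/
theorem core {p : ℕ} (hp : 4 ≤ p) {s : ℝ} (hs0 : 0 < s) (hs : s < 1) :
    s ^ p * ((p : ℝ) / 2 * (s - selA p s) ^ 2 * (s + 2 * selA p s) + rateQ p * s ^ 3) <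
      rateQ p := by
  obtain ⟨h, rfl⟩ : ∃ h, s = 1 - h := ⟨1 - s, by ring⟩
  have h0 : 0 < h := by linarith
  have h1 : h ≤ 1 := by linarith
  have hp0 : (0 : ℝ) < p := by exact_mod_cast (by omega : 0 < p)
  set D := 2 + ((p : ℝ) + 1) * h with hD
  have hDp : 0 < D := by positivity
  have hq := le_rateQ (p := p) (by omega)
  have hsel : (p : ℝ) / 2 * (1 - h - selA p (1 - h)) ^ 2 * (1 - h + 2 * selA p (1 - h)) =
      (p : ℝ) / 2 * (h ^ 2 * (1 + ((p : ℝ) + 1) * h) ^ 2 *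
        ((1 - h) * D + 4 + 2 * (p : ℝ) * h)) / D ^ 3 := by
    simp only [selA, sub_sub_cancel, hD]
    field_simp
    ring
  rw [hsel]
  rcases eq_or_lt_of_le hp with rfl | hp5
  · have h4 := four_ineq h0 h1
    norm_num at hq
    norm_num at hD ⊢
    have e : (0 : ℝ) ≤ 1 - (1 - h) ^ 7 := by
      have := pow_le_one₀ (n := 7) hs0.le hs.le
      linarith
    have h5 : 17 / 275 * (1 - (1 - h) ^ 7) * D ^ 3 ≤ rateQ 4 * (1 - (1 - h) ^ 7) * D ^ 3 :=
      mul_le_mul_of_nonneg_right (mul_le_mul_of_nonneg_right (by linarith) e) (by positivity)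
    rw [← hD] at h4
    rw [← sub_pos]
    have e2 : rateQ 4 - (1 - h) ^ 4 * (2 * (h ^ 2 * (1 + 5 * h) ^ 2 *
        ((1 - h) * D + 4 + 8 * h)) / D ^ 3 + rateQ 4 * (1 - h) ^ 3) =
        (rateQ 4 * (1 - (1 - h) ^ 7) * D ^ 3 -
          (1 - h) ^ 4 * (2 * h ^ 2 * (1 + 5 * h) ^ 2 * ((1 - h) * D + 4 + 8 * h))) / D ^ 3 := by
      field_simp
      ring
    rw [e2]
    exact div_pos (by linarith) (by positivity)
  · have hS := series_ineq (p := p) (h := h) (by exact_mod_cast hp5) h0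
    rw [← hD] at hS
    set S := ser (p : ℝ) h with hSdef
    have hle := ser_le p h0.le h1
    have hS1 : 1 ≤ S := by
      have h5 : (0 : ℝ) ≤ h := h0.le
      simp only [hSdef, ser]
      have e1 : 0 ≤ (p : ℝ) * h := by positivity
      have e2 : 0 ≤ (p : ℝ) * ((p : ℝ) + 1) / 2 * h ^ 2 := by positivity
      have e3 : 0 ≤ (p : ℝ) * ((p : ℝ) + 1) * ((p : ℝ) + 2) / 6 * h ^ 3 := by positivity
      have e4 : 0 ≤ (p : ℝ) * ((p : ℝ) + 1) * ((p : ℝ) + 2) * ((p : ℝ) + 3) / 24 * h ^ 4 := by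
        positivity
      have e5 : 0 ≤ (p : ℝ) * ((p : ℝ) + 1) * ((p : ℝ) + 2) * ((p : ℝ) + 3) * ((p : ℝ) + 4) /
          120 * h ^ 5 := by positivity
      linarith
    have hd0 : 0 ≤ S - (1 - h) ^ 3 := by
      have := pow_le_one₀ (n := 3) hs0.le hs.le
      linarith
    set q0 := (p : ℝ) ^ 2 * (3 * (p : ℝ) + 5) /
      (2 * ((p : ℝ) + 4) * ((p : ℝ) + 1) ^ 2 * (2 * (p : ℝ) + 3)) with hq0
    have hqp : 0 < rateQ p := lt_of_lt_of_le (by positivity) hq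
    have key : (p : ℝ) / 2 * (h ^ 2 * (1 + ((p : ℝ) + 1) * h) ^ 2 *
        ((1 - h) * D + 4 + 2 * (p : ℝ) * h)) / D ^ 3 < rateQ p * (S - (1 - h) ^ 3) := by
      refine lt_of_lt_of_le ?_ (mul_le_mul_of_nonneg_right hq hd0)
      rw [hq0, div_mul_eq_mul_div, div_mul_eq_mul_div,
        div_lt_div_iff₀ (by positivity) (by positivity)]
      nlinarith [mul_lt_mul_of_pos_left hS hp0]
    have hb : (p : ℝ) / 2 * (h ^ 2 * (1 + ((p : ℝ) + 1) * h) ^ 2 *
        ((1 - h) * D + 4 + 2 * (p : ℝ) * h)) / D ^ 3 + rateQ p * (1 - h) ^ 3 < rateQ p * S := by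
      linarith
    calc (1 - h) ^ p * _ < (1 - h) ^ p * (rateQ p * S) :=
          mul_lt_mul_of_pos_left hb (pow_pos hs0 p)
      _ = rateQ p * ((1 - h) ^ p * S) := by ring
      _ ≤ rateQ p := mul_le_of_le_one_right hqp.le hle

/-- The gap of the budget at the obstacle `s`. -/
noncomputable def gap (p : ℕ) (s : ℝ) : ℝ := -(rateQ p * log s) - deficit p (selA p s) s

/-- The selected scale is past the minimiser of the deficit. -/
theorem selA_ge (p : ℕ) {s : ℝ} (hs0 : 0 ≤ s) (hs : s ≤ 1) :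
    0 ≤ selA p s * (1 - s ^ p) - (p : ℝ) / ((p : ℝ) + 1) * (1 - s ^ (p + 1)) := by
  obtain ⟨h, rfl⟩ : ∃ h, s = 1 - h := ⟨1 - s, by ring⟩
  have h0 : 0 ≤ h := by linarith
  have hq := pow_mul_quad_le p h0 (by linarith)
  simp only [selA, sub_sub_cancel, pow_succ]
  set u := (1 - h) ^ p
  have e : (2 + (p : ℝ) * h) / (2 + ((p : ℝ) + 1) * h) * (1 - u) -
      (p : ℝ) / ((p : ℝ) + 1) * (1 - u * (1 - h)) =
      (2 * (1 - u) - (p : ℝ) * h * u * (2 + ((p : ℝ) + 1) * h)) /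
        ((2 + ((p : ℝ) + 1) * h) * ((p : ℝ) + 1)) := by
    field_simp
    ring
  rw [e]
  exact div_nonneg (by linarith) (by positivity)

theorem gap_antitone {p : ℕ} (hp : 4 ≤ p) : StrictAntiOn (gap p) (Ioc 0 1) := by
  have hden : ∀ s : ℝ, s ≤ 1 → 2 + ((p : ℝ) + 1) * (1 - s) ≠ 0 := fun s hs => by
    have : 0 ≤ ((p : ℝ) + 1) * (1 - s) := mul_nonneg (by positivity) (by linarith)
    linarith
  refine strictAntiOn_of_hasDerivWithinAt_neg (convex_Ioc _ _)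
    (f' := fun s => -(rateQ p * s⁻¹) -
      ((selA p s * (1 - s ^ p) - (p : ℝ) / ((p : ℝ) + 1) * (1 - s ^ (p + 1))) *
          (3 * selA p s) * (2 / (2 + ((p : ℝ) + 1) * (1 - s)) ^ 2) +
        (-((p : ℝ) * s ^ (p - 1)) * selA p s ^ 3 + 3 * (p : ℝ) / 2 * s ^ p * selA p s ^ 2 -
          LargeN.bigL p * ((p : ℝ) + 3) * s ^ (p + 2)))) ?_ ?_ ?_
  · refine ContinuousOn.sub (ContinuousOn.neg (continuousOn_const.mul
      (continuousOn_log.mono fun s hs => (ne_of_gt hs.1 : s ≠ 0)))) ?_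
    have hsel : ContinuousOn (selA p) (Ioc 0 1) :=
      ContinuousOn.div (by fun_prop) (by fun_prop) fun x hx => hden x hx.2
    simp only [deficit]
    fun_prop
  · intro s hs
    rw [interior_Ioc] at hs ⊢
    have hd := hden s hs.2.le
    have ha : HasDerivAt (selA p) (1 / (2 + ((p : ℝ) + 1) * (1 - s)) ^ 2 * 2) s := by
      have h1 := (((hasDerivAt_id s).const_sub 1).const_mul (p : ℝ)).const_add 2
      have h2 := (((hasDerivAt_id s).const_sub 1).const_mul ((p : ℝ) + 1)).const_add 2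
      refine (h1.div h2 hd).congr_deriv ?_
      simp only [id_eq]
      field_simp
      ring
    have hP : ∀ k : ℕ, HasDerivAt (fun x => 1 - x ^ k) (-((k : ℝ) * s ^ (k - 1))) s :=
      fun k => (hasDerivAt_pow k s).const_sub 1
    have h := ((Real.hasDerivAt_log hs.1.ne').const_mul (rateQ p)).neg.sub
      ((((ha.pow 3).mul (hP p)).sub (((ha.pow 2).const_mul
        (3 * (p : ℝ) / (2 * ((p : ℝ) + 1)))).mul (hP (p + 1)))).add
        ((hP (p + 3)).const_mul (LargeN.bigL p)))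
    refine (h.congr_deriv ?_).hasDerivWithinAt
    simp only [Pi.pow_apply, show p + 1 - 1 = p from rfl, show p + 3 - 1 = p + 2 from rfl]
    push_cast
    field_simp
    ring
  · intro s hs
    rw [interior_Ioc] at hs
    have hc := core hp hs.1 hs.2
    have ha := selA_ge p hs.1.le hs.2.le
    set a := selA p s
    have hapos : 0 ≤ a := by
      have : 0 ≤ 1 - s := by linarith [hs.2]
      simp only [a, selA]
      positivity
    have h1 : 0 ≤ (a * (1 - s ^ p) - (p : ℝ) / ((p : ℝ) + 1) * (1 - s ^ (p + 1))) * (3 * a) *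
        (2 / (2 + ((p : ℝ) + 1) * (1 - s)) ^ 2) := by positivity
    obtain ⟨j, rfl⟩ : ∃ j, p = j + 1 := ⟨p - 1, by omega⟩
    simp only [Nat.add_sub_cancel]
    have hL := rateQ_eq (j + 1)
    push_cast at *
    set q := rateQ (j + 1)
    set L := LargeN.bigL (j + 1)
    have key : -(q * s⁻¹) - (-(((j : ℝ) + 1) * s ^ j) * a ^ 3 +
        3 * ((j : ℝ) + 1) / 2 * s ^ (j + 1) * a ^ 2 - L * ((j : ℝ) + 1 + 3) * s ^ (j + 1 + 2)) =
        (s ^ (j + 1) * (((j : ℝ) + 1) / 2 * (s - a) ^ 2 * (s + 2 * a) + q * s ^ 3) - q) / s := by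
      rw [hL]
      have := hs.1.ne'
      field_simp
      ring
    have := div_neg_of_neg_of_pos (sub_neg.2 hc) hs.1
    linarith

/-- The budget holds, strictly below the circle. -/
theorem gap_nonneg {p : ℕ} (hp : 4 ≤ p) {s : ℝ} (hs0 : 0 < s) (hs : s ≤ 1) :
    0 ≤ gap p s ∧ (gap p s = 0 → s = 1) := by
  have h1 : gap p 1 = 0 := by simp [gap, deficit]
  refine ⟨?_, fun h => ?_⟩
  · rw [← h1]
    exact (gap_antitone hp).antitoneOn ⟨hs0, hs⟩ ⟨one_pos, le_rfl⟩ hs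
  · by_contra hne
    have := gap_antitone hp ⟨hs0, hs⟩ ⟨one_pos, le_rfl⟩ (lt_of_le_of_ne hs hne)
    linarith

end Vale.Agent.P237.Petty.Lift
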