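import Vale.Agent.P237.Petty.Ident.Main

/-!
# P237: calibration of the lifted inequality on the transport

With `m = p + 1`, a profile `g` of the circle volume and its transport `σ`, the shadow and the
Fisher term along the axis are exact integrals in the transported variable. A pointwise sign of
the resulting integrand, up to the derivative of a null function, gives the lifted inequality for
any entropy bound that is an integral against the law of the section.
-/

namespace Vale.Agent.P237.Petty.Lift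

open MeasureTheory Set Filter Topology intervalIntegral
open Ident (half rate)

variable {p : ℕ} {g σ : ℝ → ℝ}

/-- The integrand of the Fisher term along the axis, in the transported variable. -/
noncomputable def jPart (p : ℕ) (s t a r q : ℝ) : ℝ :=
  ((p : ℝ) + 1) * a ^ p * (q + s * (a - t * q)) ^ 2 / (a - t * q) +
    a ^ (p + 1) * (2 * (1 - s * t) * r - 2 * (1 - s ^ 2))

/-- The Fisher excess along the axis. -/
noncomputable def jExc (p : ℕ) (g : ℝ → ℝ) : ℝ := jInt p g / circ (p + 1) - 1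

theorem continuousOn_profile (hg : Regular g) : ContinuousOn g (Icc 0 1) :=
  hg.cont.mono (Icc_subset_Icc (by norm_num) le_rfl)

/-- The mass of a transported profile. -/
theorem integral_mass (hσ : Transport p g σ) :
    ∫ t in (0 : ℝ)..1, g t ^ (p + 1) = half (p + 1) := by
  have h := hσ.mass 1 (by norm_num)
  rw [hσ.one] at h
  exact h.symm

/-- The second moment of the transported variable. -/
theorem integral_sigma (hg : Regular g) (hσ : Transport p g σ) :
    ∫ t in (0 : ℝ)..1, g t ^ (p + 1) * (1 - σ t ^ 2) = half (p + 3) := by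
  have h := hσ.integral_rate_mul hg (φ := fun x => arc x ^ (p + 3)) (continuous_arc.pow _)
  rw [show half (p + 3) = ∫ x in (0 : ℝ)..1, arc x ^ (p + 3) from rfl, ← h]
  refine intervalIntegral.integral_congr_ae ?_
  filter_upwards [Measure.ae_ne volume (1 : ℝ)] with t h1 ht
  rw [uIoc_of_le zero_le_one] at ht
  have hs := hσ.mem_Ioo t ⟨ht.1, lt_of_le_of_ne ht.2 h1⟩
  have hc : 0 < arc (σ t) := arc_pos ⟨by linarith [hs.1], hs.2⟩
  have h2 : arc (σ t) ^ 2 = 1 - σ t ^ 2 := Real.sq_sqrt (by nlinarith [hs.1, hs.2])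
  rw [← h2]
  field_simp
  ring

/-- The Fisher term on the half line. -/
theorem jExc_eq (hg : Regular g) (p : ℕ) :
    jExc p g = ((((p : ℝ) + 1) * ∫ t in (0 : ℝ)..1, g t ^ p * slopeR g t ^ 2 / icept g t) +
      g 1 ^ (p + 1)) / half (p + 1) - 1 := by
  have h := Ident.integral_ae_even (Ident.integrable_jInt hg p) (by
    filter_upwards [Ident.ae_slopeR_neg hg] with t ht hto
    rw [show icept g (-t) = icept g t by rw [icept, icept, ht hto, hg.even]; ring, ht hto, hg.even,
      neg_sq])
  rw [jExc, jInt, h, Ident.circ_eq_half]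
  have := (Ident.half_pos (p + 1)).ne'
  field_simp

/-- The Fisher excess is exact in the transported variable. -/
theorem integral_jPart (hg : Regular g) (hσ : Transport p g σ) :
    IntervalIntegrable (fun t => jPart p (σ t) t (g t) (rate p g σ t) (slopeR g t)) volume 0 1 ∧
      ∫ t in (0 : ℝ)..1, jPart p (σ t) t (g t) (rate p g σ t) (slopeR g t) =
        half (p + 1) * jExc p g := by
  have hu : uIcc (0 : ℝ) 1 = Icc 0 1 := uIcc_of_le zero_le_one
  have hgc := continuousOn_profile hg
  have hsub : uIcc (0 : ℝ) 1 ⊆ uIcc (-1 : ℝ) 1 := by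
    rw [hu, uIcc_of_le (by norm_num)]
    exact Icc_subset_Icc (by norm_num) le_rfl
  have iQ : IntervalIntegrable
      (fun t => ((p : ℝ) + 1) * (g t ^ p * slopeR g t ^ 2 / icept g t)) volume 0 1 :=
    ((Ident.integrable_jInt hg p).mono_set hsub).const_mul _
  set D := fun t => (-(2 : ℝ) + 2 * σ t * t) * g t ^ (p + 1) * rate p g σ t +
    σ t ^ 2 * g t ^ (p + 1) +
    ((p : ℝ) + 1) * g t ^ p * (-2 * σ t + σ t ^ 2 * t) * slopeR g t with hD
  have hσc := hσ.cont
  have iD : IntervalIntegrable D volume 0 1 := by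
    refine ((IntervalIntegrable.continuousOn_mul (hσ.integrable_rate hg) (by
      rw [hu]; fun_prop)).add (ContinuousOn.intervalIntegrable (by rw [hu]; fun_prop))).add
      ((hg.integrable_slopeR.mono_set hsub).continuousOn_mul (by rw [hu]; fun_prop))
  have hΨ : ∀ t ∈ Ioo (0 : ℝ) 1, HasDerivWithinAt
      (fun x => (-2 * σ x + σ x ^ 2 * x) * g x ^ (p + 1)) (D t) (Ioi t) t := fun t ht => by
    have hs : HasDerivWithinAt σ (rate p g σ t) (Ioi t) t := (hσ.deriv t ht).hasDerivWithinAt
    have hq := hasDerivWithinAt_slopeR hg.concave (⟨by linarith [ht.1], ht.2⟩ : t ∈ Ioo (-1 : ℝ) 1)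
    refine (((hs.const_mul (-2)).fun_add ((hs.fun_pow 2).fun_mul (hasDerivWithinAt_id t _))).fun_mul
      (hq.fun_pow (p + 1))).congr_deriv ?_
    simp only [hD, Nat.add_sub_cancel, id]
    push_cast
    ring
  have hF := intervalIntegral.integral_eq_sub_of_hasDeriv_right_of_le zero_le_one
    (by fun_prop) hΨ iD
  rw [hσ.one, hσ.zero] at hF
  have iM : IntervalIntegrable (fun t => g t ^ (p + 1) * (((p : ℝ) + 2) +
      -((p : ℝ) + 4) * (1 - σ t ^ 2))) volume 0 1 :=
    ContinuousOn.intervalIntegrable (by rw [hu]; fun_prop)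
  have hpt : ∀ t ∈ Ioo (0 : ℝ) 1, jPart p (σ t) t (g t) (rate p g σ t) (slopeR g t) =
      ((p : ℝ) + 1) * (g t ^ p * slopeR g t ^ 2 / icept g t) - D t +
        (g t ^ (p + 1) * (((p : ℝ) + 2) + -((p : ℝ) + 4) * (1 - σ t ^ 2))) := fun t ht => by
    have hne := (hg.icept_pos (⟨by linarith [ht.1], ht.2⟩ : t ∈ Ioo (-1 : ℝ) 1)).ne'
    simp only [icept] at hne
    simp only [jPart, hD, icept, pow_succ]
    generalize hd : g t - t * slopeR g t = d at hne ⊢
    have he : g t = d + t * slopeR g t := by linarith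
    generalize g t ^ p = u
    rw [he]
    field_simp
    ring
  have hae : ∀ᵐ t ∂volume, t ∈ uIoc (0 : ℝ) 1 →
      ((p : ℝ) + 1) * (g t ^ p * slopeR g t ^ 2 / icept g t) - D t +
        (g t ^ (p + 1) * (((p : ℝ) + 2) + -((p : ℝ) + 4) * (1 - σ t ^ 2))) =
      jPart p (σ t) t (g t) (rate p g σ t) (slopeR g t) := by
    filter_upwards [Measure.ae_ne volume (1 : ℝ)] with t h1 ht
    rw [uIoc_of_le zero_le_one] at ht
    exact (hpt t ⟨ht.1, lt_of_le_of_ne ht.2 h1⟩).symm
  refine ⟨((iQ.sub iD).add iM).congr_ae (by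
    rw [← ae_restrict_iff' measurableSet_uIoc] at hae
    exact hae), ?_⟩
  rw [← intervalIntegral.integral_congr_ae hae, intervalIntegral.integral_add (iQ.sub iD) iM,
    intervalIntegral.integral_sub iQ iD, hF, intervalIntegral.integral_const_mul]
  have i1 : IntervalIntegrable (fun t => g t ^ (p + 1) * (1 - σ t ^ 2)) volume 0 1 :=
    ContinuousOn.intervalIntegrable (by rw [hu]; fun_prop)
  have i0 : IntervalIntegrable (fun t => g t ^ (p + 1)) volume 0 1 :=
    ContinuousOn.intervalIntegrable (by rw [hu]; fun_prop)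
  have hM : ∫ t in (0 : ℝ)..1, g t ^ (p + 1) * (((p : ℝ) + 2) +
      -((p : ℝ) + 4) * (1 - σ t ^ 2)) =
      ((p : ℝ) + 2) * half (p + 1) + -((p : ℝ) + 4) * half (p + 3) := by
    rw [← integral_mass hσ, ← integral_sigma hg hσ, ← intervalIntegral.integral_const_mul,
      ← intervalIntegral.integral_const_mul,
      ← intervalIntegral.integral_add (i0.const_mul _) (i1.const_mul _)]
    exact intervalIntegral.integral_congr fun t _ => by ring
  have hst : ((p : ℝ) + 4) * half (p + 3) = ((p : ℝ) + 3) * half (p + 1) := by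
    have h := Ident.half_step (p + 1)
    push_cast at h
    linear_combination h
  rw [hM, jExc_eq hg p]
  have := (Ident.half_pos (p + 1)).ne'
  field_simp
  linear_combination (-1 : ℝ) * hst

/-- The shadow excess. -/
noncomputable def aExc (p : ℕ) (g : ℝ → ℝ) : ℝ := (∫ t in (-1 : ℝ)..1, g t ^ p) / circ p - 1

/-- The integrand of the shadow, in the transported variable. -/
noncomputable def aPart (p : ℕ) (s a : ℝ) : ℝ :=
  ((p : ℝ) + 1) * Ident.b0 p * (a ^ p - a ^ (p + 1) / arc s)

/-- The shadow excess is exact in the transported variable. -/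
theorem integral_aPart (hg : Regular g) (hσ : Transport p g σ) :
    IntervalIntegrable (fun t => aPart p (σ t) (g t)) volume 0 1 ∧
      ∫ t in (0 : ℝ)..1, aPart p (σ t) (g t) = half (p + 1) * (((p : ℝ) + 1) * aExc p g) := by
  have hu : uIcc (0 : ℝ) 1 = Icc 0 1 := uIcc_of_le zero_le_one
  have hgc := continuousOn_profile hg
  have i0 : IntervalIntegrable (fun t => g t ^ p) volume 0 1 :=
    ContinuousOn.intervalIntegrable (by rw [hu]; exact hgc.pow p)
  have i1 : IntervalIntegrable (fun t => rate p g σ t * arc (σ t) ^ p) volume 0 1 :=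
    (hσ.integrable_rate hg).mul_continuousOn (by
      rw [hu]; exact (continuous_arc.pow p).comp_continuousOn hσ.cont)
  have hi := (i0.sub i1).const_mul (((p : ℝ) + 1) * Ident.b0 p)
  have hae : ∀ᵐ t ∂volume, t ∈ uIoc (0 : ℝ) 1 →
      ((p : ℝ) + 1) * Ident.b0 p * (g t ^ p - rate p g σ t * arc (σ t) ^ p) =
        aPart p (σ t) (g t) := by
    filter_upwards [Measure.ae_ne volume (1 : ℝ)] with t h1 ht
    rw [uIoc_of_le zero_le_one] at ht
    have hs := hσ.mem_Ioo t ⟨ht.1, lt_of_le_of_ne ht.2 h1⟩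
    have hc : 0 < arc (σ t) := arc_pos ⟨by linarith [hs.1], hs.2⟩
    simp only [aPart, rate, pow_succ]
    field_simp
  refine ⟨hi.congr_ae (by
    rw [← ae_restrict_iff' measurableSet_uIoc] at hae
    exact hae), ?_⟩
  have hr : ∫ t in (0 : ℝ)..1, rate p g σ t * arc (σ t) ^ p = half p :=
    hσ.integral_rate_mul hg (φ := fun x => arc x ^ p) (continuous_arc.pow p)
  rw [← intervalIntegral.integral_congr_ae hae, intervalIntegral.integral_const_mul,
    intervalIntegral.integral_sub i0 i1, hr, aExc, Ident.circ_eq_half,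
    integral_even (fun t => by rw [hg.even]) (ContinuousOn.intervalIntegrable (by
      rw [uIcc_of_le (by norm_num)]; exact hg.cont.pow p)), Ident.b0]
  have := (Ident.half_pos p).ne'
  field_simp

/-- The weight spent on the obstacle; its total is `muMin * m / n` times the mass. -/
noncomputable def obsWeight (p : ℕ) (t : ℝ) : ℝ :=
  ((p : ℝ) + 1) * Ident.b0 p * (arc t * Ident.weight p t)

theorem obsWeight_nonneg (p : ℕ) (t : ℝ) : 0 ≤ obsWeight p t :=
  mul_nonneg (mul_nonneg (by positivity) (Ident.b0_pos p).le)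
    (mul_nonneg (Real.sqrt_nonneg _) (Ident.weight_nonneg p t))

theorem continuous_obsWeight (p : ℕ) : Continuous (obsWeight p) :=
  continuous_const.mul (continuous_arc.mul (Ident.continuous_weight p))

theorem integral_obsWeight (hp : 1 ≤ p) :
    ∫ t in (0 : ℝ)..1, obsWeight p t =
      Ident.muMin p * (((p : ℝ) + 1) / ((p : ℝ) + 2)) * half (p + 1) := by
  simp only [obsWeight, arc, mul_comm (√_) (Ident.weight p _)]
  rw [intervalIntegral.integral_const_mul, Ident.integral_weight hp, Ident.b0]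
  have := (Ident.half_pos p).ne'
  field_simp

/-- The obstacle gain at a point. -/
noncomputable def obsPart (p : ℕ) (g : ℝ → ℝ) (t : ℝ) : ℝ :=
  obsWeight p t * max 0 (Real.log (arc t / g t))

/-- The obstacle gain is integrable. -/
theorem integrable_obsPart (hg : Regular g) (p : ℕ) :
    IntervalIntegrable (obsPart p g) volume 0 1 := by
  have hgc := continuousOn_profile hg
  set V := fun t => ((p : ℝ) + 1) * Ident.b0 p * Ident.weight p t with hV
  have hVc : Continuous V := continuous_const.mul (Ident.continuous_weight p)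
  obtain ⟨C, hC⟩ := (isCompact_Icc (a := (0 : ℝ)) (b := 1)).exists_bound_of_continuousOn
    hVc.continuousOn
  rw [intervalIntegrable_iff_integrableOn_Ioc_of_le zero_le_one]
  refine (integrableOn_const (C := C * (2 / g 0)) (by simp)).mono' ?_ ?_
  · refine ((continuous_obsWeight p).aestronglyMeasurable.restrict.mul ?_)
    exact (measurable_const.aemeasurable.max (Real.measurable_log.comp_aemeasurable
      (continuous_arc.measurable.aemeasurable.div ((hgc.mono Ioc_subset_Icc_self).aemeasurable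
        measurableSet_Ioc)))).aestronglyMeasurable
  · filter_upwards [ae_restrict_mem measurableSet_Ioc,
      ae_restrict_of_ae (Measure.ae_ne volume (1 : ℝ))] with t ht h1
    have hto : t ∈ Ico (0 : ℝ) 1 := ⟨ht.1.le, lt_of_le_of_ne ht.2 h1⟩
    have hgp := hg.pos_of_lt hto
    have hc : 0 ≤ arc t := Real.sqrt_nonneg _
    have hlog : max 0 (Real.log (arc t / g t)) ≤ arc t / g t :=
      max_le (div_nonneg hc hgp.le) (Real.log_le_self (div_nonneg hc hgp.le))
    have hlow : g 0 * (1 - t) ≤ g t := by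
      have h := hg.concave.2 (show (0 : ℝ) ∈ Icc (-1 : ℝ) 1 by norm_num)
        (show (1 : ℝ) ∈ Icc (-1 : ℝ) 1 by norm_num) (sub_nonneg.2 ht.2) ht.1.le (by ring)
      simp only [smul_eq_mul, mul_zero, zero_add, mul_one] at h
      nlinarith [hg.nonneg 1 (by norm_num), ht.1]
    have hb : arc t * (arc t / g t) ≤ 2 / g 0 := by
      rw [← mul_div_assoc, div_le_div_iff₀ hgp hg.pos,
        show arc t * arc t = 1 - t ^ 2 from Real.mul_self_sqrt (by nlinarith [hto.1, hto.2])]
      nlinarith [hg.pos, hto.1, hto.2, hlow]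
    have hVb : ‖V t‖ ≤ C := hC t (Ioc_subset_Icc_self ht)
    rw [Real.norm_eq_abs] at hVb
    have h0 : 0 ≤ arc t * max 0 (Real.log (arc t / g t)) := mul_nonneg hc (le_max_left _ _)
    have e : obsPart p g t = V t * (arc t * max 0 (Real.log (arc t / g t))) := by
      simp only [obsPart, obsWeight, hV]; ring
    rw [e, norm_mul, Real.norm_eq_abs, Real.norm_of_nonneg h0]
    exact mul_le_mul hVb ((mul_le_mul_of_nonneg_left hlog hc).trans hb) h0
      ((abs_nonneg _).trans hVb)

/-- The integrand of the calibration; `e` bounds the entropy per unit of mass and `v` is the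
obstacle gain. -/
noncomputable def liftPart (p : ℕ) (nu kap s t a r q e v : ℝ) : ℝ :=
  aPart p s a + nu * jPart p s t a r q + v - kap * (a ^ (p + 1) * e)

/-- A sign of the integrand plus the derivative of a null function gives the lifted inequality. -/
theorem lifted_of_pointwise (hg : Regular g) (hσ : Transport p g σ) {nu kap dH : ℝ}
    (hkap : 0 ≤ kap) {e v : ℝ → ℝ}
    (hei : IntervalIntegrable (fun t => g t ^ (p + 1) * e t) volume 0 1)
    (hvi : IntervalIntegrable v volume 0 1)
    (hH : half (p + 1) * dH ≤ ∫ t in (0 : ℝ)..1, g t ^ (p + 1) * e t)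
    {ψ ψ' : ℝ → ℝ} (hψc : ContinuousOn ψ (Icc 0 1))
    (hψd : ∀ t ∈ Ioo (0 : ℝ) 1, HasDerivWithinAt ψ (ψ' t) (Ioi t) t)
    (hpos : ∀ t ∈ Ioo (0 : ℝ) 1,
      0 ≤ liftPart p nu kap (σ t) t (g t) (rate p g σ t) (slopeR g t) (e t) (v t) + ψ' t) :
    ψ 0 - ψ 1 ≤ half (p + 1) * (((p : ℝ) + 1) * aExc p g + nu * jExc p g +
      (∫ t in (0 : ℝ)..1, v t) / half (p + 1) - kap * dH) := by
  obtain ⟨hji, hj⟩ := integral_jPart hg hσ
  obtain ⟨hai, ha⟩ := integral_aPart hg hσ
  have hFi : IntervalIntegrable (fun t => liftPart p nu kap (σ t) t (g t) (rate p g σ t)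
      (slopeR g t) (e t) (v t)) volume 0 1 :=
    (((hai.add (hji.const_mul nu)).add hvi).sub (hei.const_mul kap))
  have hkey := intervalIntegral.sub_le_integral_of_hasDeriv_right_of_le zero_le_one hψc.neg
    (fun t ht => (hψd t ht).neg)
    ((intervalIntegrable_iff_integrableOn_Icc_of_le zero_le_one).1 hFi)
    fun t ht => by linarith [hpos t ht]
  have hI : ∫ t in (0 : ℝ)..1,
      liftPart p nu kap (σ t) t (g t) (rate p g σ t) (slopeR g t) (e t) (v t) =
      half (p + 1) * (((p : ℝ) + 1) * aExc p g) + nu * (half (p + 1) * jExc p g) +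
        (∫ t in (0 : ℝ)..1, v t) - kap * ∫ t in (0 : ℝ)..1, g t ^ (p + 1) * e t := by
    rw [← hj, ← ha, ← intervalIntegral.integral_const_mul, ← intervalIntegral.integral_const_mul,
      ← intervalIntegral.integral_add hai (hji.const_mul nu),
      ← intervalIntegral.integral_add (hai.add (hji.const_mul nu)) hvi,
      ← intervalIntegral.integral_sub ((hai.add (hji.const_mul nu)).add hvi) (hei.const_mul kap)]
    exact intervalIntegral.integral_congr fun t _ => rfl
  rw [hI] at hkey
  simp only [Pi.neg_apply] at hkey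
  have := mul_le_mul_of_nonneg_left hH hkap
  have hB := (Ident.half_pos (p + 1)).ne'
  rw [show half (p + 1) * (((p : ℝ) + 1) * aExc p g + nu * jExc p g +
      (∫ t in (0 : ℝ)..1, v t) / half (p + 1) - kap * dH) =
      half (p + 1) * (((p : ℝ) + 1) * aExc p g) + nu * (half (p + 1) * jExc p g) +
        (∫ t in (0 : ℝ)..1, v t) - kap * (half (p + 1) * dH) by field_simp]
  linarith

/-- The lifted inequality in the form of the criterion: an entropy bound `dH ≤ ∫ g^m e + δ`, the
obstacle gain and the sign of the integrand give it up to `kap * δ`. -/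
theorem lifted_criterion (hg : Regular g) (hσ : Transport p g σ) {nu kap dH δ : ℝ}
    (hkap : 0 ≤ kap) {e : ℝ → ℝ}
    (hei : IntervalIntegrable (fun t => g t ^ (p + 1) * e t) volume 0 1)
    (hH : dH ≤ (∫ t in (0 : ℝ)..1, g t ^ (p + 1) * e t) / half (p + 1) + δ)
    {ψ ψ' : ℝ → ℝ} (hψc : ContinuousOn ψ (Icc 0 1)) (hends : ψ 1 ≤ ψ 0)
    (hψd : ∀ t ∈ Ioo (0 : ℝ) 1, HasDerivWithinAt ψ (ψ' t) (Ioi t) t)
    (hpos : ∀ t ∈ Ioo (0 : ℝ) 1, 0 ≤ liftPart p nu kap (σ t) t (g t) (rate p g σ t) (slopeR g t)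
      (e t) (obsPart p g t) + ψ' t) :
    kap * dH ≤ ((p : ℝ) + 1) * ((∫ t in (-1 : ℝ)..1, g t ^ p) / circ p - 1) +
      nu * (jInt p g / circ (p + 1) - 1) +
      (∫ t in (0 : ℝ)..1, obsWeight p t * max 0 (Real.log (arc t / g t))) / half (p + 1) +
      kap * δ := by
  have hB := Ident.half_pos (p + 1)
  have hH' : half (p + 1) * (dH - δ) ≤ ∫ t in (0 : ℝ)..1, g t ^ (p + 1) * e t := by
    rw [mul_comm, ← le_div_iff₀ hB]
    linarith
  have h := lifted_of_pointwise hg hσ hkap hei (integrable_obsPart hg p) hH' hψc hψd hpos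
  have h2 : 0 ≤ ((p : ℝ) + 1) * aExc p g + nu * jExc p g +
      (∫ t in (0 : ℝ)..1, obsPart p g t) / half (p + 1) - kap * (dH - δ) :=
    nonneg_of_mul_nonneg_right (by linarith) hB
  simp only [aExc, jExc, obsPart] at h2
  linarith

/-- The derivative of a potential `F (σ, t, g)` along a profile. -/
theorem hasDeriv_potential (hg : Regular g) (hσ : Transport p g σ)
    (F Fs Ft Fg : ℝ → ℝ → ℝ → ℝ)
    (hF : ∀ s ∈ Ioo (0 : ℝ) 1, ∀ t ∈ Ioo (0 : ℝ) 1, ∀ y : ℝ, 0 < y →
      HasFDerivAt (fun x : ℝ × ℝ × ℝ => F x.1 x.2.1 x.2.2)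
        (Fs s t y • ContinuousLinearMap.fst ℝ ℝ (ℝ × ℝ) +
          Ft s t y • (ContinuousLinearMap.fst ℝ ℝ ℝ).comp (ContinuousLinearMap.snd ℝ ℝ (ℝ × ℝ)) +
          Fg s t y • (ContinuousLinearMap.snd ℝ ℝ ℝ).comp (ContinuousLinearMap.snd ℝ ℝ (ℝ × ℝ)))
        (s, t, y))
    {t : ℝ} (ht : t ∈ Ioo (0 : ℝ) 1) :
    HasDerivWithinAt (fun t => F (σ t) t (g t))
      (Fs (σ t) t (g t) * rate p g σ t + Ft (σ t) t (g t) + Fg (σ t) t (g t) * slopeR g t)
      (Ioi t) t := by
  have h1 : HasDerivWithinAt (fun u => (σ u, u, g u)) (rate p g σ t, 1, slopeR g t) (Ioi t) t :=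
    (hσ.deriv t ht).hasDerivWithinAt.prodMk ((hasDerivWithinAt_id t _).prodMk
      (hasDerivWithinAt_slopeR hg.concave ⟨by linarith [ht.1], ht.2⟩))
  refine (HasFDerivAt.comp_hasDerivWithinAt (f := fun u => (σ u, u, g u))
    (l := fun x : ℝ × ℝ × ℝ => F x.1 x.2.1 x.2.2) t
    (hF _ (hσ.mem_Ioo t ht) t ht _ (hg.pos_of_lt ⟨ht.1.le, ht.2⟩)) h1).congr_deriv ?_
  simp

end Vale.Agent.P237.Petty.Lift
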