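import Vale.Agent.P237.Petty.Lift.Budget
import Vale.Agent.P237.Petty.LinearCriterion
import Vale.Agent.P237.Petty.Eventual

/-!
# P237: the step from an obstacle free bound of the entropy

`RPrimeBound p kappa nu` bounds, for every profile with the volume of the circle and some test
density, `kappa` times the entropy term by the axial Fisher excess and the excess of the moment of
order `p + 3`. There is no obstacle, no volume threshold and no integral of order `p` in it. It
gives the step in dimension `p + 2` for `4 ≤ p`.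
-/

namespace Vale.Agent.P237.Petty.Lift

open MeasureTheory Set Filter Topology

universe u

/-- An admissible test density of the entropy term. -/
structure DensityTest (φ : ℝ → ℝ) : Prop where
  continuous : Continuous φ
  positive : ∀ t, 0 < φ t
  integrable : Integrable φ
  mass : ∫ t, φ t ≤ 1
  growth : ∃ (A : ℝ) (k : ℕ), ∀ t, |Real.log (φ t)| ≤ A * (1 + |t|) ^ k

/-- The right hand side of the obstacle free bound: `nu (J - 1) - L dS`. -/
noncomputable def slackTerm (p : ℕ) (nu : ℝ) (g : ℝ → ℝ) : ℝ :=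
  nu * (jInt p g / circ (p + 1) - 1) -
    LargeN.bigL p * (((p : ℝ) + 4) * ((p : ℝ) + 1) / ((p : ℝ) + 3)) *
      ((∫ t in (-1 : ℝ)..1, g t ^ (p + 3)) - circ (p + 3)) / circ (p + 1)

/-- The obstacle free bound of the entropy of a profile with the volume of the circle. -/
def RPrimeBound (p : ℕ) (kappa nu : ℝ) : Prop :=
  ∀ g : ℝ → ℝ, Regular g → (∫ t in (-1 : ℝ)..1, g t ^ (p + 1)) = circ (p + 1) →
    ∀ ε : ℝ, 0 < ε → ∃ φ : ℝ → ℝ, DensityTest φ ∧ kappa * entTerm p g φ ≤ slackTerm p nu g + ε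

/-- The rescaled potential. -/
noncomputable def potA (p : ℕ) (a v : ℝ) : ℝ :=
  a ^ 3 * Ident.b0 p * v ^ p + LargeN.bigL p * ((p : ℝ) + 4) / ((p : ℝ) + 3) * v ^ (p + 3) -
    3 * (p : ℝ) / (2 * ((p : ℝ) + 1)) * a ^ 2 * v ^ (p + 1)

theorem monotoneOn_potA {p : ℕ} (hp : 1 ≤ p) {a : ℝ} (ha : 0 ≤ a) :
    MonotoneOn (potA p a) (Ici 0) := by
  obtain ⟨j, rfl⟩ : ∃ j, p = j + 1 := ⟨p - 1, by omega⟩
  set b := Ident.b0 (j + 1) with hb
  have hb0 : 0 < b := Ident.b0_pos _
  have hr : LargeN.ratSq (j + 1) = b ^ 2 := by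
    rw [LargeN.ratSq, hb, Ident.b0, Ident.circ_eq_half, Ident.circ_eq_half,
      mul_div_mul_left _ _ two_ne_zero]
  refine monotoneOn_of_hasDerivWithinAt_nonneg (convex_Ici _)
    (f' := fun v => ((j : ℝ) + 1) / (2 * b ^ 2) * v ^ j * (v - a * b) ^ 2 * (v + 2 * a * b))
    (by unfold potA; fun_prop) (fun v _ => ?_) fun v hv => ?_
  · have h := (((hasDerivAt_pow (j + 1) v).const_mul (a ^ 3 * b)).add
      ((hasDerivAt_pow (j + 1 + 3) v).const_mul
        (LargeN.bigL (j + 1) * (((j + 1 : ℕ) : ℝ) + 4) / (((j + 1 : ℕ) : ℝ) + 3)))).sub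
      ((hasDerivAt_pow (j + 1 + 1) v).const_mul
        (3 * ((j + 1 : ℕ) : ℝ) / (2 * (((j + 1 : ℕ) : ℝ) + 1)) * a ^ 2))
    refine (h.congr_deriv ?_).hasDerivWithinAt
    simp only [show j + 1 - 1 = j from rfl, show j + 1 + 3 - 1 = j + 3 from rfl,
      show j + 1 + 1 - 1 = j + 1 from rfl, LargeN.bigL, hr]
    push_cast
    field_simp
    ring
  · rw [interior_Ici] at hv
    have hv0 : 0 < v := hv
    positivity

/-- The integrated monotonicity above the obstacle. -/
theorem deficit_bound {p : ℕ} (hp : 1 ≤ p) {g : ℝ → ℝ} (hg : Regular g) {s a : ℝ} (hs : 0 ≤ s)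
    (ha : 0 ≤ a) (hvol : (∫ t in (-1 : ℝ)..1, g t ^ (p + 1)) = circ (p + 1))
    (hge : ∀ t ∈ Icc (-1 : ℝ) 1, s * √(1 - t ^ 2) ≤ g t) :
    0 ≤ a ^ 3 * ((∫ t in (-1 : ℝ)..1, g t ^ p) / circ p - 1) +
      LargeN.bigL p * (((p : ℝ) + 4) / ((p : ℝ) + 3)) *
        ((∫ t in (-1 : ℝ)..1, g t ^ (p + 3)) - circ (p + 3)) / circ (p + 1) +
      deficit p a s := by
  have hgi : ∀ j : ℕ, IntervalIntegrable (fun t => g t ^ j) volume (-1) 1 := fun j =>
    ContinuousOn.intervalIntegrable (by rw [uIcc_of_le (by norm_num)]; exact hg.cont.pow j)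
  have hci : ∀ j : ℕ, IntervalIntegrable (fun t : ℝ => (s * √(1 - t ^ 2)) ^ j) volume (-1) 1 :=
    fun j => Continuous.intervalIntegrable (by fun_prop) _ _
  have hcv : ∀ j : ℕ, ∫ t in (-1 : ℝ)..1, (s * √(1 - t ^ 2)) ^ j = s ^ j * circ j := fun j => by
    simp only [mul_pow]
    rw [intervalIntegral.integral_const_mul, circ]
  set c1 := a ^ 3 * Ident.b0 p
  set c2 := LargeN.bigL p * ((p : ℝ) + 4) / ((p : ℝ) + 3) with hc2
  set c3 := 3 * (p : ℝ) / (2 * ((p : ℝ) + 1)) * a ^ 2 with hc3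
  have h := intervalIntegral.integral_mono_on (μ := volume) (by norm_num : (-1 : ℝ) ≤ 1)
    ((((hci p).const_mul c1).add ((hci (p + 3)).const_mul c2)).sub ((hci (p + 1)).const_mul c3))
    ((((hgi p).const_mul c1).add ((hgi (p + 3)).const_mul c2)).sub ((hgi (p + 1)).const_mul c3))
    fun t ht => monotoneOn_potA hp ha (mem_Ici.2 (mul_nonneg hs (Real.sqrt_nonneg _)))
      (mem_Ici.2 (hg.nonneg t ht)) (hge t ht)
  rw [intervalIntegral.integral_sub (((hci p).const_mul c1).add ((hci (p + 3)).const_mul c2))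
      ((hci (p + 1)).const_mul c3),
    intervalIntegral.integral_add ((hci p).const_mul c1) ((hci (p + 3)).const_mul c2),
    intervalIntegral.integral_sub (((hgi p).const_mul c1).add ((hgi (p + 3)).const_mul c2))
      ((hgi (p + 1)).const_mul c3),
    intervalIntegral.integral_add ((hgi p).const_mul c1) ((hgi (p + 3)).const_mul c2)] at h
  simp only [intervalIntegral.integral_const_mul, hcv, hvol] at h
  have hstep := Ident.half_step (p + 1)
  have hb : Ident.b0 p = circ (p + 1) / circ p := by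
    rw [Ident.b0, Ident.circ_eq_half, Ident.circ_eq_half, mul_div_mul_left _ _ two_ne_zero]
  have h3 : circ (p + 3) = ((p : ℝ) + 3) / ((p : ℝ) + 4) * circ (p + 1) := by
    rw [Ident.circ_eq_half, Ident.circ_eq_half]
    push_cast at hstep
    field_simp
    linear_combination hstep
  have hC0 := circ_pos p
  have hC1 := circ_pos (p + 1)
  have e : a ^ 3 * ((∫ t in (-1 : ℝ)..1, g t ^ p) / circ p - 1) +
      LargeN.bigL p * (((p : ℝ) + 4) / ((p : ℝ) + 3)) *
        ((∫ t in (-1 : ℝ)..1, g t ^ (p + 3)) - circ (p + 3)) / circ (p + 1) + deficit p a s =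
      ((c1 * (∫ t in (-1 : ℝ)..1, g t ^ p) + c2 * (∫ t in (-1 : ℝ)..1, g t ^ (p + 3)) -
          c3 * circ (p + 1)) -
        (c1 * (s ^ p * circ p) + c2 * (s ^ (p + 3) * circ (p + 3)) -
          c3 * (s ^ (p + 1) * circ (p + 1)))) / circ (p + 1) := by
    simp only [deficit, c1, hc2, hc3, hb, h3]
    field_simp
    ring
  rw [e]
  exact div_nonneg (sub_nonneg.2 h) hC1.le

theorem muMin_pos {p : ℕ} (hp : 1 ≤ p) : 0 < Ident.muMin p := by
  have hp0 : (0 : ℝ) < p := by exact_mod_cast hp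
  have : 0 < rateQ p := lt_of_lt_of_le (by positivity) (le_rateQ hp)
  rw [rateQ] at this
  exact (div_pos_iff_of_pos_right (by positivity)).1 this

/-- A bound of the entropy of the profiles with the volume of the circle gives the criterion in
John position, once its positivity along the inscribed ellipse forces the shadow inequality. -/
theorem criterion_of_bound {p : ℕ} {kappa nu : ℝ} (hk : 0 ≤ kappa) (hnu : 0 ≤ nu)
    (S : (ℝ → ℝ) → ℝ)
    (hS : ∀ g : ℝ → ℝ, Regular g → (∫ t in (-1 : ℝ)..1, g t ^ (p + 1)) = circ (p + 1) →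
      ∀ ε : ℝ, 0 < ε → ∃ φ : ℝ → ℝ, DensityTest φ ∧
        kappa * entTerm p g φ ≤ nu * (jInt p g / circ (p + 1) - 1) + S g + ε)
    (hgood : ∀ (g : ℝ → ℝ) (s : ℝ), Regular g →
      (∫ t in (-1 : ℝ)..1, g t ^ (p + 1)) = circ (p + 1) → 0 < s → s ≤ 1 →
      (∀ t ∈ Icc (-1 : ℝ) 1, s * √(1 - t ^ 2) ≤ g t) →
      0 ≤ S g + kappa * (((p : ℝ) + 1) / ((p : ℝ) + 2)) * Real.log s →
      1 ≤ (∫ t in (-1 : ℝ)..1, g t ^ p) / circ p ∧
        ((∫ t in (-1 : ℝ)..1, g t ^ p) / circ p = 1 → s = 1)) :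
    ProfileCriterion p := by
  refine ⟨fun _ => nu, fun _ => 0, fun _ => kappa, fun _ => ⟨hnu, le_rfl, hk⟩, ?_⟩
  intro f hc he hge _
  obtain ⟨F, hF, hgeF, hin⟩ := exists_regular hc he hge
  have hA : ∫ t in (-1 : ℝ)..1, f t ^ p = ∫ t in (-1 : ℝ)..1, F t ^ p :=
    integral_congr_Ioo fun t ht => by rw [hin t ht]
  have hB : ∫ t in (-1 : ℝ)..1, f t ^ (p + 1) = ∫ t in (-1 : ℝ)..1, F t ^ (p + 1) :=
    integral_congr_Ioo fun t ht => by rw [hin t ht]
  have hdir : ∀ φ, dirTerm p f φ = dirTerm p F φ := fun φ => by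
    rw [dirTerm, dirTerm, pavg_congr hin]
  have hrel : relVolume p f = relVolume p F := by rw [relVolume, relVolume, hB]
  have hent : ∀ φ, entTerm p f φ = entTerm p F φ := fun φ => by
    simp only [entTerm, hrel, pavg_congr hin]
  have hc0 := circ_pos p
  have hc1 := circ_pos (p + 1)
  set B := ∫ t in (-1 : ℝ)..1, F t ^ (p + 1) with hBdef
  have hu : uIcc (-1 : ℝ) 1 = Icc (-1) 1 := uIcc_of_le (by norm_num)
  have hBge : circ (p + 1) ≤ B :=
    intervalIntegral.integral_mono_on (by norm_num)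
      (Continuous.intervalIntegrable (by fun_prop) _ _)
      ((ContinuousOn.pow (by rw [hu]; exact hF.cont) _).intervalIntegrable)
      fun t ht => pow_le_pow_left₀ (Real.sqrt_nonneg _) (hgeF t ht) _
  have hBpos : 0 < B := hc1.trans_le hBge
  -- scaling
  set s := (circ (p + 1) / B) ^ (((p + 1 : ℕ) : ℝ)⁻¹) with hsdef
  have hs : 0 < s := Real.rpow_pos_of_pos (div_pos hc1 hBpos) _
  have hsm : s ^ (p + 1) = circ (p + 1) / B :=
    Real.rpow_inv_natCast_pow (div_nonneg hc1.le hBpos.le) (Nat.succ_ne_zero p)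
  have hs1 : s ≤ 1 := Real.rpow_le_one (div_nonneg hc1.le hBpos.le) ((div_le_one hBpos).2 hBge)
    (by positivity)
  set G := fun t => s * F t with hG
  have hGB : ∫ t in (-1 : ℝ)..1, G t ^ (p + 1) = circ (p + 1) := by
    simp only [hG, mul_pow]
    rw [intervalIntegral.integral_const_mul, hsm, ← hBdef, div_mul_cancel₀ _ hBpos.ne']
  have hGA : ∫ t in (-1 : ℝ)..1, G t ^ p = s ^ p * ∫ t in (-1 : ℝ)..1, F t ^ p := by
    simp only [hG, mul_pow]
    rw [intervalIntegral.integral_const_mul]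
  have hGJ : jInt p G = s ^ (p + 1) * jInt p F := by
    rw [jInt, jInt, mul_add]
    refine congrArg₂ (· + ·) ?_ (by simp only [hG, mul_pow]; ring)
    rw [← mul_assoc, mul_comm (s ^ (p + 1)), mul_assoc]
    congr 1
    rw [← intervalIntegral.integral_const_mul]
    refine integral_congr_Ioo fun t ht => ?_
    have := (hF.icept_pos ht).ne'
    simp only [icept, hG, slopeR_smul hF s ht, mul_pow]
    rw [show s * F t - t * (s * slopeR F t) = s * (F t - t * slopeR F t) by ring]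
    unfold icept at this
    field_simp
    ring
  have hJe : jInt p G / circ (p + 1) = jInt p F / B := by
    rw [hGJ, hsm]; field_simp
  have hlogs : Real.log (relVolume p F) = -(((p : ℝ) + 1) * Real.log s) := by
    have e : relVolume p F = (s ^ (p + 1))⁻¹ := by rw [relVolume, hsm, inv_div]
    rw [e, Real.log_inv, Real.log_pow]
    push_cast
    ring
  have hpav : ∀ h : ℝ → ℝ, pavg (p + 1) G h = pavg (p + 1) F h := fun h => by
    have e : ∫ t in (-1 : ℝ)..1, h t * G t ^ (p + 1) =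
        s ^ (p + 1) * ∫ t in (-1 : ℝ)..1, h t * F t ^ (p + 1) := by
      rw [← intervalIntegral.integral_const_mul]
      exact intervalIntegral.integral_congr fun t _ => by simp only [hG]; ring
    have e2 : ∫ t in (-1 : ℝ)..1, G t ^ (p + 1) = s ^ (p + 1) * B := by
      simp only [hG, mul_pow]
      rw [intervalIntegral.integral_const_mul, hBdef]
    rw [pavg, pavg, e, e2, mul_div_mul_left _ _ (pow_ne_zero _ hs.ne')]
  have hrelG : relVolume p G = 1 := by rw [relVolume, hGB, div_self hc1.ne']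
  have hentG : ∀ φ, entTerm p F φ =
      entTerm p G φ + ((p : ℝ) + 1) / ((p : ℝ) + 2) * Real.log s := fun φ => by
    simp only [entTerm, hrelG, hpav, hlogs, Real.log_one, zero_div, sub_zero]
    ring
  set J := jInt p F / B with hJdef
  set C := S G + kappa * (((p : ℝ) + 1) / ((p : ℝ) + 2)) * Real.log s with hCdef
  -- tests
  have hex : ∀ δ : ℝ, 0 < δ → ∃ φ ψ χ g : ℝ → ℝ, Tests φ ψ χ g ∧
      nu * dirTerm p f φ + 0 * corTerm p f ψ χ + kappa * entTerm p f g ≤ C + (nu + 1) * δ := by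
    intro δ hδ
    obtain ⟨φ, hφ, hd⟩ := exists_dir hF p hBpos hδ
    obtain ⟨g, hg, hgb⟩ := hS G (hF.smul hs) hGB δ hδ
    refine ⟨φ, fun t => t ^ 2 / 2, fun t => t ^ 2 / 2, g,
      ⟨hφ, by fun_prop, by fun_prop, fun u _ v _ => by nlinarith [sq_nonneg (u - v)],
        hg.continuous, hg.positive, hg.integrable, hg.mass, hg.growth⟩, ?_⟩
    rw [hdir, hent, hentG, zero_mul, add_zero]
    have h1 : nu * dirTerm p F φ ≤ nu * (1 - J + δ) := mul_le_mul_of_nonneg_left hd hnu
    rw [hJe] at hgb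
    calc nu * dirTerm p F φ + kappa * (entTerm p G g + ((p : ℝ) + 1) / ((p : ℝ) + 2) * Real.log s)
        ≤ nu * (1 - J + δ) + (nu * (J - 1) + S G + δ) +
          kappa * (((p : ℝ) + 1) / ((p : ℝ) + 2) * Real.log s) := by
          rw [mul_add]; linarith
      _ = C + (nu + 1) * δ := by rw [hCdef]; ring
  by_cases hC : C < 0
  · obtain ⟨φ, ψ, χ, g, ht, hle⟩ := hex (-C / (2 * (nu + 1)))
      (div_pos (neg_pos.2 hC) (by positivity))
    refine ⟨φ, ψ, χ, g, ht, fun h => absurd (h.trans hle) (not_le.2 ?_)⟩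
    have e : (nu + 1) * (-C / (2 * (nu + 1))) = -C / 2 := by field_simp
    rw [e]
    linarith
  · obtain ⟨φ, ψ, χ, g, ht, -⟩ := hex 1 one_pos
    refine ⟨φ, ψ, χ, g, ht, fun _ => ?_⟩
    rw [hA, hB]
    obtain ⟨h1, h2⟩ := hgood G s (hF.smul hs) hGB hs hs1
      (fun t ht => mul_le_mul_of_nonneg_left (hgeF t ht) hs.le) (not_lt.1 hC)
    have hm : (0 : ℝ) < (p : ℝ) + 1 := by positivity
    exact contact_conclusion p (Φ := ((p : ℝ) + 1) * ((∫ t in (-1 : ℝ)..1, G t ^ p) / circ p - 1))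
      (C := 0) hc0 hBpos hsm hGA le_rfl (mul_nonneg hm.le (by linarith)) (by linarith)
      fun h0 => h2 (by linarith [(mul_eq_zero.1 h0).resolve_left hm.ne'])

/-- The obstacle free bound gives the criterion in John position. -/
theorem criterion_of_rPrime {p : ℕ} (hp : 4 ≤ p) {kappa nu : ℝ} (hk : Ident.muMin p ≤ kappa)
    (hnu : 0 ≤ nu) (hR : RPrimeBound p kappa nu) : ProfileCriterion p := by
  refine criterion_of_bound ((muMin_pos (by omega : 1 ≤ p)).le.trans hk) hnu
    (fun g => -(((p : ℝ) + 1) * (LargeN.bigL p * (((p : ℝ) + 4) / ((p : ℝ) + 3)) *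
      ((∫ t in (-1 : ℝ)..1, g t ^ (p + 3)) - circ (p + 3)) / circ (p + 1)))) (fun g hg hv ε hε => ?_)
    fun g s hg hv hs hs1 hge hC => ?_
  · obtain ⟨φ, hφ, hb⟩ := hR g hg hv ε hε
    refine ⟨φ, hφ, hb.trans (le_of_eq ?_)⟩
    rw [slackTerm]
    ring
  set a := selA p s with hadef
  have hapos : 0 < a := by
    have : 0 ≤ 1 - s := by linarith
    simp only [hadef, selA]
    positivity
  obtain ⟨hg0, hg1⟩ := gap_nonneg hp hs hs1
  have hd := deficit_bound (by omega : 1 ≤ p) hg hs.le hapos.le hv hge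
  have hlog : 0 ≤ -Real.log s := neg_nonneg.2 (Real.log_nonpos hs.le hs1)
  have hrk : rateQ p * ((p : ℝ) + 2) ≤ kappa := by
    rw [rateQ, div_mul_cancel₀ _ (by positivity)]; exact hk
  have h1 : ((p : ℝ) + 1) * rateQ p * -Real.log s ≤
      kappa * (((p : ℝ) + 1) / ((p : ℝ) + 2)) * -Real.log s := by
    refine mul_le_mul_of_nonneg_right ?_ hlog
    rw [mul_div_assoc', le_div_iff₀ (by positivity)]
    nlinarith [mul_le_mul_of_nonneg_left hrk (show (0 : ℝ) ≤ (p : ℝ) + 1 by positivity)]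
  have hm : (0 : ℝ) < (p : ℝ) + 1 := by positivity
  have key : gap p s ≤ a ^ 3 * ((∫ t in (-1 : ℝ)..1, g t ^ p) / circ p - 1) := by
    refine le_of_mul_le_mul_left ?_ hm
    rw [gap, ← hadef]
    nlinarith [mul_nonneg hm.le hd]
  have ha3 : 0 < a ^ 3 := by positivity
  refine ⟨?_, fun he => hg1 ?_⟩
  · have := nonneg_of_mul_nonneg_right (hg0.trans key) ha3
    linarith
  · rw [he, sub_self, mul_zero] at key
    exact le_antisymm key hg0

/-- The obstacle free bound gives the step in dimension `p + 2`. -/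
theorem stepHolds_of_rPrime {p : ℕ} (hp : 4 ≤ p) {kappa nu : ℝ} (hk : Ident.muMin p ≤ kappa)
    (hnu : 0 ≤ nu) (hR : RPrimeBound p kappa nu) : StepHolds.{u} p :=
  stepHolds_of_criterion (criterion_of_rPrime hp hk hnu hR)

/-- With all smaller steps, the bound in every order gives the inequality in every dimension. -/
theorem petty_of_rPrime {P0 : ℕ} (hP : 4 ≤ P0)
    (hlow : ∀ p, 1 ≤ p → p < P0 → StepHolds.{u} p) (kappa nu : ℕ → ℝ)
    (hk : ∀ p, P0 ≤ p → Ident.muMin p ≤ kappa p) (hnu : ∀ p, P0 ≤ p → 0 ≤ nu p)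
    (hR : ∀ p, P0 ≤ p → RPrimeBound p (kappa p) (nu p)) {n : ℕ} (hn : 3 ≤ n) {E : Type u}
    [NormedAddCommGroup E] [InnerProductSpace ℝ E] [FiniteDimensional ℝ E] [MeasurableSpace E]
    [BorelSpace E] (hfin : Module.finrank ℝ E = n) {K : Set E} (hK : Body K) :
    cPetty n * volume.real K ^ (n - 1) ≤ volume.real (projBody K) ∧
      (volume.real (projBody K) = cPetty n * volume.real K ^ (n - 1) ↔
        ∃ (T : E ≃L[ℝ] E) (a : E), K = (fun x => a + x) '' (T '' Metric.closedBall 0 1)) :=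
  petty_of_steps hn (fun p hp1 _ => by
    rcases lt_or_ge p P0 with h | h
    · exact hlow p hp1 h
    · exact stepHolds_of_rPrime (hP.trans h) (hk p h) (hnu p h) (hR p h)) hfin hK

end Vale.Agent.P237.Petty.Lift
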