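import Vale.Agent.P237.Petty.Lift.Calib
import Vale.Agent.P237.Petty.Stam.Outer

/-!
# P237: the test density of the lift

The law of `R t` for the radius `R` of chi law and `t` distributed as the section, as a test
density in the entropy term.
-/

namespace Vale.Agent.P237.Petty.Lift

open MeasureTheory Set Filter Topology
open Stam (core slice wt core_of_mem div_mem)
open Ident (half)

variable {p : ℕ} {g σ : ℝ → ℝ}

/-- The density of the lift, not normalised. -/
noncomputable def liftDens (p : ℕ) (g : ℝ → ℝ) (y : ℝ) : ℝ :=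
  slice (p + 2) (core fun t => g t ^ (p + 1)) y

/-- The normalised density. -/
noncomputable def liftTest (p : ℕ) (g : ℝ → ℝ) (y : ℝ) : ℝ :=
  liftDens p g y / (radial (p + 3) * circ (p + 1))

section

variable (hg : Regular g)
include hg

theorem core_pow_nonneg (t : ℝ) : 0 ≤ core (fun t => g t ^ (p + 1)) t := by
  by_cases ht : t ∈ Ioo (-1 : ℝ) 1
  · rw [core_of_mem ht]
    exact pow_nonneg (hg.nonneg t (Ioo_subset_Icc_self ht)) _
  · rw [core, indicator_of_notMem ht]

theorem profile_ge_tent {t : ℝ} (ht : t ∈ Icc (-1 : ℝ) 1) : g 0 * (1 - |t|) ≤ g t := by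
  have key : ∀ x ∈ Icc (0 : ℝ) 1, g 0 * (1 - x) ≤ g x := fun x hx => by
    have h := hg.concave.2 (show (0 : ℝ) ∈ Icc (-1 : ℝ) 1 by norm_num)
      (show (1 : ℝ) ∈ Icc (-1 : ℝ) 1 by norm_num) (sub_nonneg.2 hx.2) hx.1 (by ring)
    simp only [smul_eq_mul, mul_zero, zero_add, mul_one] at h
    nlinarith [hg.nonneg 1 (by norm_num), hx.1]
  have h := key |t| ⟨abs_nonneg t, abs_le.2 ht⟩
  rcases abs_choice t with e | e <;> rw [e] at h ⊢
  · exact h
  · rwa [hg.even] at h

theorem liftDens_lower (y : ℝ) :
    g 0 ^ (p + 1) * Real.exp (-((|y| + 2) ^ 2) / 2) ≤ liftDens p g y := by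
  obtain ⟨C, -, hC⟩ := Stam.core_bound hg
  have hPm := Stam.measurable_core_pow hg (p + 1)
  have hPb := Stam.abs_core_pow_le hC (p + 1)
  set a := |y| with ha
  have ha0 : 0 ≤ a := abs_nonneg y
  have hsub : Ioc (a + 1) (a + 2) ⊆ Ioi a := fun w hw => by rw [mem_Ioi]; linarith [hw.1]
  have h1 : ∫ w in Ioc (a + 1) (a + 2), g 0 ^ (p + 1) * Real.exp (-((a + 2) ^ 2) / 2) =
      g 0 ^ (p + 1) * Real.exp (-((a + 2) ^ 2) / 2) := by
    rw [setIntegral_const, measureReal_def, Real.volume_Ioc, ENNReal.toReal_ofReal (by linarith),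
      smul_eq_mul]
    ring
  rw [← h1]
  refine (setIntegral_mono_on (integrableOn_const measure_Ioc_lt_top.ne)
    ((Stam.slice_integrable _ hPm hPb y).mono_set hsub) measurableSet_Ioc fun w hw => ?_).trans
    (setIntegral_mono_set (Stam.slice_integrable _ hPm hPb y) ?_ hsub.eventuallyLE)
  · have hwa : |y| < w := hsub hw
    have hw0 : 0 < w := ha0.trans_lt hwa
    have ht := div_mem hwa
    have hg0 := hg.pos
    have hge : g 0 ≤ w * g (y / w) := by
      have h := mul_le_mul_of_nonneg_left (profile_ge_tent hg (Ioo_subset_Icc_self ht)) hw0.le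
      rw [show w * (g 0 * (1 - |y / w|)) = g 0 * (w - |y|) by
        rw [abs_div, abs_of_pos hw0]; field_simp] at h
      nlinarith [hw.1]
    rw [core_of_mem ht, wt, show w ^ (p + 2) * Real.exp (-(w ^ 2) / 2) * g (y / w) ^ (p + 1)
      = w * ((w * g (y / w)) ^ (p + 1) * Real.exp (-(w ^ 2) / 2)) by ring]
    have hexp : Real.exp (-((a + 2) ^ 2) / 2) ≤ Real.exp (-(w ^ 2) / 2) :=
      Real.exp_le_exp.2 (by nlinarith [hw.2, hw0])
    refine le_trans (mul_le_mul (pow_le_pow_left₀ hg0.le hge (p + 1)) hexp (Real.exp_pos _).le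
      (pow_nonneg (hg0.le.trans hge) _)) ?_
    exact le_mul_of_one_le_left (mul_nonneg (pow_nonneg (hg0.le.trans hge) _) (Real.exp_pos _).le)
      (by linarith [hw.1])
  · filter_upwards [ae_restrict_mem measurableSet_Ioi] with w hw
    exact mul_nonneg (Stam.wt_pos _ (ha0.trans_lt hw)).le (core_pow_nonneg hg _)

theorem liftDens_pos (y : ℝ) : 0 < liftDens p g y :=
  lt_of_lt_of_le (mul_pos (pow_pos hg.pos _) (Real.exp_pos _)) (liftDens_lower hg y)

omit hg in
theorem liftDens_even (he : ∀ t, g (-t) = g t) (y : ℝ) : liftDens p g |y| = liftDens p g y := by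
  rcases abs_choice y with h | h <;> rw [h]
  unfold liftDens slice
  rw [abs_neg]
  refine setIntegral_congr_fun measurableSet_Ioi fun w hw => ?_
  have h1 : |y| < w := hw
  show wt (p + 2) w * _ = wt (p + 2) w * _
  rw [core_of_mem (div_mem h1), core_of_mem (div_mem (show |-y| < w by rwa [abs_neg])), neg_div, he]

theorem continuous_liftDens : Continuous (liftDens p g) := by
  obtain ⟨C, -, hC⟩ := Stam.core_bound hg
  exact Stam.continuous_slice _ (Stam.measurable_core_pow hg _) (Stam.abs_core_pow_le hC _)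
    (Stam.continuousOn_core_pow hg _)

/-- The test density is admissible and turns the entropy term into an integral of `Z log Z`. -/
theorem liftTest_spec (hσ : Transport p g σ) :
    Continuous (liftTest p g) ∧ (∀ y, 0 < liftTest p g y) ∧ Integrable (liftTest p g) ∧
      (∫ y, liftTest p g y) ≤ 1 ∧
      (∃ (A : ℝ) (k : ℕ), ∀ y, |Real.log (liftTest p g y)| ≤ A * (1 + |y|) ^ k) ∧
      IntegrableOn (fun y => liftDens p g y * Real.log (liftDens p g y)) (Ioi 0) ∧
      (∫ y in Ioi (0 : ℝ), liftDens p g y) = radial (p + 3) * half (p + 1) ∧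
      half (p + 1) * entTerm p g (liftTest p g) =
        -(∫ y in Ioi (0 : ℝ), liftDens p g y * Real.log (liftDens p g y)) / radial (p + 3) +
          half (p + 1) * (Real.log (radial (p + 3) * circ (p + 1)) -
            Real.log (2 * Real.pi * Real.exp 1) / 2) := by
  obtain ⟨C, hC1, hC⟩ := Stam.core_bound hg
  have hPm := Stam.measurable_core_pow hg (p + 1)
  have hPb := Stam.abs_core_pow_le hC (p + 1)
  set P := core fun t => g t ^ (p + 1) with hPdef
  have hZ0 : 0 < radial (p + 3) * circ (p + 1) := mul_pos (radial_pos _) (circ_pos _)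
  set Z0 := radial (p + 3) * circ (p + 1) with hZ0def
  have hB : ∫ t in (-1 : ℝ)..1, g t ^ (p + 1) = circ (p + 1) := by
    rw [integral_even (fun t => by rw [hg.even]) (ContinuousOn.intervalIntegrable (by
      rw [uIcc_of_le (by norm_num)]; exact hg.cont.pow _)), integral_mass hσ, Ident.circ_eq_half]
  have hPB : ∫ t in (-1 : ℝ)..1, P t = circ (p + 1) :=
    (integral_congr_Ioo fun t ht => core_of_mem ht).trans hB
  have hone : ∀ s : ℝ, |(1 : ℝ)| ≤ 1 * (1 + |s|) ^ 2 := fun s => by
    rw [abs_one, one_mul]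
    exact one_le_pow₀ (by linarith [abs_nonneg s])
  have hmix := Stam.slice_mix (p + 2) hPm hPb (h := fun _ => 1) continuous_const hone
  simp only [one_mul, integral_mul_const, Stam.integral_wt, hPB] at hmix
  have iN : Integrable (liftDens p g) := hmix.1
  have eN : ∫ y, liftDens p g y = Z0 := hmix.2
  have hpos := liftDens_pos (p := p) hg
  have hup : ∀ y, liftDens p g y ≤ C ^ (p + 1) * radial (p + 2) := fun y => by
    rw [← Stam.integral_wt, mul_comm, ← integral_mul_const]
    refine (setIntegral_mono_on (Stam.slice_integrable _ hPm hPb y)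
      (((Stam.integrableOn_wt _).mono_set (Ioi_subset_Ioi (abs_nonneg y))).mul_const _)
      measurableSet_Ioi fun w hw => mul_le_mul_of_nonneg_left ((le_abs_self _).trans (hPb _))
        (Stam.wt_pos _ ((abs_nonneg y).trans_lt hw)).le).trans ?_
    refine setIntegral_mono_set ((Stam.integrableOn_wt _).mul_const _) ?_
      (Ioi_subset_Ioi (abs_nonneg y)).eventuallyLE
    filter_upwards [ae_restrict_mem measurableSet_Ioi] with w hw
    have := (Stam.wt_pos (p + 2) (mem_Ioi.1 hw)).le
    positivity
  set U := C ^ (p + 1) * radial (p + 2) / Z0 with hUdef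
  set A := |Real.log U| + |Real.log (g 0 ^ (p + 1) / Z0)| + 2 with hAdef
  have hlog : ∀ y, |Real.log (liftTest p g y)| ≤ A * (1 + |y|) ^ 2 := by
    intro y
    have hsq : (1 : ℝ) ≤ (1 + |y|) ^ 2 := one_le_pow₀ (by linarith [abs_nonneg y])
    have hu : Real.log (liftTest p g y) ≤ Real.log U :=
      Real.log_le_log (div_pos (hpos y) hZ0) (div_le_div_of_nonneg_right (hup y) hZ0.le)
    have hl := Real.log_le_log (div_pos (mul_pos (pow_pos hg.pos _) (Real.exp_pos _)) hZ0)
      (div_le_div_of_nonneg_right (liftDens_lower (p := p) hg y) hZ0.le)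
    rw [mul_div_right_comm, Real.log_mul (div_pos (pow_pos hg.pos _) hZ0).ne' (Real.exp_pos _).ne',
      Real.log_exp] at hl
    change _ ≤ Real.log (liftTest p g y) at hl
    have hA2 : |Real.log U| + |Real.log (g 0 ^ (p + 1) / Z0)| + 2 * (1 + |y|) ^ 2 ≤
        A * (1 + |y|) ^ 2 := by
      rw [hAdef]
      nlinarith [mul_nonneg (add_nonneg (abs_nonneg (Real.log U))
        (abs_nonneg (Real.log (g 0 ^ (p + 1) / Z0)))) (sub_nonneg.2 hsq)]
    have hq : (|y| + 2) ^ 2 / 2 ≤ 2 * (1 + |y|) ^ 2 := by nlinarith [abs_nonneg y]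
    refine abs_le.2 ⟨?_, ?_⟩
    · linarith [neg_abs_le (Real.log (g 0 ^ (p + 1) / Z0)), abs_nonneg (Real.log U)]
    · linarith [le_abs_self (Real.log U), abs_nonneg (Real.log (g 0 ^ (p + 1) / Z0))]
  have hc : Continuous (liftTest p g) := (continuous_liftDens hg).div_const _
  have hp' : ∀ y, 0 < liftTest p g y := fun y => div_pos (hpos y) hZ0
  obtain ⟨iH, eH⟩ := Stam.slice_mix (p + 2) hPm hPb (hc.log fun y => (hp' y).ne') hlog
  have hlt : ∀ y, Real.log (liftTest p g y) * slice (p + 2) P y =
      liftDens p g y * Real.log (liftDens p g y) - Real.log Z0 * liftDens p g y := fun y => by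
    rw [liftTest, Real.log_div (hpos y).ne' hZ0.ne', liftDens]
    ring
  have iZ : Integrable fun y => liftDens p g y * Real.log (liftDens p g y) :=
    (iH.add (iN.const_mul (Real.log Z0))).congr (Eventually.of_forall fun y => by
      simp only [Pi.add_apply, hlt]; ring)
  have heven : ∀ u : ℝ → ℝ, ∫ y, u (liftDens p g y) = 2 * ∫ y in Ioi 0, u (liftDens p g y) :=
    fun u => by
      rw [← integral_comp_abs (f := fun y => u (liftDens p g y))]
      refine integral_congr_ae (Eventually.of_forall fun y => ?_)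
      show u (liftDens p g y) = u (liftDens p g |y|)
      rw [liftDens_even hg.even]
  have hhalf : ∫ y in Ioi (0 : ℝ), liftDens p g y = radial (p + 3) * half (p + 1) := by
    have h := heven id
    simp only [id] at h
    rw [eN, hZ0def, Ident.circ_eq_half] at h
    linarith
  refine ⟨hc, hp', iN.div_const _, le_of_eq ?_, ⟨A, 2, hlog⟩, iZ.integrableOn, hhalf, ?_⟩
  · simp only [liftTest, integral_div]
    rw [eN, div_self hZ0.ne']
  have e1 : ∫ w in Ioi (0 : ℝ), w ^ (p + 3) * Real.exp (-(w ^ 2) / 2) *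
      pavg (p + 1) g (fun t => Real.log (liftTest p g (w * t))) =
      (∫ y, Real.log (liftTest p g y) * slice (p + 2) P y) / circ (p + 1) := by
    rw [eH, ← integral_div]
    refine setIntegral_congr_fun measurableSet_Ioi fun w _ => ?_
    rw [pavg, hB, wt, mul_div_assoc, show p + 2 + 1 = p + 3 from rfl]
    congr 2
    exact integral_congr_Ioo fun t ht => by rw [hPdef, core_of_mem ht]
  have hrv : relVolume p g = 1 := by rw [relVolume, hB, div_self (circ_pos _).ne']
  rw [entTerm, e1, integral_congr_ae (Eventually.of_forall hlt),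
    integral_sub iZ (iN.const_mul _), integral_const_mul, eN,
    heven fun z => z * Real.log z, hrv, Real.log_one, zero_div, sub_zero, hZ0def,
    Ident.circ_eq_half]
  have := radial_pos (p + 3)
  have := Ident.half_pos (p + 1)
  field_simp
  ring

end

end Vale.Agent.P237.Petty.Lift
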