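import Mathlib

/-!
# P237: integrals over the lift in the variables of the height and the radius
-/

namespace Vale.Agent.P237.Petty.Lift

open MeasureTheory Set

/-- The measure of the variables `(t, R)`. -/
noncomputable def stateMeasure : Measure (ℝ × ℝ) :=
  ((volume : Measure ℝ).restrict (Ioo 0 1)).prod (volume.restrict (Ioi 0))

/-- Substitution `y = R t`: integrals over `0 < y < R` against integrals over `(t, R)`. -/
theorem polar_swap {F : ℝ → ℝ → ℝ} (hF : Measurable (Function.uncurry F))
    (hi : Integrable (fun z : ℝ × ℝ => z.2 * F z.1 z.2) stateMeasure) :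
    (∀ᵐ y ∂volume.restrict (Ioi (0 : ℝ)), IntegrableOn (fun R => F (y / R) R) (Ioi y)) ∧
      IntegrableOn (fun y => ∫ R in Ioi y, F (y / R) R) (Ioi 0) ∧
      ∫ y in Ioi (0 : ℝ), ∫ R in Ioi y, F (y / R) R = ∫ z, z.2 * F z.1 z.2 ∂stateMeasure := by
  set U : Set (ℝ × ℝ) := {z | 0 < z.1 ∧ z.1 < z.2} with hU
  have hUm : MeasurableSet U :=
    (measurableSet_lt measurable_const measurable_fst).inter
      (measurableSet_lt measurable_fst measurable_snd)
  set H : ℝ × ℝ → ℝ := U.indicator fun z => F (z.1 / z.2) z.2 with hH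
  have hHm : Measurable H :=
    (hF.comp ((measurable_fst.div measurable_snd).prodMk measurable_snd)).indicator hUm
  have hrow : ∀ R, 0 < R → ∀ y,
      H (y, R) = (Ioo (0 : ℝ) 1).indicator (fun t => F t R) (y / R) := fun R hR y => by
    by_cases hy : (y, R) ∈ U
    · rw [hH, indicator_of_mem hy, indicator_of_mem]
      exact ⟨div_pos hy.1 hR, (div_lt_one hR).2 hy.2⟩
    · rw [hH, indicator_of_notMem hy, indicator_of_notMem]
      rintro ⟨h1, h2⟩
      exact hy ⟨(div_pos_iff_of_pos_right hR).1 h1, (div_lt_one hR).1 h2⟩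
  have hzero : ∀ R, ¬0 < R → ∀ y, H (y, R) = 0 := fun R hR y =>
    indicator_of_notMem (fun h : (y, R) ∈ U => hR (h.1.trans h.2)) _
  have hin : ∀ᵐ R ∂volume.restrict (Ioi (0 : ℝ)),
      IntegrableOn (fun t => R * F t R) (Ioo 0 1) := hi.prod_left_ae
  have hneU : ∀ᵐ R : ℝ, 0 < R → IntegrableOn (fun t => F t R) (Ioo 0 1) := by
    rw [ae_restrict_iff' measurableSet_Ioi] at hin
    filter_upwards [hin] with R h hR
    refine ((h hR).const_mul R⁻¹).congr (Filter.Eventually.of_forall fun t => ?_)
    show R⁻¹ * (R * F t R) = F t R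
    field_simp
  have hnorm : ∀ R, ∫ y, ‖H (y, R)‖ =
      (Ioi (0 : ℝ)).indicator (fun R => ∫ t in Ioo 0 1, ‖R * F t R‖) R := fun R => by
    by_cases hR : 0 < R
    · rw [indicator_of_mem (show R ∈ Ioi (0 : ℝ) from hR)]
      simp_rw [hrow R hR, norm_indicator_eq_indicator_norm]
      rw [Measure.integral_comp_div (fun x => (Ioo (0 : ℝ) 1).indicator (fun t => ‖F t R‖) x) R,
        integral_indicator measurableSet_Ioo, smul_eq_mul, abs_of_pos hR, ← integral_const_mul]
      refine setIntegral_congr_fun measurableSet_Ioo fun t _ => ?_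
      rw [norm_mul, Real.norm_eq_abs R, abs_of_pos hR]
    · rw [indicator_of_notMem (show R ∉ Ioi (0 : ℝ) from hR)]
      simp only [hzero R hR, norm_zero, integral_zero]
  have hHi : Integrable H ((volume : Measure ℝ).prod volume) := by
    refine (integrable_prod_iff' hHm.aestronglyMeasurable).2 ⟨?_, ?_⟩
    · filter_upwards [hneU] with R h
      by_cases hR : 0 < R
      · simp_rw [hrow R hR]
        exact ((integrable_indicator_iff measurableSet_Ioo).2 (h hR)).comp_div hR.ne'
      · simp only [hzero R hR]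
        exact integrable_zero _ _ _
    · simp_rw [hnorm]
      exact (integrable_indicator_iff measurableSet_Ioi).2 hi.norm.integral_prod_right
  have hval : ∀ R, ∫ y, H (y, R) =
      (Ioi (0 : ℝ)).indicator (fun R => ∫ t in Ioo 0 1, R * F t R) R := fun R => by
    by_cases hR : 0 < R
    · rw [indicator_of_mem (show R ∈ Ioi (0 : ℝ) from hR)]
      simp_rw [hrow R hR]
      rw [Measure.integral_comp_div (fun x => (Ioo (0 : ℝ) 1).indicator (fun t => F t R) x) R,
        integral_indicator measurableSet_Ioo, smul_eq_mul, abs_of_pos hR, ← integral_const_mul]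
    · rw [indicator_of_notMem (show R ∉ Ioi (0 : ℝ) from hR)]
      simp only [hzero R hR, integral_zero]
  have hcol : ∀ y, (fun R => H (y, R)) =
      if 0 < y then (Ioi y).indicator fun R => F (y / R) R else fun _ => 0 := fun y => by
    funext R
    by_cases hy : 0 < y
    · rw [if_pos hy]
      by_cases hR : y < R
      · rw [hH, indicator_of_mem (show (y, R) ∈ U from ⟨hy, hR⟩), indicator_of_mem (mem_Ioi.2 hR)]
      · rw [hH, indicator_of_notMem (fun h : (y, R) ∈ U => hR h.2),
          indicator_of_notMem (fun h => hR (mem_Ioi.1 h))]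
    · rw [if_neg hy, hH, indicator_of_notMem (fun h : (y, R) ∈ U => hy h.1)]
  have hint : ∀ y, ∫ R, H (y, R) =
      (Ioi (0 : ℝ)).indicator (fun y => ∫ R in Ioi y, F (y / R) R) y := fun y => by
    rw [hcol y]
    by_cases hy : 0 < y
    · rw [if_pos hy, indicator_of_mem (mem_Ioi.2 hy), integral_indicator measurableSet_Ioi]
    · rw [if_neg hy, indicator_of_notMem (fun h => hy (mem_Ioi.1 h)), integral_zero]
  refine ⟨?_, ?_, ?_⟩
  · rw [ae_restrict_iff' measurableSet_Ioi]
    filter_upwards [hHi.prod_right_ae] with y h hy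
    rw [hcol y, if_pos (mem_Ioi.1 hy)] at h
    exact (integrable_indicator_iff measurableSet_Ioi).1 h
  · have h := hHi.integral_prod_left
    simp_rw [hint] at h
    exact (integrable_indicator_iff measurableSet_Ioi).1 h
  · have h := integral_integral_swap (f := fun y R => H (y, R)) hHi
    simp_rw [hint, hval, integral_indicator measurableSet_Ioi] at h
    rw [h, stateMeasure, integral_prod_symm _ hi]

end Vale.Agent.P237.Petty.Lift
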