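import Vale.Agent.P237.Petty.Lift.Radial
import Vale.Agent.P237.Petty.Lift.Polar
import Vale.Agent.P237.Petty.Lift.Density
import Vale.Agent.P237.Petty.Lift.Kernel
import Vale.Agent.P237.Petty.Lift.Curvature

/-!
# P237: the entropy bound of the lift

At a fixed height the law of the radius is compared with the chi law by radial transport; integrated
over the heights, the entropy of the lift is at most the mean of the logarithm of its speed plus
the mean of the transport bound. With the bound by half the square of the score this is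
`EntropyBound` for `scoreSq`.
-/

namespace Vale.Agent.P237.Petty.Lift

open MeasureTheory Set Filter Topology
open Ident (half rate)
open Stam (wt core_of_mem)

variable {p : ℕ} {g σ : ℝ → ℝ}

/-- The entropy at a fixed height. -/
theorem lift_section (hg : Regular g) (hσ : Transport p g σ) {y : ℝ} (hy : 0 < y) {G : ℝ → ℝ}
    (hG : ∀ R, y < R → ∀ v, v < liftW σ y R →
      score p (σ (y / R)) (y / R) (g (y / R)) (rate p g σ (y / R)) (slopeL g (y / R)) R * v -
        v ^ 2 / 2 + ((p : ℝ) + 2) * (Real.log (1 - v / liftW σ y R) + v / liftW σ y R) ≤ G R)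
    (hℓi : IntegrableOn (fun R => wt (p + 2) R * g (y / R) ^ (p + 1) * liftLog p g σ y R) (Ioi y))
    (hGi : IntegrableOn (fun R => wt (p + 2) R * g (y / R) ^ (p + 1) * G R) (Ioi y)) :
    -(liftDens p g y * Real.log (liftDens p g y)) + liftDens p g y * Real.log (radial (p + 2)) ≤
      (∫ R in Ioi y, wt (p + 2) R * g (y / R) ^ (p + 1) * G R) -
        ∫ R in Ioi y, wt (p + 2) R * g (y / R) ^ (p + 1) * liftLog p g σ y R := by
  obtain ⟨C, -, hC⟩ := Stam.core_bound hg
  have heq : ∀ R, y < R → wt (p + 2) R * Stam.core (fun t => g t ^ (p + 1)) (y / R) =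
      wt (p + 2) R * g (y / R) ^ (p + 1) := fun R hR => by
    rw [core_of_mem]
    exact ⟨by linarith [(div_mem_Ioo hy hR).1], (div_mem_Ioo hy hR).2⟩
  have hi : IntegrableOn (fun R => wt (p + 2) R * g (y / R) ^ (p + 1)) (Ioi y) := by
    have h := Stam.slice_integrable (p + 2) (Stam.measurable_core_pow hg (p + 1))
      (Stam.abs_core_pow_le hC (p + 1)) y
    rw [abs_of_pos hy] at h
    exact h.congr_fun (fun R hR => heq R hR) measurableSet_Ioi
  have hZ : liftDens p g y = ∫ R in Ioi y, wt (p + 2) R * g (y / R) ^ (p + 1) := by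
    rw [liftDens, Stam.slice, abs_of_pos hy]
    exact setIntegral_congr_fun measurableSet_Ioi fun R hR => heq R hR
  have hρc : ContinuousOn (fun R => wt (p + 2) R * g (y / R) ^ (p + 1)) (Ioi y) :=
    (Stam.continuous_wt _).continuousOn.mul (((continuousOn_profile hg).comp
      (continuousOn_const.div continuousOn_id fun R hR => (hy.trans hR).ne')
      fun R hR => Ioo_subset_Icc_self (div_mem_Ioo hy hR)).pow _)
  have h := radial_transport (n := p + 2) hρc hi (fun R hR => hasDerivAt_liftW hg hσ hy hR)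
    (fun R hR => liftW_pos hσ hy hR)
    (fun R hR => liftW'_pos hg hσ hy hR) (tendsto_liftW_left hσ hy) (tendsto_liftW_top hσ hy)
    (fun R hR => liftLog_eq hg hσ hy hR) (continuousOn_liftLog hg hσ hy)
    (fun R hR => hasDerivWithinAt_liftLog hg hσ hy hR)
    (fun R hR v hv => by push_cast; exact hG R hR v hv) hℓi hGi
  rw [← hZ, Real.log_div (liftDens_pos hg y).ne' (radial_pos _).ne'] at h
  linarith [h]

/-- The profile, clamped to the half line. -/
noncomputable def clamp (f : ℝ → ℝ) (t : ℝ) : ℝ := f (max 0 (min 1 t))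

theorem clamp_eq {f : ℝ → ℝ} {t : ℝ} (ht : t ∈ Ioo (0 : ℝ) 1) : clamp f t = f t := by
  rw [clamp, min_eq_right ht.2.le, max_eq_right ht.1.le]

theorem measurable_clamp {f : ℝ → ℝ} (hf : ContinuousOn f (Icc 0 1)) : Measurable (clamp f) :=
  (hf.comp_continuous (by fun_prop) fun t =>
    ⟨le_max_left _ _, max_le zero_le_one (min_le_left _ _)⟩).measurable

/-- The entropy bound of the lift, for any bound `G` of the radial transport supremum. -/
theorem entropyBound_of_transport {p : ℕ} {E : ℝ → ℝ → ℝ → ℝ → ℝ → ℝ}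
    {G : ℝ → ℝ → ℝ → ℝ → ℝ → ℝ → ℝ}
    (hGm : Measurable fun x : ℝ × ℝ × ℝ × ℝ × ℝ × ℝ =>
      G x.1 x.2.1 x.2.2.1 x.2.2.2.1 x.2.2.2.2.1 x.2.2.2.2.2)
    (hG : ∀ s t a r q R v : ℝ, s ∈ Ioo (0 : ℝ) 1 → t ∈ Ioo (0 : ℝ) 1 → 0 < a → 0 < r → 0 < R →
      v < R * arc s → score p s t a r q R * v - v ^ 2 / 2 +
        ((p : ℝ) + 2) * (Real.log (1 - v / (R * arc s)) + v / (R * arc s)) ≤ G s t a r q R)
    (hE : ∀ s t a r q : ℝ, s ∈ Ioo (0 : ℝ) 1 → t ∈ Ioo (0 : ℝ) 1 → 0 < a → 0 < r →
      IntegrableOn (fun R => wt (p + 3) R * G s t a r q R) (Ioi 0) ∧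
        ∫ R in Ioi (0 : ℝ), wt (p + 3) R * G s t a r q R = radial (p + 3) * E s t a r q)
    (hEi : ∀ g σ : ℝ → ℝ, Regular g → Transport p g σ → IntervalIntegrable (fun t =>
      g t ^ (p + 1) * E (σ t) t (g t) (rate p g σ t) (slopeR g t)) volume 0 1) :
    EntropyBound p E := by
  intro g σ hg hσ
  have hlogM := integrable_log_liftM hg hσ
  have hEr := hEi g σ hg hσ
  have hsum : IntervalIntegrable (fun t => g t ^ (p + 1) *
      (Real.log (liftM (σ t) t (rate p g σ t)) +
        E (σ t) t (g t) (rate p g σ t) (slopeR g t))) volume 0 1 :=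
    (hlogM.add hEr).congr fun t _ => by ring
  refine ⟨hsum, fun δ hδ => ?_⟩
  obtain ⟨hc, hpos, hint, hmass, hgrow, hZlog, hZint, hent⟩ := liftTest_spec (p := p) hg hσ
  refine ⟨liftTest p g, ⟨hc, hpos, hint, hmass, hgrow⟩, ?_⟩
  -- measurable versions
  set gc := clamp g with hgc
  set sc := clamp σ with hsc
  set rc := fun t => gc t ^ (p + 1) / arc (sc t) ^ (p + 1) with hrc
  have mg : Measurable gc := measurable_clamp (continuousOn_profile hg)
  have ms : Measurable sc := measurable_clamp hσ.cont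
  have mr : Measurable rc :=
    (mg.pow_const _).div ((continuous_arc.measurable.comp ms).pow_const _)
  have mq : Measurable (slopeL g) := by
    have h : Measurable (slopeR g) := by
      have : slopeR g = fun t => derivWithin g (Ici t) t :=
        funext fun t => derivWithin_Ioi_eq_Ici g t
      rw [this]
      exact measurable_derivWithin_Ici g
    exact (h.comp measurable_neg).neg
  set H : ℝ → ℝ := (Ioo (0 : ℝ) 1).indicator fun t =>
    gc t ^ (p + 1) * Real.log (liftM (sc t) t (rc t)) with hH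
  set S : ℝ → ℝ := (Ioo (0 : ℝ) 1).indicator fun t => gc t ^ (p + 1) * sc t ^ 2 with hS
  set K : ℝ → ℝ → ℝ := fun t R => (Ioo (0 : ℝ) 1).indicator
    (fun t => gc t ^ (p + 1) * G (sc t) t (gc t) (rc t) (slopeL g t) R) t with hK
  have hHm : Measurable H :=
    ((mg.pow_const _).mul (Real.measurable_log.comp ((((ms.pow_const 2).const_sub 1).div mr).add
      (ms.mul measurable_id)))).indicator measurableSet_Ioo
  have hSm : Measurable S := ((mg.pow_const _).mul (ms.pow_const 2)).indicator measurableSet_Ioo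
  have hKm : Measurable (Function.uncurry K) := by
    have hm : Measurable fun z : ℝ × ℝ =>
        (Ioo (0 : ℝ) 1 ×ˢ (univ : Set ℝ)).indicator
          (fun z => gc z.1 ^ (p + 1) * G (sc z.1) z.1 (gc z.1) (rc z.1) (slopeL g z.1) z.2) z :=
      (((mg.pow_const _).comp measurable_fst).mul (hGm.comp ((ms.comp measurable_fst).prodMk
        (measurable_fst.prodMk ((mg.comp measurable_fst).prodMk ((mr.comp measurable_fst).prodMk
          ((mq.comp measurable_fst).prodMk measurable_snd))))))).indicator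
        (measurableSet_Ioo.prod MeasurableSet.univ)
    convert hm using 1
    funext z
    simp only [Function.uncurry, hK]
    by_cases h : z.1 ∈ Ioo (0 : ℝ) 1
    · rw [indicator_of_mem h, indicator_of_mem (mk_mem_prod h (mem_univ z.2))]
    · rw [indicator_of_notMem h,
        indicator_of_notMem (fun hm : z ∈ Ioo (0 : ℝ) 1 ×ˢ (univ : Set ℝ) => h hm.1)]
  -- values on the interval
  have hval : ∀ t ∈ Ioo (0 : ℝ) 1, gc t = g t ∧ sc t = σ t ∧ rc t = rate p g σ t := fun t ht => by
    simp only [hgc, hsc, hrc, clamp_eq ht, rate, and_self]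
  have hHv : ∀ t ∈ Ioo (0 : ℝ) 1, H t = g t ^ (p + 1) * Real.log (mFun p g σ t) := fun t ht => by
    obtain ⟨e1, e2, e3⟩ := hval t ht
    rw [hH, indicator_of_mem ht, e1, e2, e3, mFun]
  have hSv : ∀ t ∈ Ioo (0 : ℝ) 1, S t = g t ^ (p + 1) * σ t ^ 2 := fun t ht => by
    obtain ⟨e1, e2, e3⟩ := hval t ht
    rw [hS, indicator_of_mem ht, e1, e2]
  have hKv : ∀ t ∈ Ioo (0 : ℝ) 1, ∀ R, K t R =
      g t ^ (p + 1) * G (σ t) t (g t) (rate p g σ t) (slopeL g t) R := fun t ht R => by
    obtain ⟨e1, e2, e3⟩ := hval t ht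
    simp only [hK, indicator_of_mem ht, e1, e2, e3]
  have hGnn : ∀ t ∈ Ioo (0 : ℝ) 1, ∀ R, 0 < R →
      0 ≤ G (σ t) t (g t) (rate p g σ t) (slopeL g t) R := fun t ht R hR => by
    have hs := hσ.mem_Ioo t ht
    have h := hG (σ t) t (g t) (rate p g σ t) (slopeL g t) R 0 hs ht
      (hg.pos_of_lt ⟨ht.1.le, ht.2⟩) (rate_pos hg hσ ht) hR
      (mul_pos hR (arc_pos ⟨by linarith [hs.1], hs.2⟩))
    simpa using h
  -- integrability in `(t, R)`
  have h01 : ∀ {f : ℝ → ℝ}, IntervalIntegrable f volume 0 1 ↔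
      Integrable f (volume.restrict (Ioo (0 : ℝ) 1)) :=
    intervalIntegrable_iff_integrableOn_Ioo_of_le zero_le_one
  have hHi : Integrable H (volume.restrict (Ioo (0 : ℝ) 1)) :=
    (h01.1 hlogM).congr (by
      filter_upwards [ae_restrict_mem measurableSet_Ioo] with t ht
      rw [hHv t ht]; rfl)
  have hSc : IntervalIntegrable (fun t => g t ^ (p + 1) * σ t ^ 2) volume 0 1 :=
    ContinuousOn.intervalIntegrable (by
      rw [uIcc_of_le zero_le_one]; exact ((continuousOn_profile hg).pow _).mul (hσ.cont.pow 2))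
  have hSi : Integrable S (volume.restrict (Ioo (0 : ℝ) 1)) :=
    (h01.1 hSc).congr (by
      filter_upwards [ae_restrict_mem measurableSet_Ioo] with t ht
      rw [hSv t ht])
  set F1 : ℝ → ℝ → ℝ := fun t R => wt (p + 2) R * H t with hF1
  set F2 : ℝ → ℝ → ℝ := fun t R => wt (p + 4) R * S t with hF2
  set F3 : ℝ → ℝ → ℝ := fun t R => wt (p + 2) R * K t R with hF3
  have hwt : ∀ j R, R * wt j R = wt (j + 1) R := fun j R => by simp only [wt]; ring
  have i1 : Integrable (fun z : ℝ × ℝ => z.2 * F1 z.1 z.2) stateMeasure :=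
    (hHi.mul_prod (Stam.integrableOn_wt (p + 3))).congr (Eventually.of_forall fun z => by
      show H z.1 * wt (p + 3) z.2 = z.2 * (wt (p + 2) z.2 * H z.1)
      rw [← mul_assoc, hwt, mul_comm])
  have i2 : Integrable (fun z : ℝ × ℝ => z.2 * F2 z.1 z.2) stateMeasure :=
    (hSi.mul_prod (Stam.integrableOn_wt (p + 5))).congr (Eventually.of_forall fun z => by
      show S z.1 * wt (p + 5) z.2 = z.2 * (wt (p + 4) z.2 * S z.1)
      rw [← mul_assoc, hwt, mul_comm])
  have hEl : IntervalIntegrable (fun t => g t ^ (p + 1) *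
      E (σ t) t (g t) (rate p g σ t) (slopeL g t)) volume 0 1 ∧
      ∫ t in (0 : ℝ)..1, g t ^ (p + 1) * E (σ t) t (g t) (rate p g σ t) (slopeL g t) =
        ∫ t in (0 : ℝ)..1, g t ^ (p + 1) * E (σ t) t (g t) (rate p g σ t) (slopeR g t) := by
    have he : ∀ᵐ t ∂volume, t ∈ uIoc (0 : ℝ) 1 →
        g t ^ (p + 1) * E (σ t) t (g t) (rate p g σ t) (slopeR g t) =
        g t ^ (p + 1) * E (σ t) t (g t) (rate p g σ t) (slopeL g t) := by
      filter_upwards [Ident.ae_slopeR_neg hg, Measure.ae_ne volume (1 : ℝ)] with t h h1 ht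
      rw [uIoc_of_le zero_le_one] at ht
      rw [slopeL, h ⟨ht.1, lt_of_le_of_ne ht.2 h1⟩, neg_neg]
    refine ⟨hEr.congr_ae ?_, (intervalIntegral.integral_congr_ae he).symm⟩
    rwa [← ae_restrict_iff' measurableSet_uIoc] at he
  have hrowK : ∀ t ∈ Ioo (0 : ℝ) 1,
      IntegrableOn (fun R => R * F3 t R) (Ioi 0) ∧ ∫ R in Ioi (0 : ℝ), R * F3 t R =
        radial (p + 3) * (g t ^ (p + 1) * E (σ t) t (g t) (rate p g σ t) (slopeL g t)) := by
    intro t ht
    obtain ⟨hi, he⟩ := hE (σ t) t (g t) (rate p g σ t) (slopeL g t) (hσ.mem_Ioo t ht) ht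
      (hg.pos_of_lt ⟨ht.1.le, ht.2⟩) (rate_pos hg hσ ht)
    have e : (fun R => R * F3 t R) = fun R => g t ^ (p + 1) *
        (wt (p + 3) R * G (σ t) t (g t) (rate p g σ t) (slopeL g t) R) := funext fun R => by
      simp only [hF3, hKv t ht, ← hwt (p + 2) R]
      ring
    rw [e]
    refine ⟨hi.const_mul _, ?_⟩
    rw [integral_const_mul, he]
    ring
  have i3 : Integrable (fun z : ℝ × ℝ => z.2 * F3 z.1 z.2) stateMeasure := by
    refine (integrable_prod_iff ((measurable_snd.mul (((Stam.continuous_wt _).measurable.comp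
      measurable_snd).mul hKm)).aestronglyMeasurable)).2 ⟨?_, ?_⟩
    · filter_upwards [ae_restrict_mem measurableSet_Ioo] with t ht using (hrowK t ht).1
    · refine ((h01.1 hEl.1).const_mul (radial (p + 3))).congr ?_
      filter_upwards [ae_restrict_mem measurableSet_Ioo] with t ht
      refine ((setIntegral_congr_fun measurableSet_Ioi fun R hR => ?_).trans (hrowK t ht).2).symm
      have hR0 : 0 < R := hR
      refine Real.norm_of_nonneg (mul_nonneg hR0.le (mul_nonneg (Stam.wt_pos _ hR0).le ?_))
      simp only [Function.uncurry, hKv t ht]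
      exact mul_nonneg (pow_nonneg (hg.pos_of_lt ⟨ht.1.le, ht.2⟩).le _) (hGnn t ht R hR0)
  obtain ⟨a1, b1, v1⟩ := polar_swap (F := F1) (((Stam.continuous_wt _).measurable.comp
    measurable_snd).mul (hHm.comp measurable_fst)) i1
  obtain ⟨a2, b2, v2⟩ := polar_swap (F := F2) (((Stam.continuous_wt _).measurable.comp
    measurable_snd).mul (hSm.comp measurable_fst)) i2
  obtain ⟨a3, b3, v3⟩ := polar_swap (F := F3) (((Stam.continuous_wt _).measurable.comp
    measurable_snd).mul hKm) i3
  have hsplit : ∀ {f : ℝ → ℝ} {j : ℕ},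
      ∫ z, f z.1 * wt j z.2 ∂stateMeasure = (∫ t in Ioo (0 : ℝ) 1, f t) * radial j :=
    fun {f j} => by
      rw [stateMeasure, integral_prod_mul f (wt j), Stam.integral_wt]
  have w1 : ∫ z, z.2 * F1 z.1 z.2 ∂stateMeasure = radial (p + 3) *
      ∫ t in (0 : ℝ)..1, g t ^ (p + 1) * Real.log (liftM (σ t) t (rate p g σ t)) := by
    rw [intervalIntegral.integral_of_le zero_le_one, integral_Ioc_eq_integral_Ioo,
      setIntegral_congr_fun (f := fun t => g t ^ (p + 1) * Real.log (liftM (σ t) t (rate p g σ t)))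
        measurableSet_Ioo (g := H) (fun t ht => (hHv t ht).symm), mul_comm, ← hsplit]
    refine integral_congr_ae (Eventually.of_forall fun z => ?_)
    show z.2 * (wt (p + 2) z.2 * H z.1) = H z.1 * wt (p + 3) z.2
    rw [← mul_assoc, hwt, mul_comm]
  have w2 : ∫ z, z.2 * F2 z.1 z.2 ∂stateMeasure = radial (p + 3) * half (p + 1) := by
    have e : ∫ z, z.2 * F2 z.1 z.2 ∂stateMeasure =
        (∫ t in Ioo (0 : ℝ) 1, S t) * radial (p + 5) := by
      rw [← hsplit]
      refine integral_congr_ae (Eventually.of_forall fun z => ?_)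
      show z.2 * (wt (p + 4) z.2 * S z.1) = S z.1 * wt (p + 5) z.2
      rw [← mul_assoc, hwt, mul_comm]
    have hs2 : ∫ t in (0 : ℝ)..1, g t ^ (p + 1) * σ t ^ 2 = half (p + 1) - half (p + 3) := by
      have i0 : IntervalIntegrable (fun t => g t ^ (p + 1)) volume 0 1 :=
        ContinuousOn.intervalIntegrable (by
          rw [uIcc_of_le zero_le_one]; exact (continuousOn_profile hg).pow _)
      have i1' : IntervalIntegrable (fun t => g t ^ (p + 1) * (1 - σ t ^ 2)) volume 0 1 :=
        (i0.sub hSc).congr fun t _ => by ring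
      rw [← integral_mass hσ, ← integral_sigma hg hσ, ← intervalIntegral.integral_sub i0 i1']
      exact intervalIntegral.integral_congr fun t _ => by ring
    rw [e, setIntegral_congr_fun measurableSet_Ioo hSv, ← integral_Ioc_eq_integral_Ioo,
      ← intervalIntegral.integral_of_le zero_le_one, hs2, show p + 5 = p + 3 + 2 by rfl,
      radial_step]
    have h := Ident.half_step (p + 1)
    push_cast at h ⊢
    linear_combination (-radial (p + 3)) * h
  have w3 : ∫ z, z.2 * F3 z.1 z.2 ∂stateMeasure = radial (p + 3) *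
      ∫ t in (0 : ℝ)..1, g t ^ (p + 1) * E (σ t) t (g t) (rate p g σ t) (slopeR g t) := by
    rw [← hEl.2, intervalIntegral.integral_of_le zero_le_one, integral_Ioc_eq_integral_Ioo,
      ← integral_const_mul, stateMeasure, integral_prod _ i3]
    exact setIntegral_congr_fun measurableSet_Ioo fun t ht => (hrowK t ht).2
  -- every height
  have hy0 : ∀ᵐ y ∂volume.restrict (Ioi (0 : ℝ)), -(liftDens p g y * Real.log (liftDens p g y)) +
      Real.log (radial (p + 2)) * liftDens p g y ≤
      ((∫ R in Ioi y, F2 (y / R) R) / 2 + ∫ R in Ioi y, F1 (y / R) R) +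
        ∫ R in Ioi y, F3 (y / R) R := by
    filter_upwards [a1, a2, a3, ae_restrict_mem measurableSet_Ioi] with y h1 h2 h3 hy
    have hy' : 0 < y := hy
    have eG : EqOn (fun R => wt (p + 2) R * g (y / R) ^ (p + 1) *
        G (σ (y / R)) (y / R) (g (y / R)) (rate p g σ (y / R)) (slopeL g (y / R)) R)
        (fun R => F3 (y / R) R) (Ioi y) := fun R hR => by
      simp only [hF3, hKv _ (div_mem_Ioo hy' hR)]
      ring
    have eℓ : EqOn (fun R => wt (p + 2) R * g (y / R) ^ (p + 1) * liftLog p g σ y R)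
        (fun R => -(F2 (y / R) R / 2 + F1 (y / R) R)) (Ioi y) := fun R hR => by
      simp only [hF1, hF2, hHv _ (div_mem_Ioo hy' hR), hSv _ (div_mem_Ioo hy' hR), liftLog, wt]
      ring
    have h12 : IntegrableOn (fun R => -(F2 (y / R) R / 2 + F1 (y / R) R)) (Ioi y) :=
      ((h2.div_const 2).add h1).neg
    have h := lift_section hg hσ hy' (G := fun R =>
        G (σ (y / R)) (y / R) (g (y / R)) (rate p g σ (y / R)) (slopeL g (y / R)) R)
      (fun R hR v hv => hG _ _ _ _ _ R v (hσ.mem_Ioo _ (div_mem_Ioo hy' hR)) (div_mem_Ioo hy' hR)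
        (hg.pos_of_lt ⟨(div_mem_Ioo hy' hR).1.le, (div_mem_Ioo hy' hR).2⟩)
        (rate_pos hg hσ (div_mem_Ioo hy' hR)) (hy'.trans hR) hv)
      (h12.congr_fun eℓ.symm measurableSet_Ioi) (h3.congr_fun eG.symm measurableSet_Ioi)
    rw [setIntegral_congr_fun measurableSet_Ioi eG, setIntegral_congr_fun measurableSet_Ioi eℓ,
      integral_neg, integral_add (h2.div_const 2) h1, integral_div] at h
    linarith
  have iL : IntegrableOn (fun y => -(liftDens p g y * Real.log (liftDens p g y)) +
      Real.log (radial (p + 2)) * liftDens p g y) (Ioi 0) :=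
    hZlog.neg.add (((hint.const_mul (radial (p + 3) * circ (p + 1))).congr
      (Eventually.of_forall fun y => mul_div_cancel₀ _
        (mul_pos (radial_pos _) (circ_pos _)).ne')).integrableOn.const_mul _)
  have hmain := integral_mono_ae iL (((b2.div_const 2).add b1).add b3) hy0
  have iD : IntegrableOn (liftDens p g) (Ioi 0) :=
    ((hint.const_mul (radial (p + 3) * circ (p + 1))).congr (Eventually.of_forall fun y =>
      mul_div_cancel₀ _ (mul_pos (radial_pos _) (circ_pos _)).ne')).integrableOn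
  have b2' : IntegrableOn (fun y => (∫ R in Ioi y, F2 (y / R) R) / 2) (Ioi 0) := b2.div_const 2
  have b21 : IntegrableOn (fun y => (∫ R in Ioi y, F2 (y / R) R) / 2 +
      ∫ R in Ioi y, F1 (y / R) R) (Ioi 0) := b2'.add b1
  have e1 : ∫ y in Ioi (0 : ℝ), (-(liftDens p g y * Real.log (liftDens p g y)) +
      Real.log (radial (p + 2)) * liftDens p g y) =
      -(∫ y in Ioi (0 : ℝ), liftDens p g y * Real.log (liftDens p g y)) +
        Real.log (radial (p + 2)) * (radial (p + 3) * half (p + 1)) := by
    rw [integral_add hZlog.fun_neg (iD.const_mul _), integral_neg, integral_const_mul, hZint]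
  have e2 : ∫ y in Ioi (0 : ℝ), (((∫ R in Ioi y, F2 (y / R) R) / 2 +
      ∫ R in Ioi y, F1 (y / R) R) + ∫ R in Ioi y, F3 (y / R) R) =
      radial (p + 3) * half (p + 1) / 2 + radial (p + 3) *
        (∫ t in (0 : ℝ)..1, g t ^ (p + 1) * Real.log (liftM (σ t) t (rate p g σ t))) +
        radial (p + 3) *
          ∫ t in (0 : ℝ)..1, g t ^ (p + 1) * E (σ t) t (g t) (rate p g σ t) (slopeR g t) := by
    rw [integral_add b21 b3, integral_add b2' b1, integral_div, v1, v2, v3, w1, w2, w3]
  rw [e1] at hmain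
  simp only [Pi.add_apply] at hmain
  rw [e2] at hmain
  have hc0 : Real.log (radial (p + 3) * circ (p + 1)) - Real.log (2 * Real.pi * Real.exp 1) / 2 =
      Real.log (radial (p + 2)) - 1 / 2 := by
    rw [Stam.radial_circ, radial_step, Real.log_mul (mul_pos (by positivity) (radial_pos p)).ne'
      (by positivity), Real.log_sqrt (by positivity),
      Real.log_mul (by positivity : (2 * Real.pi) ≠ 0) (Real.exp_pos 1).ne', Real.log_exp]
    ring
  have hI : ∫ t in (0 : ℝ)..1, g t ^ (p + 1) * (Real.log (liftM (σ t) t (rate p g σ t)) +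
      E (σ t) t (g t) (rate p g σ t) (slopeR g t)) =
      (∫ t in (0 : ℝ)..1, g t ^ (p + 1) * Real.log (liftM (σ t) t (rate p g σ t))) +
        ∫ t in (0 : ℝ)..1, g t ^ (p + 1) * E (σ t) t (g t) (rate p g σ t) (slopeR g t) := by
    rw [← intervalIntegral.integral_add hlogM hEr]
    exact intervalIntegral.integral_congr fun t _ => by ring
  refine le_add_of_le_of_nonneg ?_ hδ.le
  rw [le_div_iff₀ (Ident.half_pos _), mul_comm, hent, hc0, hI]
  have hr := radial_pos (p + 3)
  refine le_of_mul_le_mul_left (le_trans (le_of_eq ?_) (le_trans (sub_le_sub_right hmain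
    (radial (p + 3) * half (p + 1) / 2)) (le_of_eq ?_))) hr
  · field_simp
    ring
  · ring

theorem score_eq {s t a r q R : ℝ} (hs : s ∈ Ioo (0 : ℝ) 1) :
    score p s t a r q R = arc s / liftM s t r * (R * scoreA s t r + scoreB p s t a r q / R) := by
  have h1 : 1 - s ^ 2 ≠ 0 := ne_of_gt (by nlinarith [hs.1, hs.2])
  rcases eq_or_ne R 0 with rfl | hR
  · simp [score]
  rw [score, scoreA, scoreB, show (1 - s ^ 2) / r * (q / (a * r)) + s / r =
    (1 - s ^ 2) / r * (q / (a * r) + s / (1 - s ^ 2)) by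
      rcases eq_or_ne r 0 with rfl | hr
      · simp
      field_simp]
  field_simp
  ring

/-- The entropy of the lift is at most the mean of the logarithm of the speed plus half the mean
square of the score. -/
theorem entropyBound_scoreSq (p : ℕ) : EntropyBound p (scoreSq p) := by
  refine entropyBound_of_transport (G := fun s t a r q R => score p s t a r q R ^ 2 / 2) ?_
    (fun s t a r q R v hs _ _ _ hR hv => by
      have h := transport_expr_le_sq (p + 2) (mul_pos hR (arc_pos ⟨by linarith [hs.1], hs.2⟩))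
        (score p s t a r q R) hv
      push_cast at h
      exact h)
    (fun s t a r q hs _ _ _ => ?_) fun g σ hg hσ => integrable_scoreSq hg hσ
  · have := continuous_arc.measurable
    unfold score liftM
    fun_prop
  · set A := scoreA s t r with hA
    set B := scoreB p s t a r q with hB
    set k := (arc s / liftM s t r) ^ 2 / 2 with hk
    have e : EqOn (fun R => wt (p + 3) R * (score p s t a r q R ^ 2 / 2))
        (fun R => k * A ^ 2 * wt (p + 5) R + k * (2 * A * B) * wt (p + 3) R +
          k * B ^ 2 * wt (p + 1) R) (Ioi 0) := fun R hR => by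
      have hR0 : R ≠ 0 := ne_of_gt hR
      simp only [score_eq hs, hk, ← hA, ← hB, wt]
      field_simp
      ring
    have i5 := (Stam.integrableOn_wt (p + 5)).const_mul (k * A ^ 2)
    have i3 := (Stam.integrableOn_wt (p + 3)).const_mul (k * (2 * A * B))
    have i1 := (Stam.integrableOn_wt (p + 1)).const_mul (k * B ^ 2)
    have i53 : IntegrableOn (fun R => k * A ^ 2 * wt (p + 5) R + k * (2 * A * B) * wt (p + 3) R)
        (Ioi 0) := Integrable.add i5 i3
    refine ⟨IntegrableOn.congr_fun (i53.add i1) e.symm measurableSet_Ioi, ?_⟩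
    rw [setIntegral_congr_fun measurableSet_Ioi e, integral_add i53 i1, integral_add i5 i3,
      integral_const_mul, integral_const_mul, integral_const_mul,
      Stam.integral_wt, Stam.integral_wt, Stam.integral_wt, show p + 5 = p + 3 + 2 by rfl,
      radial_step (p + 3)]
    have h1 := radial_step (p + 1)
    push_cast at h1 ⊢
    rw [scoreSq, ← hA, ← hB, ← hk, show p + 3 = p + 1 + 2 by rfl, h1]
    field_simp
    ring

/-- The entropy of the lift is at most the mean of the logarithm of the speed plus the rational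
bound with the curvature of the chi law. -/
theorem entropyBound_curvE (p : ℕ) : EntropyBound p (curvE p) := by
  refine entropyBound_of_transport (G := fun s t a r q R => curvPoly ((p : ℝ) + 2) (arc s)
    (scoreA s t r / liftM s t r) (scoreB p s t a r q / liftM s t r) (R ^ 2)) ?_
    (fun s t a r q R v hs _ _ _ hR hv => ?_) (fun s t a r q _ _ _ _ => ?_)
    fun g σ hg hσ => integrable_curvE hg hσ
  · have := continuous_arc.measurable
    unfold curvPoly curvP0 curvP1 scoreA scoreB liftM
    fun_prop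
  · have h := curv_le_poly (n := (p : ℝ) + 2) (A := scoreA s t r / liftM s t r)
      (B := scoreB p s t a r q / liftM s t r) (by positivity)
      (arc_pos ⟨by linarith [hs.1], hs.2⟩) hR (v := v) (by linarith)
    have e : score p s t a r q R =
        arc s * R * (scoreA s t r / liftM s t r + scoreB p s t a r q / liftM s t r / R ^ 2) := by
      rw [score_eq hs]
      field_simp
    rw [e, mul_comm R (arc s)]
    exact h
  · exact integral_curvPoly p _ _ _

end Vale.Agent.P237.Petty.Lift
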