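import Vale.Agent.P237.Petty.Stam.Section

/-!
# P237: the radial transport inequality

A positive continuous density `ρ = exp ℓ * wt n (w) * w'` on a half line is carried monotonically to
the radial Gaussian law. Its relative entropy is at most the mean of the Legendre type expression
`s v - v ^ 2 / 2 + n (log (1 - v / w) + v / w)`, where `s` is the derivative of `ℓ` in `w` and
`v < w` is the displacement, and this expression has an elementary damped quadratic bound.
-/

namespace Vale.Agent.P237.Petty.Lift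

open MeasureTheory Set Filter Topology
open Stam (wt gam invGam wt_pos gam_mem hasDerivAt_gam hasDerivAt_invGam invGam_mem)

theorem hasDerivAt_wt (n : ℕ) {x : ℝ} (hx : 0 < x) :
    HasDerivAt (wt n) (wt n x * ((n : ℝ) / x - x)) x := by
  have h : HasDerivAt (wt n) ((n : ℝ) * x ^ (n - 1) * Real.exp (-(x ^ 2) / 2) +
      x ^ n * (Real.exp (-(x ^ 2) / 2) * (-((2 : ℕ) * x ^ (2 - 1)) / 2))) x :=
    (hasDerivAt_pow n x).mul ((((hasDerivAt_pow 2 x).neg).div_const 2).exp)
  refine h.congr_deriv ?_
  unfold wt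
  rcases Nat.eq_zero_or_pos n with rfl | hn
  · simp
    ring
  · obtain ⟨j, rfl⟩ : ∃ j, n = j + 1 := ⟨n - 1, by omega⟩
    simp only [Nat.add_sub_cancel, pow_succ]
    field_simp
    push_cast
    ring

theorem log_one_add_le {y : ℝ} (hy : 0 ≤ y) :
    Real.log (1 + y) ≤ y * (6 + y) / (6 + 4 * y) := by
  set f : ℝ → ℝ := fun x => x * (6 + x) / (6 + 4 * x) - Real.log (1 + x) with hf
  have hd : ∀ x, 0 ≤ x → HasDerivAt f (4 * x ^ 3 / ((6 + 4 * x) ^ 2 * (1 + x))) x := fun x hx => by
    have h1 : (6 + 4 * x) ≠ 0 := by positivity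
    have h2 : (1 + x) ≠ 0 := by positivity
    refine ((((hasDerivAt_id x).mul ((hasDerivAt_id x).const_add 6)).div
      (((hasDerivAt_id x).const_mul 4).const_add 6) h1).sub
        (((hasDerivAt_id x).const_add 1).log h2)).congr_deriv ?_
    simp only [id, Pi.mul_apply]
    field_simp
    ring
  have hmono : MonotoneOn f (Ici 0) := by
    refine monotoneOn_of_deriv_nonneg (convex_Ici 0)
      (fun x hx => (hd x hx).continuousAt.continuousWithinAt) (fun x hx => ?_) fun x hx => ?_
    · rw [interior_Ici, mem_Ioi] at hx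
      exact (hd x hx.le).differentiableAt.differentiableWithinAt
    · rw [interior_Ici, mem_Ioi] at hx
      rw [(hd x hx.le).deriv]
      positivity
  have h := hmono self_mem_Ici (mem_Ici.2 hy) hy
  simp only [hf, zero_mul, zero_div, add_zero, Real.log_one, sub_zero] at h
  linarith

/-- A linear term minus a positive quadratic one. -/
theorem mul_sub_sq_le {a b : ℝ} (hb : 0 < b) (x : ℝ) :
    a * x - b * x ^ 2 / 2 ≤ a ^ 2 / (2 * b) := by
  rw [le_div_iff₀ (by linarith)]
  nlinarith [sq_nonneg (a - b * x)]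

/-- The damped quadratic bound of the transport expression. -/
theorem transport_expr_le (n : ℕ) {w : ℝ} (hw : 0 < w) (s : ℝ) {v : ℝ} (hv : v < w) :
    s * v - v ^ 2 / 2 + n * (Real.log (1 - v / w) + v / w) ≤
      s ^ 2 / 2 * (w ^ 2 * (1 + 2 / 3 * max 0 (-s) / w) /
        (w ^ 2 * (1 + 2 / 3 * max 0 (-s) / w) + n)) := by
  have hn : (0 : ℝ) ≤ n := n.cast_nonneg
  set k := 1 + 2 / 3 * max 0 (-s) / w with hk
  have hk1 : 1 ≤ k := le_add_of_nonneg_right (by have := le_max_left (0 : ℝ) (-s); positivity)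
  have hk0 : 0 < k := one_pos.trans_le hk1
  set u := v / w with hu
  have hvu : v = w * u := by rw [hu]; field_simp
  have hu1 : u < 1 := (div_lt_one hw).2 hv
  have hb : 0 < w ^ 2 + n / k := by positivity
  have eb : (s * w) ^ 2 / (2 * (w ^ 2 + n / k)) = s ^ 2 / 2 * (w ^ 2 * k / (w ^ 2 * k + n)) := by
    field_simp
  rcases le_total 0 u with hu0 | hu0
  · have hl : Real.log (1 - u) + u ≤ -(u ^ 2) / 2 := by
      set f : ℝ → ℝ := fun x => -(x ^ 2) / 2 - x - Real.log (1 - x) with hf
      have hd : ∀ x, x < 1 → HasDerivAt f (x ^ 2 / (1 - x)) x := fun x hx => by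
        have h1 : (1 - x) ≠ 0 := by linarith
        refine (((((hasDerivAt_pow 2 x).neg).div_const 2).sub (hasDerivAt_id x)).sub
          (((hasDerivAt_id x).const_sub 1).log h1)).congr_deriv ?_
        simp only [id]
        field_simp
        ring
      have hm : MonotoneOn f (Icc 0 u) := by
        refine monotoneOn_of_deriv_nonneg (convex_Icc 0 u)
          (fun x hx => (hd x (hx.2.trans_lt hu1)).continuousAt.continuousWithinAt)
          (fun x hx => ?_) fun x hx => ?_
        · rw [interior_Icc, mem_Ioo] at hx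
          exact (hd x (by linarith)).differentiableAt.differentiableWithinAt
        · rw [interior_Icc, mem_Ioo] at hx
          rw [(hd x (by linarith)).deriv]
          have : (0 : ℝ) < 1 - x := by linarith
          positivity
      have h3 := hm ⟨le_rfl, hu0⟩ ⟨hu0, le_rfl⟩ hu0
      simp only [hf, sub_zero, Real.log_one] at h3
      linarith
    have h4 := mul_le_mul_of_nonneg_left hl hn
    have h5 := mul_sub_sq_le (a := s * w) hb u
    have h6 : (n : ℝ) / k * u ^ 2 ≤ n * u ^ 2 :=
      mul_le_mul_of_nonneg_right (div_le_self hn hk1) (sq_nonneg u)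
    rw [eb] at h5
    rw [hvu]
    linarith
  · have hy0 : 0 ≤ -u := by linarith
    have hl : Real.log (1 - u) + u ≤ -(3 * u ^ 2) / (6 - 4 * u) := by
      have h := log_one_add_le hy0
      have e : -u * (6 + -u) / (6 + 4 * -u) = -(3 * u ^ 2) / (6 - 4 * u) - u := by
        have : (6 - 4 * u) ≠ 0 := by linarith
        rw [show (6 + 4 * -u) = 6 - 4 * u by ring,
          show -(3 * u ^ 2) / (6 - 4 * u) - u = (-(3 * u ^ 2) - u * (6 - 4 * u)) / (6 - 4 * u) by
            rw [sub_div _ _ (6 - 4 * u), mul_div_cancel_right₀ _ this]]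
        ring
      rw [e, show (1 : ℝ) + -u = 1 - u by ring] at h
      linarith
    have h4 := mul_le_mul_of_nonneg_left hl hn
    have hR : 0 ≤ s ^ 2 / 2 * (w ^ 2 * k / (w ^ 2 * k + n)) := by positivity
    rcases le_total 0 s with hs | hs
    · have h7 : s * (w * u) ≤ 0 := mul_nonpos_of_nonneg_of_nonpos hs
        (mul_nonpos_of_nonneg_of_nonpos hw.le hu0)
      have h8 : (n : ℝ) * (-(3 * u ^ 2) / (6 - 4 * u)) ≤ 0 :=
        mul_nonpos_of_nonneg_of_nonpos hn (div_nonpos_of_nonpos_of_nonneg (by nlinarith)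
          (by linarith))
      rw [hvu]
      nlinarith [sq_nonneg (w * u)]
    · have hkv : k = 1 + 2 / 3 * (-s) / w := by rw [hk, max_eq_right (by linarith)]
      rcases le_total (-u) (-s / w) with hys | hys
      · have hd : 6 - 4 * u ≤ 6 * k := by
          have h9 : 6 * k = 6 + 4 * (-s / w) := by rw [hkv]; field_simp; ring
          linarith
        have h9 : (n : ℝ) * (-(3 * u ^ 2) / (6 - 4 * u)) ≤ -((n : ℝ) / k * u ^ 2) / 2 := by
          rw [neg_div, mul_neg, neg_div, neg_le_neg_iff]
          calc (n : ℝ) / k * u ^ 2 / 2 = n * (3 * u ^ 2 / (6 * k)) := by field_simp; ring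
            _ ≤ _ := mul_le_mul_of_nonneg_left
              (div_le_div_of_nonneg_left (by positivity) (by linarith) hd) hn
        have h5 := mul_sub_sq_le (a := s * w) hb u
        rw [eb] at h5
        rw [hvu]
        linarith
      · set y₀ := -s / w with hy₀
        have hy₀0 : 0 ≤ y₀ := div_nonneg (by linarith) hw.le
        have hmonoy : 3 * y₀ ^ 2 / (6 + 4 * y₀) ≤ 3 * u ^ 2 / (6 - 4 * u) := by
          rw [div_le_div_iff₀ (by positivity) (by linarith)]
          nlinarith [mul_nonneg (sub_nonneg.2 hys) hy₀0, mul_nonneg (sub_nonneg.2 hys) hy0,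
            mul_nonneg (mul_nonneg (sub_nonneg.2 hys) hy₀0) hy0]
        have h9 : 3 * y₀ ^ 2 / (6 + 4 * y₀) = s ^ 2 / 2 / (w ^ 2 * k) := by
          rw [show 6 + 4 * y₀ = 6 * k by rw [hkv, hy₀]; ring, hy₀]
          have := hk0.ne'
          field_simp
          ring
        have h10 : (n : ℝ) * (Real.log (1 - u) + u) ≤ -(n * (s ^ 2 / 2 / (w ^ 2 * k))) := by
          rw [← h9]
          refine h4.trans ?_
          rw [neg_div, mul_neg]
          exact neg_le_neg (mul_le_mul_of_nonneg_left hmonoy hn)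
        have h11 : s ^ 2 / 2 - (n : ℝ) * (s ^ 2 / 2 / (w ^ 2 * k)) ≤
            s ^ 2 / 2 * (w ^ 2 * k / (w ^ 2 * k + n)) := by
          set X := w ^ 2 * k with hX
          have hX0 : 0 < X := by positivity
          have hXn : 0 < X + n := by positivity
          have hm : 1 - (n : ℝ) / X ≤ X / (X + n) := by
            rw [sub_le_iff_le_add, div_add_div _ _ hXn.ne' hX0.ne', le_div_iff₀ (by positivity)]
            nlinarith
          have := mul_le_mul_of_nonneg_left hm (show 0 ≤ s ^ 2 / 2 by positivity)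
          calc s ^ 2 / 2 - (n : ℝ) * (s ^ 2 / 2 / X) = s ^ 2 / 2 * (1 - n / X) := by ring
            _ ≤ _ := this
        rw [hvu] at *
        nlinarith [sq_nonneg (s - w * u)]

/-- The damped bound with the curvature as a separate factor. -/
theorem transport_expr_le_mul (n : ℕ) {w : ℝ} (hw : 0 < w) (s : ℝ) {v : ℝ} (hv : v < w) :
    s * v - v ^ 2 / 2 + n * (Real.log (1 - v / w) + v / w) ≤
      s ^ 2 / 2 * (w ^ 2 / (w ^ 2 + n)) * (1 + 2 / 3 * max 0 (-(s / w))) := by
  have h0 := le_max_left (0 : ℝ) (-(s / w))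
  have e : max 0 (-s) / w = max 0 (-(s / w)) := by
    rw [← max_div_div_right hw.le, zero_div, neg_div]
  refine (transport_expr_le n hw s hv).trans ?_
  rw [mul_assoc, mul_div_assoc (2 / 3 : ℝ), e]
  refine mul_le_mul_of_nonneg_left ?_ (by positivity)
  set k := 1 + 2 / 3 * max 0 (-(s / w))
  have hk : 1 ≤ k := le_add_of_nonneg_right (by positivity)
  rw [div_mul_eq_mul_div (w ^ 2) (w ^ 2 + n) k]
  exact div_le_div_of_nonneg_left (by positivity) (by positivity)
    (add_le_add (le_mul_of_one_le_right (by positivity) hk) (le_refl (n : ℝ)))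

/-- The plain bound of the transport expression. -/
theorem transport_expr_le_sq (n : ℕ) {w : ℝ} (hw : 0 < w) (s : ℝ) {v : ℝ} (hv : v < w) :
    s * v - v ^ 2 / 2 + n * (Real.log (1 - v / w) + v / w) ≤ s ^ 2 / 2 := by
  have hk : 0 < w ^ 2 * (1 + 2 / 3 * max 0 (-s) / w) := by
    have := le_max_left (0 : ℝ) (-s)
    positivity
  exact (transport_expr_le n hw s hv).trans (mul_le_of_le_one_right (by positivity)
    ((div_le_one (by positivity)).2 (le_add_of_nonneg_right n.cast_nonneg)))

/-- The relative entropy of a density on a half line against the radial Gaussian law is at most the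
mean of any bound of the transport expression. -/
theorem radial_transport {n : ℕ} {a : ℝ} {ρ w w' ℓ s G : ℝ → ℝ}
    (hρc : ContinuousOn ρ (Ioi a)) (hρi : IntegrableOn ρ (Ioi a))
    (hw : ∀ R, a < R → HasDerivAt w (w' R) R) (hwp : ∀ R, a < R → 0 < w R)
    (hw'p : ∀ R, a < R → 0 < w' R)
    (hw0 : Tendsto w (𝓝[>] a) (𝓝 0)) (hwt : Tendsto w atTop atTop)
    (heq : ∀ R, a < R → ρ R = Real.exp (ℓ R) * wt n (w R) * w' R)
    (hℓc : ContinuousOn ℓ (Ioi a))
    (hℓ : ∀ R, a < R → HasDerivWithinAt ℓ (s R * w' R) (Ioi R) R)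
    (hG : ∀ R, a < R → ∀ v, v < w R →
      s R * v - v ^ 2 / 2 + n * (Real.log (1 - v / w R) + v / w R) ≤ G R)
    (hρℓ : IntegrableOn (fun R => ρ R * ℓ R) (Ioi a))
    (hρG : IntegrableOn (fun R => ρ R * G R) (Ioi a)) :
    (∫ R in Ioi a, ρ R * ℓ R) -
      (∫ R in Ioi a, ρ R) * Real.log ((∫ R in Ioi a, ρ R) / radial n) ≤
      ∫ R in Ioi a, ρ R * G R := by
  set Z := ∫ R in Ioi a, ρ R with hZdef
  set γ := radial n with hγdef
  have hγ : 0 < γ := radial_pos n
  have hρp : ∀ R, a < R → 0 < ρ R := fun R hR => by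
    rw [heq R hR]
    exact mul_pos (mul_pos (Real.exp_pos _) (wt_pos n (hwp R hR))) (hw'p R hR)
  -- the mass of an interval at the left end
  set M : ℝ → ℝ := fun R => ∫ u in a..R, ρ u with hMdef
  have hii : ∀ R, a ≤ R → IntervalIntegrable ρ volume a R := fun R hR =>
    (intervalIntegrable_iff_integrableOn_Ioc_of_le hR).2 (hρi.mono_set Ioc_subset_Ioi_self)
  have hMd : ∀ R, a < R → HasDerivAt M (ρ R) R := fun R hR =>
    intervalIntegral.integral_hasDerivAt_right (hii R hR.le)
      (hρc.stronglyMeasurableAtFilter isOpen_Ioi R hR) (hρc.continuousAt (Ioi_mem_nhds hR))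
  have hM0 : ∀ R, a < R → 0 < M R := fun R hR =>
    intervalIntegral.intervalIntegral_pos_of_pos_on (hii R hR.le) (fun x hx => hρp x hx.1) hR
  have hMZ : ∀ R, a ≤ R → M R ≤ Z := fun R hR => by
    simp only [hMdef]
    rw [intervalIntegral.integral_of_le hR, hZdef]
    exact setIntegral_mono_set hρi ((ae_restrict_mem measurableSet_Ioi).mono fun x hx =>
      (hρp x hx).le) Ioc_subset_Ioi_self.eventuallyLE
  have hMlt : ∀ R, a < R → M R < Z := fun R hR => by
    refine lt_of_lt_of_le ?_ (hMZ (R + 1) (by linarith))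
    refine (strictMonoOn_of_deriv_pos (convex_Ioi a)
      (fun x hx => (hMd x hx).continuousAt.continuousWithinAt) fun x hx => ?_) hR
        (show a < R + 1 by linarith) (by linarith)
    rw [interior_Ioi] at hx
    rw [(hMd x hx).deriv]
    exact hρp x hx
  have hZ : 0 < Z := (hM0 _ (lt_add_one a)).trans (hMlt _ (lt_add_one a))
  -- the transport
  set T : ℝ → ℝ := fun R => invGam n (γ / Z * M R) with hTdef
  have hmem : ∀ R, a < R → γ / Z * M R ∈ Ioo 0 γ := fun R hR => by
    refine ⟨mul_pos (div_pos hγ hZ) (hM0 R hR), ?_⟩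
    calc γ / Z * M R < γ / Z * Z := mul_lt_mul_of_pos_left (hMlt R hR) (div_pos hγ hZ)
      _ = γ := div_mul_cancel₀ _ hZ.ne'
  have hTp : ∀ R, a < R → 0 < T R := fun R hR => invGam_mem n (hmem R hR)
  set T' : ℝ → ℝ := fun R => γ / Z * ρ R / wt n (T R) with hT'def
  have hTd : ∀ R, a < R → HasDerivAt T (T' R) R := fun R hR => by
    refine ((hasDerivAt_invGam n (hmem R hR)).comp R ((hMd R hR).const_mul (γ / Z))).congr_deriv ?_
    rw [hT'def, inv_mul_eq_div]
  have hT'p : ∀ R, a < R → 0 < T' R := fun R hR =>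
    div_pos (mul_pos (div_pos hγ hZ) (hρp R hR)) (wt_pos n (hTp R hR))
  -- the flux
  set Φ : ℝ → ℝ := fun R => Real.exp (ℓ R) * wt n (w R) with hΦdef
  have hΦp : ∀ R, a < R → 0 < Φ R := fun R hR => mul_pos (Real.exp_pos _) (wt_pos n (hwp R hR))
  set C := Real.log (Z / γ) with hC
  set f : ℝ → ℝ := fun R => ρ R * G R - ρ R * ℓ R + ρ R * C with hfdef
  have hfi : IntegrableOn f (Ioi a) := (hρG.sub hρℓ).add (Integrable.mul_const hρi C)
  set D : ℝ → ℝ := fun R =>
    ρ R * ((s R + ((n : ℝ) / w R - w R)) * (w R - T R) + 1) - Φ R * T' R with hDdef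
  have hΨd : ∀ R, a < R →
      HasDerivWithinAt (fun x => Φ x * (w x - T x)) (D R) (Ioi R) R := fun R hR => by
    have h1 := (hℓ R hR).exp.mul
      ((hasDerivAt_wt n (hwp R hR)).comp R (hw R hR)).hasDerivWithinAt
    have h2 := h1.mul ((hw R hR).sub (hTd R hR)).hasDerivWithinAt
    refine (h2.congr_deriv ?_)
    simp only [hDdef, hΦdef, heq R hR, Function.comp_apply, Pi.mul_apply, Pi.sub_apply]
    ring
  have hΨc : ContinuousOn (fun x => Φ x * (w x - T x)) (Ioi a) :=
    ((Real.continuous_exp.comp_continuousOn hℓc).mul ((Stam.continuous_wt n).comp_continuousOn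
      fun x hx => (hw x hx).continuousAt.continuousWithinAt)).mul
      fun x hx => ((hw x hx).sub (hTd x hx)).continuousAt.continuousWithinAt
  have hDf : ∀ R, a < R → D R ≤ f R := fun R hR => by
    have hW := hwp R hR
    have hW' := hw'p R hR
    have hT := hTp R hR
    have hT' := hT'p R hR
    have elog : ℓ R + ((n : ℝ) * Real.log (w R) - w R ^ 2 / 2) + Real.log (w' R) =
        C + ((n : ℝ) * Real.log (T R) - T R ^ 2 / 2) + Real.log (T' R) := by
      have e : Real.exp (ℓ R) * wt n (w R) * w' R = Z / γ * wt n (T R) * T' R := by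
        rw [← heq R hR, hT'def]
        have := (wt_pos n hT).ne'
        field_simp
      have e' := congrArg Real.log e
      rw [Real.log_mul (mul_pos (Real.exp_pos _) (wt_pos n hW)).ne' hW'.ne',
        Real.log_mul (mul_pos (div_pos hZ hγ) (wt_pos n hT)).ne' hT'.ne',
        Real.log_mul (Real.exp_pos _).ne' (wt_pos n hW).ne', Real.log_exp,
        Real.log_mul (div_pos hZ hγ).ne' (wt_pos n hT).ne'] at e'
      simp only [wt, Real.log_mul (pow_pos hW n).ne' (Real.exp_pos _).ne',
        Real.log_mul (pow_pos hT n).ne' (Real.exp_pos _).ne', Real.log_pow, Real.log_exp] at e'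
      linarith
    have hv := hG R hR (w R - T R) (by linarith)
    have e1 : 1 - (w R - T R) / w R = T R / w R := by field_simp; ring
    rw [e1, Real.log_div hT.ne' hW.ne'] at hv
    have h2 := Real.log_le_sub_one_of_pos (div_pos hT' hW')
    rw [Real.log_div hT'.ne' hW'.ne'] at h2
    have e2 : Φ R * T' R = ρ R * (T' R / w' R) := by
      rw [hΦdef, heq R hR]; field_simp
    have hb : (s R + ((n : ℝ) / w R - w R)) * (w R - T R) + 1 - T' R / w' R ≤ G R - ℓ R + C := by
      linear_combination hv + h2 + elog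
    have := mul_le_mul_of_nonneg_left hb (hρp R hR).le
    simp only [hDdef, hfdef, e2]
    linarith
  -- the flux is small along sequences at both ends
  have hend0 : ∀ ε > 0, ∃ᶠ R in 𝓝[>] a, Φ R * w R < ε := fun ε hε => by
    by_contra hne
    rw [not_frequently] at hne
    obtain ⟨u, hu, hsub⟩ := mem_nhdsGT_iff_exists_Ioc_subset.1 hne
    have hd : ∀ x ∈ Ioc a u, HasDerivAt (fun x => ε * Real.log (w x) - M x)
        (ε * (w' x / w x) - ρ x) x := fun x hx =>
      (((hw x hx.1).log (hwp x hx.1).ne').const_mul ε).sub (hMd x hx.1)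
    have hanti : AntitoneOn (fun x => ε * Real.log (w x) - M x) (Ioc a u) := by
      refine antitoneOn_of_deriv_nonpos (convex_Ioc a u)
        (fun x hx => (hd x hx).continuousAt.continuousWithinAt) (fun x hx => ?_) fun x hx => ?_
      · exact (hd x (interior_subset hx)).differentiableAt.differentiableWithinAt
      · have hx' := interior_subset hx
        rw [(hd x hx').deriv]
        have := hwp x hx'.1
        have h3 : ε ≤ Φ x * w x := not_lt.1 (hsub hx')
        have h4 : ρ x = Φ x * w x * (w' x / w x) := by rw [hΦdef, heq x hx'.1]; field_simp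
        nlinarith [div_pos (hw'p x hx'.1) this]
    have hlog : Tendsto (fun x => Real.log (w x)) (𝓝[>] a) atBot :=
      Real.tendsto_log_nhdsGT_zero.comp (tendsto_nhdsWithin_iff.2 ⟨hw0,
        eventually_nhdsWithin_of_forall fun x hx => hwp x hx⟩)
    obtain ⟨x, hxl, hx⟩ := ((hlog.eventually
      (eventually_le_atBot ((ε * Real.log (w u) - M u) / ε - 1))).and
        (Ioc_mem_nhdsGT (mem_Ioi.1 hu))).exists
    have h5 := hanti hx (right_mem_Ioc.2 hu) hx.2
    simp only at h5
    have h6 := mul_le_mul_of_nonneg_left hxl hε.le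
    rw [mul_sub, mul_div_cancel₀ _ hε.ne'] at h6
    linarith [hM0 x hx.1]
  have hendT : ∀ ε > 0, ∃ᶠ R in atTop, Φ R * T R < ε := fun ε hε => by
    by_contra hne
    rw [not_frequently] at hne
    obtain ⟨b, hb⟩ := eventually_atTop.1 (hne.and (eventually_gt_atTop a))
    have hd : ∀ x, b ≤ x → HasDerivAt (fun x => ε * w x - Z / γ * gam (n + 1) (T x))
        (ε * w' x - Z / γ * (wt (n + 1) (T x) * T' x)) x := fun x hx =>
      ((hw x (hb x hx).2).const_mul ε).sub
        (((hasDerivAt_gam (n + 1) (T x)).comp x (hTd x (hb x hx).2)).const_mul (Z / γ))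
    have hanti : AntitoneOn (fun x => ε * w x - Z / γ * gam (n + 1) (T x)) (Ici b) := by
      refine antitoneOn_of_deriv_nonpos (convex_Ici b)
        (fun x hx => (hd x hx).continuousAt.continuousWithinAt) (fun x hx => ?_) fun x hx => ?_
      · exact (hd x (interior_subset hx)).differentiableAt.differentiableWithinAt
      · have hx' : b ≤ x := mem_Ici.1 (interior_subset hx)
        obtain ⟨h3, hax⟩ := hb x hx'
        rw [(hd x hx').deriv]
        have e : Z / γ * (wt (n + 1) (T x) * T' x) = Φ x * T x * w' x := by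
          have := (wt_pos n (hTp x hax)).ne'
          simp only [hT'def, hΦdef, heq x hax]
          rw [show wt (n + 1) (T x) = wt n (T x) * T x by simp [wt, pow_succ]; ring]
          field_simp
        rw [e]
        nlinarith [not_lt.1 h3, hw'p x hax]
    obtain ⟨x, hxw, hx⟩ := ((hwt.eventually_gt_atTop
      ((ε * w b - Z / γ * gam (n + 1) (T b) + Z / γ * radial (n + 1)) / ε)).and
        (eventually_ge_atTop b)).exists
    have h5 := hanti self_mem_Ici (mem_Ici.2 hx) hx
    simp only at h5
    have h6 := mul_le_mul_of_nonneg_left (gam_mem (n + 1) (hTp x (hb x hx).2)).2.le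
      (div_pos hZ hγ).le
    rw [div_lt_iff₀ hε] at hxw
    linarith
  -- the integral
  set c := a + 1 with hcdef
  have hac : a < c := lt_add_one a
  have hlim0 : Tendsto (fun x => ∫ y in x..c, f y) (𝓝[>] a) (𝓝 (∫ y in a..c, f y)) := by
    have hi : IntegrableOn f (uIcc a c) := by
      rw [uIcc_of_le hac.le, integrableOn_Icc_iff_integrableOn_Ioc]
      exact hfi.mono_set Ioc_subset_Ioi_self
    have hc := intervalIntegral.continuousOn_primitive_interval_left hi
    rw [uIcc_of_le hac.le] at hc
    exact ((hc a (left_mem_Icc.2 hac.le)).mono_of_mem_nhdsWithin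
      (Icc_mem_nhdsGT hac)).tendsto
  have hlimT : Tendsto (fun x => ∫ y in c..x, f y) atTop (𝓝 (∫ y in Ioi c, f y)) :=
    intervalIntegral_tendsto_integral_Ioi c (hfi.mono_set (Ioi_subset_Ioi hac.le)) tendsto_id
  have hpos : 0 ≤ ∫ y in Ioi a, f y := by
    refine le_of_forall_pos_le_add fun δ hδ => ?_
    obtain ⟨x, hx1, hx2, hx3⟩ := ((hend0 (δ / 4) (by linarith)).and_eventually
      ((hlim0.eventually_le_const (lt_add_of_pos_right _ (show 0 < δ / 4 by linarith))).and
        (show ∀ᶠ z in 𝓝[>] a, z ∈ Ioo a c from Ioo_mem_nhdsGT hac))).exists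
    obtain ⟨y, hy1, hy2, hy3⟩ := ((hendT (δ / 4) (by linarith)).and_eventually
      ((hlimT.eventually_le_const (lt_add_of_pos_right _ (show 0 < δ / 4 by linarith))).and
        (eventually_gt_atTop c))).exists
    have hay : a < y := hac.trans hy3
    have hxy : x ≤ y := (hx3.2.trans hy3).le
    have hfx : IntervalIntegrable f volume x c := (intervalIntegrable_iff_integrableOn_Ioc_of_le
      hx3.2.le).2 (hfi.mono_set fun z hz => hx3.1.trans hz.1)
    have hfy : IntervalIntegrable f volume c y := (intervalIntegrable_iff_integrableOn_Ioc_of_le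
      hy3.le).2 (hfi.mono_set fun z hz => hac.trans hz.1)
    have hmain := intervalIntegral.sub_le_integral_of_hasDeriv_right_of_le hxy
      (hΨc.mono fun z hz => hx3.1.trans_le hz.1)
      (fun z hz => hΨd z (hx3.1.trans_le hz.1.le))
      (hfi.mono_set fun z hz => hx3.1.trans_le hz.1)
      (fun z hz => hDf z (hx3.1.trans_le hz.1.le))
    rw [← intervalIntegral.integral_add_adjacent_intervals hfx hfy] at hmain
    have h7 : Φ x * (w x - T x) ≤ Φ x * w x :=
      mul_le_mul_of_nonneg_left (by linarith [hTp x hx3.1]) (hΦp x hx3.1).le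
    have h8 : -(Φ y * T y) ≤ Φ y * (w y - T y) := by
      have := mul_pos (hΦp y hay) (hwp y hay)
      linarith
    have e : ∫ z in Ioi a, f z = (∫ z in a..c, f z) + ∫ z in Ioi c, f z := by
      rw [intervalIntegral.integral_of_le hac.le, ← setIntegral_union (Ioc_disjoint_Ioi le_rfl)
        measurableSet_Ioi (hfi.mono_set Ioc_subset_Ioi_self)
        (hfi.mono_set (Ioi_subset_Ioi hac.le)), Ioc_union_Ioi_eq_Ioi hac.le]
    linarith
  have e : ∫ y in Ioi a, f y = (∫ y in Ioi a, ρ y * G y) - (∫ y in Ioi a, ρ y * ℓ y) + Z * C := by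
    rw [hfdef]
    have h1 : IntegrableOn (fun R => ρ R * G R - ρ R * ℓ R) (Ioi a) := hρG.sub hρℓ
    rw [integral_add h1 (Integrable.mul_const hρi C), integral_sub hρG hρℓ, integral_mul_const]
  linarith

end Vale.Agent.P237.Petty.Lift
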