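import Vale.Agent.P237.Petty.Lift.Bound
import Vale.Agent.P237.Petty.Lift.AllDimensions

/-!
# P237: from a pointwise sign along the transport to the inequality in every dimension

An entropy bound by an integral along the transport, and a sign of the calibrated integrand on the
states of concave profiles up to a null field, give the lifted bound with the obstacle gain, hence
the step; for every order from four on they give the inequality with its equality cases in every
dimension. The null fields of continuous potentials, and of potentials that vanish with the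
ordinate, are provided.
-/

namespace Vale.Agent.P237.Petty.Lift

open MeasureTheory Set Filter Topology intervalIntegral
open Ident (half rate)

universe u

variable {p : ℕ} {g σ : ℝ → ℝ}

/-- The states of the concave profiles along their transport: the abscissa `s` of the circle, the
abscissa `t`, the value `a`, the speed `r` and the slope `q`. -/
structure LiftState (p : ℕ) (s t a r q : ℝ) : Prop where
  s_mem : s ∈ Ioo (0 : ℝ) 1
  t_mem : t ∈ Ioo (0 : ℝ) 1
  pos : 0 < a
  rate_eq : r = a ^ (p + 1) / arc s ^ (p + 1)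
  slope : q ≤ 0
  slope_le : -q * (1 - t) ≤ a
  sq_le : (1 - s ^ 2) / r ≤ ((p : ℝ) + 3) * (1 - t)
  low : t * a ^ (p + 1) ≤ circLow p s
  high : a ^ (p + 1) * (1 - t) ≤ ((p : ℝ) + 2) * circHigh p s
  low_tangent : -q * (((p : ℝ) + 2) * circLow p s) ≤ (a - t * q) ^ (p + 2) - a ^ (p + 2)
  high_tangent : -q * (((p : ℝ) + 2) * circHigh p s) ≤
    a ^ (p + 2) - (a + q * (1 - t)) ^ (p + 2)
  low_icept : circLow p s ≤ t * (a - t * q) ^ (p + 1)
  high_rect : circHigh p s ≤ (1 - t) * a ^ (p + 1)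

namespace LiftState

variable {s t a r q : ℝ}

theorem arc_pos' (h : LiftState p s t a r q) : 0 < arc s :=
  arc_pos ⟨by linarith [h.s_mem.1], h.s_mem.2⟩

theorem rate_pos (h : LiftState p s t a r q) : 0 < r :=
  h.rate_eq ▸ div_pos (pow_pos h.pos _) (pow_pos h.arc_pos' _)

theorem icept_pos' (h : LiftState p s t a r q) : 0 < a - t * q := by
  nlinarith [h.pos, h.t_mem.1, h.slope]

end LiftState

/-- The data of a profile at a point are a state. -/
theorem liftState_profile (hg : Regular g) (hσ : Transport p g σ) {t : ℝ}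
    (ht : t ∈ Ioo (0 : ℝ) 1) :
    LiftState p (σ t) t (g t) (rate p g σ t) (slopeR g t) where
  s_mem := hσ.mem_Ioo t ht
  t_mem := ht
  pos := hg.pos_of_lt ⟨ht.1.le, ht.2⟩
  rate_eq := rfl
  slope := slope_nonpos hg ht
  slope_le := neg_slope_mul_le hg ht
  sq_le := sq_div_rate_le hg hσ ht
  low := mul_pow_le_low hg hσ ht
  high := mul_pow_le_high hg hσ ht
  low_tangent := low_le_tangent hg hσ ht
  high_tangent := high_le_tangent hg hσ ht
  low_icept := by
    rw [← (mass_split hg hσ (Ioo_subset_Icc_self ht)).1]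
    calc ∫ u in (0 : ℝ)..t, g u ^ (p + 1) ≤ ∫ _ in (0 : ℝ)..t, icept g t ^ (p + 1) :=
          intervalIntegral.integral_mono_on ht.1.le
            (((continuousOn_profile hg).mono (Icc_subset_Icc le_rfl ht.2.le)).pow _
              |>.intervalIntegrable_of_Icc ht.1.le) intervalIntegrable_const fun u hu => by
            have hto : t ∈ Ioo (-1 : ℝ) 1 := ⟨by linarith [ht.1], ht.2⟩
            have hu' : u ∈ Icc (-1 : ℝ) 1 := ⟨by linarith [hu.1], hu.2.trans ht.2.le⟩
            refine pow_le_pow_left₀ (hg.nonneg u hu') ((le_tangent hg.concave hto hu').trans ?_) _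
            rw [icept]
            nlinarith [slope_nonpos hg ht, hu.1]
      _ = _ := by simp [icept]
  high_rect := by
    rw [← (mass_split hg hσ (Ioo_subset_Icc_self ht)).2]
    calc ∫ u in t..(1 : ℝ), g u ^ (p + 1) ≤ ∫ _ in t..(1 : ℝ), g t ^ (p + 1) :=
          intervalIntegral.integral_mono_on ht.2.le
            (((continuousOn_profile hg).mono (Icc_subset_Icc ht.1.le le_rfl)).pow _
              |>.intervalIntegrable_of_Icc ht.2.le) intervalIntegrable_const fun u hu =>
            pow_le_pow_left₀ (hg.nonneg u ⟨by linarith [hu.1, ht.1], hu.2⟩)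
              (antitoneOn_of_concave_even hg.concave hg.even (Ioo_subset_Icc_self ht)
                ⟨ht.1.le.trans hu.1, hu.2⟩ hu.1) _
      _ = _ := by simp

/-- A field that is, along every profile, the derivative of a function with no increase. -/
def NullField (p : ℕ) (D : ℝ → ℝ → ℝ → ℝ → ℝ → ℝ) : Prop :=
  ∀ g σ : ℝ → ℝ, Regular g → Transport p g σ → ∃ ψ : ℝ → ℝ,
    ContinuousOn ψ (Icc 0 1) ∧ ψ 1 ≤ ψ 0 ∧ ∀ t ∈ Ioo (0 : ℝ) 1, HasDerivWithinAt ψ
      (D (σ t) t (g t) (rate p g σ t) (slopeR g t)) (Ioi t) t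

/-- A bound of the entropy term by an integral along the transport: `E` is what is added to the
logarithm of the Jacobian of the lift. -/
def EntropyBound (p : ℕ) (E : ℝ → ℝ → ℝ → ℝ → ℝ → ℝ) : Prop :=
  ∀ g σ : ℝ → ℝ, Regular g → Transport p g σ →
    IntervalIntegrable (fun t => g t ^ (p + 1) *
      (Real.log (liftM (σ t) t (rate p g σ t)) + E (σ t) t (g t) (rate p g σ t) (slopeR g t)))
      volume 0 1 ∧
    ∀ δ : ℝ, 0 < δ → ∃ φ : ℝ → ℝ, DensityTest φ ∧ entTerm p g φ ≤
      (∫ t in (0 : ℝ)..1, g t ^ (p + 1) *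
        (Real.log (liftM (σ t) t (rate p g σ t)) + E (σ t) t (g t) (rate p g σ t) (slopeR g t))) /
        half (p + 1) + δ

/-- The calibrated integrand at a state, with the whole budget of the obstacle. -/
noncomputable def fieldPart (p : ℕ) (nu : ℝ) (E : ℝ → ℝ → ℝ → ℝ → ℝ → ℝ) (s t a r q : ℝ) : ℝ :=
  liftPart p nu (Ident.muMin p) s t a r q (Real.log (liftM s t r) + E s t a r q)
    (obsWeight p t * max 0 (Real.log (arc t / a)))

/-- The pointwise calibration: on every state the integrand plus a null field is nonnegative. -/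
def PointwiseField (p : ℕ) (E : ℝ → ℝ → ℝ → ℝ → ℝ → ℝ) : Prop :=
  ∃ (nu : ℝ) (D : ℝ → ℝ → ℝ → ℝ → ℝ → ℝ), 0 ≤ nu ∧ NullField p D ∧
    ∀ s t a r q : ℝ, LiftState p s t a r q → 0 ≤ fieldPart p nu E s t a r q + D s t a r q

/-- The calibration gives the lifted bound. -/
theorem gBound_of_pointwise (hp : 1 ≤ p) {E : ℝ → ℝ → ℝ → ℝ → ℝ → ℝ} (hE : EntropyBound p E)
    (hF : PointwiseField p E) : ∃ nu : ℝ, 0 ≤ nu ∧ GBound p (Ident.muMin p) nu := by
  obtain ⟨nu, D, hnu, hD, hpos⟩ := hF
  refine ⟨nu, hnu, fun g hg hvol ε hε => ?_⟩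
  obtain ⟨σ, hσ⟩ := Ident.exists_transport_of_circ hg p hvol
  obtain ⟨ψ, hψc, hends, hψd⟩ := hD g σ hg hσ
  obtain ⟨hei, hent⟩ := hE g σ hg hσ
  have hk := muMin_pos hp
  obtain ⟨φ, hφ, hH⟩ := hent (ε / Ident.muMin p) (div_pos hε hk)
  refine ⟨φ, hφ, ?_⟩
  have h := lifted_criterion hg hσ (nu := nu) hk.le hei hH hψc hends hψd fun t ht =>
    hpos _ _ _ _ _ (liftState_profile hg hσ ht)
  rw [mul_div_cancel₀ _ hk.ne'] at h
  exact h

/-- The calibration gives the step in dimension `p + 2`, with the case of equality. -/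
theorem stepHolds_of_pointwise (hp : 1 ≤ p) {E : ℝ → ℝ → ℝ → ℝ → ℝ → ℝ} (hE : EntropyBound p E)
    (hF : PointwiseField p E) : StepHolds.{u} p := by
  obtain ⟨nu, hnu, hG⟩ := gBound_of_pointwise hp hE hF
  exact stepHolds_of_gBound hp le_rfl hnu hG

/-- A calibration in every order from four on gives the inequality, with its equality cases, in
every dimension. -/
theorem petty_of_pointwise (E : ℕ → ℝ → ℝ → ℝ → ℝ → ℝ → ℝ)
    (hE : ∀ p, 4 ≤ p → EntropyBound p (E p)) (hF : ∀ p, 4 ≤ p → PointwiseField p (E p)) {n : ℕ}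
    (hn : 3 ≤ n) {V : Type} [NormedAddCommGroup V] [InnerProductSpace ℝ V] [FiniteDimensional ℝ V]
    [MeasurableSpace V] [BorelSpace V] (hfin : Module.finrank ℝ V = n) {K : Set V} (hK : Body K) :
    cPetty n * volume.real K ^ (n - 1) ≤ volume.real (projBody K) ∧
      (volume.real (projBody K) = cPetty n * volume.real K ^ (n - 1) ↔
        ∃ (T : V ≃L[ℝ] V) (a : V), K = (fun x => a + x) '' (T '' Metric.closedBall 0 1)) := by
  choose! nu hnu hG using fun p (hp : 4 ≤ p) =>
    gBound_of_pointwise (by omega : 1 ≤ p) (hE p hp) (hF p hp)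
  exact petty_of_gBound (fun p => Ident.muMin p) nu (fun p _ => le_rfl) hnu hG hn hfin hK

/-! ### Null fields -/

theorem nullField_zero (p : ℕ) : NullField p fun _ _ _ _ _ => 0 := fun _ _ _ _ =>
  ⟨fun _ => 0, continuousOn_const, le_rfl, fun t _ => hasDerivWithinAt_const t _ 0⟩

theorem NullField.add {D₁ D₂ : ℝ → ℝ → ℝ → ℝ → ℝ → ℝ} (h₁ : NullField p D₁)
    (h₂ : NullField p D₂) :
    NullField p fun s t a r q => D₁ s t a r q + D₂ s t a r q := fun g σ hg hσ => by
  obtain ⟨ψ₁, c₁, e₁, d₁⟩ := h₁ g σ hg hσ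
  obtain ⟨ψ₂, c₂, e₂, d₂⟩ := h₂ g σ hg hσ
  exact ⟨ψ₁ + ψ₂, c₁.add c₂, add_le_add e₁ e₂, fun t ht => (d₁ t ht).add (d₂ t ht)⟩

theorem NullField.smul {D : ℝ → ℝ → ℝ → ℝ → ℝ → ℝ} (h : NullField p D) {k : ℝ} (hk : 0 ≤ k) :
    NullField p fun s t a r q => k * D s t a r q := fun g σ hg hσ => by
  obtain ⟨ψ, c, e, d⟩ := h g σ hg hσ
  exact ⟨fun t => k * ψ t, c.const_mul k, mul_le_mul_of_nonneg_left e hk,
    fun t ht => (d t ht).const_mul k⟩

theorem NullField.congr {D D' : ℝ → ℝ → ℝ → ℝ → ℝ → ℝ} (h : NullField p D)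
    (he : ∀ s t a r q, LiftState p s t a r q → D' s t a r q = D s t a r q) : NullField p D' :=
  fun g σ hg hσ => by
    obtain ⟨ψ, c, e, d⟩ := h g σ hg hσ
    exact ⟨ψ, c, e, fun t ht => he _ _ _ _ _ (liftState_profile hg hσ ht) ▸ d t ht⟩

theorem NullField.sum {ι : Type*} {S : Finset ι} {D : ι → ℝ → ℝ → ℝ → ℝ → ℝ → ℝ}
    (h : ∀ i ∈ S, NullField p (D i)) :
    NullField p fun s t a r q => ∑ i ∈ S, D i s t a r q := by
  classical
  induction S using Finset.induction_on with
  | empty => simpa using nullField_zero p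
  | insert i S hi ih =>
    refine (((h i (Finset.mem_insert_self i S)).add
      (ih fun j hj => h j (Finset.mem_insert_of_mem hj)))).congr fun s t a r q _ => ?_
    rw [Finset.sum_insert hi]

/-- A potential `F (s, t, a)` with its partial derivatives inside. -/
def HasPartials (F Fs Ft Fg : ℝ → ℝ → ℝ → ℝ) : Prop :=
  ∀ s ∈ Ioo (0 : ℝ) 1, ∀ t ∈ Ioo (0 : ℝ) 1, ∀ y : ℝ, 0 < y →
    HasFDerivAt (fun x : ℝ × ℝ × ℝ => F x.1 x.2.1 x.2.2)
      (Fs s t y • ContinuousLinearMap.fst ℝ ℝ (ℝ × ℝ) +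
        Ft s t y • (ContinuousLinearMap.fst ℝ ℝ ℝ).comp (ContinuousLinearMap.snd ℝ ℝ (ℝ × ℝ)) +
        Fg s t y • (ContinuousLinearMap.snd ℝ ℝ ℝ).comp (ContinuousLinearMap.snd ℝ ℝ (ℝ × ℝ)))
      (s, t, y)

/-- The value at the centre is at least the mass. -/
theorem half_le_top (hg : Regular g) (hσ : Transport p g σ) : half (p + 1) ≤ g 0 ^ (p + 1) := by
  rw [← integral_mass hσ]
  have hanti := antitoneOn_of_concave_even hg.concave hg.even
  calc ∫ t in (0 : ℝ)..1, g t ^ (p + 1) ≤ ∫ _ in (0 : ℝ)..1, g 0 ^ (p + 1) :=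
        intervalIntegral.integral_mono_on zero_le_one
          ((continuousOn_profile hg).pow _ |>.intervalIntegrable_of_Icc zero_le_one)
          intervalIntegrable_const fun t ht => pow_le_pow_left₀
            (hg.nonneg t ⟨by linarith [ht.1], ht.2⟩)
            (hanti (left_mem_Icc.2 zero_le_one) ht ht.1) _
    _ = _ := by simp

/-- The value at the end is at most the mass. -/
theorem end_le_half (hg : Regular g) (hσ : Transport p g σ) : g 1 ^ (p + 1) ≤ half (p + 1) := by
  rw [← integral_mass hσ]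
  have hanti := antitoneOn_of_concave_even hg.concave hg.even
  calc g 1 ^ (p + 1) = ∫ _ in (0 : ℝ)..1, g 1 ^ (p + 1) := by simp
    _ ≤ _ := intervalIntegral.integral_mono_on zero_le_one intervalIntegrable_const
        ((continuousOn_profile hg).pow _ |>.intervalIntegrable_of_Icc zero_le_one)
        fun t ht => pow_le_pow_left₀ (hg.nonneg 1 (by norm_num))
          (hanti ht (right_mem_Icc.2 zero_le_one) ht.2) _

/-- A continuous potential with no increase between the two ends gives a null field. -/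
theorem nullField_potential {F Fs Ft Fg : ℝ → ℝ → ℝ → ℝ} (hF : HasPartials F Fs Ft Fg)
    (hc : ContinuousOn (fun x : ℝ × ℝ × ℝ => F x.1 x.2.1 x.2.2) (Icc 0 1 ×ˢ Icc 0 1 ×ˢ Ici 0))
    (hends : ∀ a b : ℝ, 0 < a → 0 ≤ b → b ≤ a → b ^ (p + 1) ≤ half (p + 1) →
      half (p + 1) ≤ a ^ (p + 1) → F 1 1 b ≤ F 0 0 a) :
    NullField p fun s t a r q => Fs s t a * r + Ft s t a + Fg s t a * q := fun g σ hg hσ => by
  refine ⟨fun t => F (σ t) t (g t), ?_, ?_, fun t ht =>
    hasDeriv_potential hg hσ F Fs Ft Fg hF ht⟩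
  · exact hc.comp (hσ.cont.prodMk (continuousOn_id.prodMk (continuousOn_profile hg))) fun t ht =>
      ⟨hσ.mem t ht, ht, hg.nonneg t ⟨by linarith [ht.1], ht.2⟩⟩
  · simp only [hσ.one, hσ.zero]
    exact hends _ _ hg.pos (hg.nonneg 1 (by norm_num))
      (antitoneOn_of_concave_even hg.concave hg.even (left_mem_Icc.2 zero_le_one)
        (right_mem_Icc.2 zero_le_one) zero_le_one) (end_le_half hg hσ) (half_le_top hg hσ)

/-- A potential that vanishes with the ordinate of the circle gives a null field: at the end it is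
continued by zero, so only its value at the centre is constrained. -/
theorem nullField_vanishing {F Fs Ft Fg : ℝ → ℝ → ℝ → ℝ} (hF : HasPartials F Fs Ft Fg)
    (hc : ContinuousOn (fun x : ℝ × ℝ × ℝ => F x.1 x.2.1 x.2.2) (Ico 0 1 ×ˢ Ico 0 1 ×ˢ Ioi 0))
    (hbd : ∀ g σ : ℝ → ℝ, Regular g → Transport p g σ → ∃ C : ℝ, ∀ t ∈ Ioo (0 : ℝ) 1,
      |F (σ t) t (g t)| ≤ C * arc (σ t))
    (h0 : ∀ a : ℝ, 0 < a → half (p + 1) ≤ a ^ (p + 1) → 0 ≤ F 0 0 a) :
    NullField p fun s t a r q => Fs s t a * r + Ft s t a + Fg s t a * q := fun g σ hg hσ => by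
  classical
  set ψ := Function.update (fun t => F (σ t) t (g t)) 1 0 with hψ
  refine ⟨ψ, ?_, ?_, fun t ht => ?_⟩
  · rw [hψ, continuousOn_update_iff]
    have hsub : Icc (0 : ℝ) 1 \ {1} = Ico 0 1 := Icc_sdiff_right
    refine ⟨?_, fun _ => ?_⟩
    · rw [hsub]
      have hmaps : MapsTo (fun t => (σ t, t, g t)) (Ico (0 : ℝ) 1)
          (Ico 0 1 ×ˢ Ico 0 1 ×ˢ Ioi 0) := fun t ht => by
        refine ⟨?_, ht, hg.pos_of_lt ht⟩
        rcases ht.1.eq_or_lt with rfl | h
        · simp [hσ.zero]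
        · exact Ioo_subset_Ico_self (hσ.mem_Ioo t ⟨h, ht.2⟩)
      exact hc.comp ((hσ.cont.mono Ico_subset_Icc_self).prodMk (continuousOn_id.prodMk
        ((continuousOn_profile hg).mono Ico_subset_Icc_self))) hmaps
    · rw [hsub]
      obtain ⟨C, hC⟩ := hbd g σ hg hσ
      have hlim : Tendsto (fun t => C * arc (σ t)) (𝓝[Ico 0 1] 1) (𝓝 0) := by
        have h := (continuous_arc.comp_continuousOn hσ.cont 1
          (right_mem_Icc.2 zero_le_one)).const_mul C
        simp only [ContinuousWithinAt, Function.comp_apply, hσ.one] at h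
        simpa [arc] using h.mono_left (nhdsWithin_mono _ Ico_subset_Icc_self)
      refine squeeze_zero_norm' ?_ hlim
      filter_upwards [self_mem_nhdsWithin,
        mem_nhdsWithin_of_mem_nhds (Ioi_mem_nhds (show (0 : ℝ) < 1 by norm_num))] with t ht h0t
      exact hC t ⟨h0t, ht.2⟩
  · rw [hψ, Function.update_self, Function.update_of_ne zero_ne_one, hσ.zero]
    exact h0 _ hg.pos (half_le_top hg hσ)
  · refine (hasDeriv_potential hg hσ F Fs Ft Fg hF ht).congr_of_eventuallyEq ?_
      (Function.update_of_ne ht.2.ne _ _)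
    filter_upwards [mem_nhdsWithin_of_mem_nhds (Iio_mem_nhds ht.2)] with u hu
    exact Function.update_of_ne (ne_of_lt hu) _ _

/-- The logarithm of the speed is harmless against the ordinate. -/
theorem arc_mul_abs_log_rate (hg : Regular g) (hσ : Transport p g σ) :
    ∃ C : ℝ, ∀ t ∈ Ioo (0 : ℝ) 1, arc (σ t) * |Real.log (rate p g σ t)| ≤ C := by
  refine ⟨|Real.log (g 0 ^ (p + 1))| + Real.log ((p : ℝ) + 3) + ((p : ℝ) + 3), fun t ht => ?_⟩
  have S := liftState_profile hg hσ ht
  have hc := S.arc_pos'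
  have hc1 : arc (σ t) ≤ 1 := Real.sqrt_le_one.2 (by nlinarith [S.s_mem.1])
  have hr := S.rate_pos
  have hl3 : 0 ≤ Real.log ((p : ℝ) + 3) :=
    Real.log_nonneg (by linarith [Nat.cast_nonneg (α := ℝ) p])
  have hup : Real.log (rate p g σ t) ≤
      |Real.log (g 0 ^ (p + 1))| - ((p : ℝ) + 1) * Real.log (arc (σ t)) := by
    rw [rate, Real.log_div (pow_pos S.pos _).ne' (pow_pos hc _).ne', Real.log_pow (arc (σ t))]
    push_cast
    have h := Real.log_le_log (pow_pos S.pos (p + 1)) (pow_le_pow_left₀ S.pos.le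
      (antitoneOn_of_concave_even hg.concave hg.even (left_mem_Icc.2 zero_le_one)
        (Ioo_subset_Icc_self ht) ht.1.le) (p + 1))
    linarith [le_abs_self (Real.log (g 0 ^ (p + 1)))]
  have hlo : 2 * Real.log (arc (σ t)) - Real.log ((p : ℝ) + 3) ≤ Real.log (rate p g σ t) := by
    have hc2 : arc (σ t) ^ 2 = 1 - σ t ^ 2 :=
      Real.sq_sqrt (by nlinarith [S.s_mem.1, S.s_mem.2])
    have h := S.sq_le
    rw [← hc2, div_le_iff₀ hr] at h
    have h' : arc (σ t) ^ 2 ≤ ((p : ℝ) + 3) * rate p g σ t := h.trans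
      (mul_le_mul_of_nonneg_right (mul_le_of_le_one_right (by positivity) (by linarith [ht.1]))
        hr.le)
    have h2 := Real.log_le_log (pow_pos hc 2) h'
    rw [Real.log_pow, Real.log_mul (by positivity) hr.ne'] at h2
    push_cast at h2
    linarith
  have hlog : 0 ≤ -Real.log (arc (σ t)) := neg_nonneg.2 (Real.log_nonpos hc.le hc1)
  have habs : |Real.log (rate p g σ t)| ≤ |Real.log (g 0 ^ (p + 1))| + Real.log ((p : ℝ) + 3) +
      ((p : ℝ) + 3) * -Real.log (arc (σ t)) := by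
    have hm := mul_nonneg (show (0 : ℝ) ≤ (p : ℝ) + 1 by positivity) hlog
    refine abs_le.2 ⟨?_, ?_⟩ <;> linarith [abs_nonneg (Real.log (g 0 ^ (p + 1)))]
  have hcl : arc (σ t) * -Real.log (arc (σ t)) ≤ 1 := by
    have h := Real.abs_log_mul_self_lt (arc (σ t)) hc hc1
    linarith [neg_abs_le (Real.log (arc (σ t)) * arc (σ t))]
  calc arc (σ t) * |Real.log (rate p g σ t)| ≤ arc (σ t) * (|Real.log (g 0 ^ (p + 1))| +
        Real.log ((p : ℝ) + 3)) + ((p : ℝ) + 3) * (arc (σ t) * -Real.log (arc (σ t))) := by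
        refine (mul_le_mul_of_nonneg_left habs hc.le).trans (le_of_eq ?_)
        ring
    _ ≤ 1 * (|Real.log (g 0 ^ (p + 1))| + Real.log ((p : ℝ) + 3)) + ((p : ℝ) + 3) * 1 :=
        add_le_add (mul_le_mul_of_nonneg_right hc1 (by positivity))
          (mul_le_mul_of_nonneg_left hcl (by positivity))
    _ = _ := by ring

end Vale.Agent.P237.Petty.Lift
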