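import Vale.Agent.P237.Petty.Lift.Criterion
import Vale.Agent.P237.Petty.Lift.Calib

/-!
# P237: the step from the lifted inequality with the obstacle gain

`GBound p kappa nu` bounds the entropy term of a profile with the volume of the circle by the
shadow excess, the axial Fisher excess and the obstacle gain
`∫ obsWeight * max 0 (log (c / g))`. Above an inscribed ellipse of half axes `1` and `s` the gain is
at most `muMin * (m / n) * log (1 / s)`, with equality only at `s = 1`. So the bound gives the step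
in dimension `p + 2`, for every `1 ≤ p`.
-/

namespace Vale.Agent.P237.Petty.Lift

open MeasureTheory Set Filter Topology

universe u

/-- The lifted bound with the obstacle gain. -/
def GBound (p : ℕ) (kappa nu : ℝ) : Prop :=
  ∀ g : ℝ → ℝ, Regular g → (∫ t in (-1 : ℝ)..1, g t ^ (p + 1)) = circ (p + 1) →
    ∀ ε : ℝ, 0 < ε → ∃ φ : ℝ → ℝ, DensityTest φ ∧ kappa * entTerm p g φ ≤
      ((p : ℝ) + 1) * ((∫ t in (-1 : ℝ)..1, g t ^ p) / circ p - 1) +
        nu * (jInt p g / circ (p + 1) - 1) +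
        (∫ t in (0 : ℝ)..1, obsPart p g t) / Ident.half (p + 1) + ε

theorem obsWeight_pos {p : ℕ} (hp : 1 ≤ p) {t : ℝ} (ht : t ∈ Ioo (0 : ℝ) 1)
    (hne : t ≠ √(1 - Ident.b0 p ^ 2)) : 0 < obsWeight p t := by
  have hc : 0 < √(1 - t ^ 2) := Real.sqrt_pos.2 (by nlinarith [ht.1, ht.2])
  have hb := Ident.b0_pos p
  have hd : √(1 - t ^ 2) - Ident.b0 p ≠ 0 := fun h => hne (by
    have h2 : Ident.b0 p ^ 2 = 1 - t ^ 2 := by
      rw [← sub_eq_zero.1 h, Real.sq_sqrt (by nlinarith [ht.1, ht.2])]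
    rw [h2, sub_sub_cancel, Real.sqrt_sq ht.1.le])
  have hp0 : (0 : ℝ) < p := by exact_mod_cast hp
  simp only [obsWeight, arc, Ident.weight]
  positivity

/-- The obstacle gain above an inscribed ellipse. -/
theorem obstacle_gain_le {p : ℕ} (hp : 1 ≤ p) {g : ℝ → ℝ} (hg : Regular g)
    (hv : (∫ t in (-1 : ℝ)..1, g t ^ (p + 1)) = circ (p + 1)) {s : ℝ} (hs : 0 < s) (hs1 : s ≤ 1)
    (hge : ∀ t ∈ Icc (-1 : ℝ) 1, s * √(1 - t ^ 2) ≤ g t) :
    (∫ t in (0 : ℝ)..1, obsPart p g t) / Ident.half (p + 1) ≤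
        Ident.muMin p * (((p : ℝ) + 1) / ((p : ℝ) + 2)) * -Real.log s ∧
      ((∫ t in (0 : ℝ)..1, obsPart p g t) / Ident.half (p + 1) =
        Ident.muMin p * (((p : ℝ) + 1) / ((p : ℝ) + 2)) * -Real.log s → s = 1) := by
  have hlog : 0 ≤ -Real.log s := neg_nonneg.2 (Real.log_nonpos hs.le hs1)
  have hne1 : ∀ᵐ t ∂volume.restrict (Ioc (0 : ℝ) 1), t ≠ 1 :=
    ae_restrict_of_ae (Measure.ae_ne volume 1)
  set d := fun t => obsWeight p t * -Real.log s - obsPart p g t with hd
  have hwi : IntervalIntegrable (fun t => obsWeight p t * -Real.log s) volume 0 1 :=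
    ((continuous_obsWeight p).mul continuous_const).intervalIntegrable 0 1
  have hdi : IntervalIntegrable d volume 0 1 := hwi.sub (integrable_obsPart hg p)
  have hpt : ∀ t ∈ Ioo (0 : ℝ) 1, max 0 (Real.log (arc t / g t)) ≤ -Real.log s ∧
      (max 0 (Real.log (arc t / g t)) = -Real.log s → s = 1 ∨ g t = s * arc t) := by
    intro t ht
    have hgp := hg.pos_of_lt ⟨ht.1.le, ht.2⟩
    have hc : 0 < arc t := arc_pos ⟨by linarith [ht.1], ht.2⟩
    have h1 : arc t / g t ≤ 1 / s := by
      rw [div_le_div_iff₀ hgp hs, one_mul, mul_comm]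
      exact hge t ⟨by linarith [ht.1], ht.2.le⟩
    have h2 : Real.log (arc t / g t) ≤ -Real.log s := by
      rw [← Real.log_inv, ← one_div]
      exact Real.log_le_log (by positivity) h1
    refine ⟨max_le hlog h2, fun h => ?_⟩
    rcases le_total 0 (Real.log (arc t / g t)) with hl | hl
    · rw [max_eq_right hl, ← Real.log_inv, ← one_div] at h
      have := Real.log_injOn_pos (mem_Ioi.2 (div_pos hc hgp)) (mem_Ioi.2 (one_div_pos.2 hs)) h
      refine Or.inr ?_
      field_simp at this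
      linarith
    · rw [max_eq_left hl] at h
      rcases Real.log_eq_zero.1 (neg_eq_zero.1 h.symm) with h | h | h
      · linarith
      · exact Or.inl h
      · linarith
  have hnn : 0 ≤ᵐ[volume.restrict (Ioc (0 : ℝ) 1)] d := by
    filter_upwards [ae_restrict_mem measurableSet_Ioc, hne1] with t ht h1
    have := mul_le_mul_of_nonneg_left (hpt t ⟨ht.1, lt_of_le_of_ne ht.2 h1⟩).1
      (obsWeight_nonneg p t)
    simp only [Pi.zero_apply, hd, obsPart]
    linarith
  have hB := Ident.half_pos (p + 1)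
  have hint : ∫ t in (0 : ℝ)..1, d t = Ident.muMin p * (((p : ℝ) + 1) / ((p : ℝ) + 2)) *
      Ident.half (p + 1) * -Real.log s - ∫ t in (0 : ℝ)..1, obsPart p g t := by
    rw [intervalIntegral.integral_sub hwi (integrable_obsPart hg p),
      intervalIntegral.integral_mul_const, integral_obsWeight hp]
  have h0 : 0 ≤ ∫ t in (0 : ℝ)..1, d t :=
    intervalIntegral.integral_nonneg_of_ae_restrict zero_le_one (by
      rwa [Measure.restrict_congr_set Ioc_ae_eq_Icc] at hnn)
  refine ⟨?_, fun he => ?_⟩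
  · rw [div_le_iff₀ hB]
    linarith
  rw [div_eq_iff hB.ne'] at he
  have hz := (intervalIntegral.integral_eq_zero_iff_of_le_of_nonneg_ae zero_le_one hnn hdi).1
    (by linarith)
  by_contra hne
  have hev : ∀ᵐ t ∂volume.restrict (Ioc (0 : ℝ) 1), g t ^ (p + 1) = (s * arc t) ^ (p + 1) := by
    filter_upwards [hz, ae_restrict_mem measurableSet_Ioc, hne1,
      ae_restrict_of_ae (Measure.ae_ne volume √(1 - Ident.b0 p ^ 2))] with t hzt ht h1 h2
    have hto : t ∈ Ioo (0 : ℝ) 1 := ⟨ht.1, lt_of_le_of_ne ht.2 h1⟩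
    have hw := obsWeight_pos hp hto h2
    simp only [hd, obsPart, Pi.zero_apply, ← mul_sub, mul_eq_zero, hw.ne', false_or] at hzt
    rw [((hpt t hto).2 (by linarith)).resolve_left hne]
  have h1 : ∫ t in (0 : ℝ)..1, g t ^ (p + 1) = s ^ (p + 1) * Ident.half (p + 1) := by
    rw [Ident.half, ← intervalIntegral.integral_const_mul, intervalIntegral.integral_of_le zero_le_one,
      intervalIntegral.integral_of_le zero_le_one]
    refine integral_congr_ae ?_
    filter_upwards [hev] with t ht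
    rw [ht, mul_pow, arc]
  have h2 : ∫ t in (0 : ℝ)..1, g t ^ (p + 1) = Ident.half (p + 1) := by
    rw [integral_even (fun t => by rw [hg.even]) (ContinuousOn.intervalIntegrable (by
      rw [uIcc_of_le (by norm_num)]; exact hg.cont.pow _)), Ident.circ_eq_half] at hv
    linarith
  rw [h2] at h1
  have : s ^ (p + 1) = 1 := mul_right_cancel₀ hB.ne' (by linarith)
  exact hne ((pow_eq_one_iff_of_nonneg hs.le (Nat.succ_ne_zero p)).1 this)

/-- The lifted bound gives the criterion in John position. -/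
theorem criterion_of_gBound {p : ℕ} (hp : 1 ≤ p) {kappa nu : ℝ} (hk : Ident.muMin p ≤ kappa)
    (hnu : 0 ≤ nu) (hG : GBound p kappa nu) : ProfileCriterion p := by
  refine criterion_of_bound ((muMin_pos hp).le.trans hk) hnu
    (fun g => ((p : ℝ) + 1) * ((∫ t in (-1 : ℝ)..1, g t ^ p) / circ p - 1) +
      (∫ t in (0 : ℝ)..1, obsPart p g t) / Ident.half (p + 1)) (fun g hg hv ε hε => ?_)
    fun g s hg hv hs hs1 hge hC => ?_
  · obtain ⟨φ, hφ, hb⟩ := hG g hg hv ε hε
    exact ⟨φ, hφ, hb.trans (le_of_eq (by ring))⟩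
  obtain ⟨h1, h2⟩ := obstacle_gain_le hp hg hv hs hs1 hge
  have hlog : 0 ≤ -Real.log s := neg_nonneg.2 (Real.log_nonpos hs.le hs1)
  have h3 : Ident.muMin p * (((p : ℝ) + 1) / ((p : ℝ) + 2)) * -Real.log s ≤
      kappa * (((p : ℝ) + 1) / ((p : ℝ) + 2)) * -Real.log s := by gcongr
  have hm : (0 : ℝ) < (p : ℝ) + 1 := by positivity
  refine ⟨?_, fun he => h2 ?_⟩
  · have := nonneg_of_mul_nonneg_right (show 0 ≤ ((p : ℝ) + 1) *
      ((∫ t in (-1 : ℝ)..1, g t ^ p) / circ p - 1) by linarith) hm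
    linarith
  · rw [he] at hC
    linarith

/-- The lifted bound gives the step in dimension `p + 2`. -/
theorem stepHolds_of_gBound {p : ℕ} (hp : 1 ≤ p) {kappa nu : ℝ} (hk : Ident.muMin p ≤ kappa)
    (hnu : 0 ≤ nu) (hG : GBound p kappa nu) : StepHolds.{u} p :=
  stepHolds_of_criterion (criterion_of_gBound hp hk hnu hG)

end Vale.Agent.P237.Petty.Lift
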