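import Vale.Agent.P237.Petty.Lift.Entropy
import Vale.Agent.P237.Petty.Lift.Gauss

/-!
# P237: what is left after the lift

With the entropy bound proved for the curvature form, the inequality in every dimension, with its
equality cases, follows from a pointwise sign in each order from four on: of the calibrated lifted
integrand, or of the Gaussian integrand.
-/

namespace Vale.Agent.P237.Petty.Lift

open MeasureTheory Set Module

/-- Either pointwise sign, in each order from four on, gives the inequality in every dimension. -/
theorem petty_of_fields
    (h : ∀ p, 4 ≤ p → PointwiseGauss p ∨ PointwiseField p (curvE p)) {n : ℕ}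
    (hn : 3 ≤ n) {V : Type} [NormedAddCommGroup V] [InnerProductSpace ℝ V] [FiniteDimensional ℝ V]
    [MeasurableSpace V] [BorelSpace V] (hfin : finrank ℝ V = n) {K : Set V} (hK : Body K) :
    cPetty n * volume.real K ^ (n - 1) ≤ volume.real (projBody K) ∧
      (volume.real (projBody K) = cPetty n * volume.real K ^ (n - 1) ↔
        ∃ (T : V ≃L[ℝ] V) (a : V), K = (fun x => a + x) '' (T '' Metric.closedBall 0 1)) :=
  petty_of_steps hn (fun p hp1 _ => by
    rcases lt_or_ge p 4 with h4 | h4
    · exact Hull.Five.steps_upto_five p hp1 (by omega)
    rcases h p h4 with hg | hf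
    · exact stepHolds_of_pointwiseGauss hp1 hg
    · exact stepHolds_of_pointwise hp1 (entropyBound_curvE p) hf) hfin hK

/-- Beyond a threshold, the sign of the calibrated lifted integrand gives the step. -/
theorem stepHolds_of_field {p : ℕ} (hp : 1 ≤ p) (h : PointwiseField p (curvE p)) :
    StepHolds.{0} p :=
  stepHolds_of_pointwise hp (entropyBound_curvE p) h

end Vale.Agent.P237.Petty.Lift
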