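import Vale.Agent.P237.Petty.Lift.Calib

/-!
# P237: the states a concave profile reaches along the transport

The tangent at a point bounds the mass of either side from above, the chord to the far end and
monotonicity bound it from below. With the transport these are inequalities between the circle
abscissa, the abscissa, the value and the slope.
-/

namespace Vale.Agent.P237.Petty.Lift

open MeasureTheory Set Filter Topology intervalIntegral
open Ident (half rate)

variable {p : ℕ} {g σ : ℝ → ℝ}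

/-- The mass of the circle below `s`. -/
noncomputable def circLow (p : ℕ) (s : ℝ) : ℝ := ∫ u in (0 : ℝ)..s, arc u ^ (p + 1)

/-- The mass of the circle above `s`. -/
noncomputable def circHigh (p : ℕ) (s : ℝ) : ℝ := ∫ u in s..(1 : ℝ), arc u ^ (p + 1)

/-- On the half line the slope is not positive. -/
theorem slope_nonpos (hg : Regular g) {t : ℝ} (ht : t ∈ Ioo (0 : ℝ) 1) : slopeR g t ≤ 0 := by
  by_contra h
  have hto : t ∈ Ioo (-1 : ℝ) 1 := ⟨by linarith [ht.1], ht.2⟩
  have h1 := le_tangent hg.concave hto (show (0 : ℝ) ∈ Icc (-1 : ℝ) 1 by norm_num)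
  have h2 := antitoneOn_of_concave_even hg.concave hg.even (show (0 : ℝ) ∈ Icc (0 : ℝ) 1 by norm_num)
    (Ioo_subset_Icc_self ht) ht.1.le
  nlinarith [ht.1]

/-- The slope is at most the value over the distance to the end. -/
theorem neg_slope_mul_le (hg : Regular g) {t : ℝ} (ht : t ∈ Ioo (0 : ℝ) 1) :
    -slopeR g t * (1 - t) ≤ g t := by
  have h1 := le_tangent hg.concave (⟨by linarith [ht.1], ht.2⟩ : t ∈ Ioo (-1 : ℝ) 1)
    (show (1 : ℝ) ∈ Icc (-1 : ℝ) 1 by norm_num)
  linarith [hg.nonneg 1 (by norm_num)]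

/-- The transport splits the mass of the profile. -/
theorem mass_split (hg : Regular g) (hσ : Transport p g σ) {t : ℝ} (ht : t ∈ Icc (0 : ℝ) 1) :
    ∫ u in (0 : ℝ)..t, g u ^ (p + 1) = circLow p (σ t) ∧
      ∫ u in t..(1 : ℝ), g u ^ (p + 1) = circHigh p (σ t) := by
  have hu : uIcc (0 : ℝ) 1 = Icc 0 1 := uIcc_of_le zero_le_one
  have hi : IntervalIntegrable (fun u => g u ^ (p + 1)) volume 0 1 :=
    ContinuousOn.intervalIntegrable (by rw [hu]; exact (continuousOn_profile hg).pow _)
  have hc : Continuous fun u => arc u ^ (p + 1) := continuous_arc.pow _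
  have h1 := (hσ.mass t ht).symm
  refine ⟨h1, ?_⟩
  have h := integral_mass hσ
  rw [show half (p + 1) = ∫ u in (0 : ℝ)..1, arc u ^ (p + 1) from rfl,
    ← intervalIntegral.integral_add_adjacent_intervals (hc.intervalIntegrable 0 (σ t))
      (hc.intervalIntegrable (σ t) 1),
    ← intervalIntegral.integral_add_adjacent_intervals
      (hi.mono_set (uIcc_subset_uIcc_left (by rw [hu]; exact ht)))
      (hi.mono_set (uIcc_subset_uIcc_right (by rw [hu]; exact ht)))] at h
  simp only [circHigh]
  linarith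

/-- The integral of a power of a linear function, in multiplied form. -/
theorem integral_line (j : ℕ) (y q t a b : ℝ) :
    ((j : ℝ) + 1) * q * ∫ u in a..b, (y + q * (u - t)) ^ j =
      (y + q * (b - t)) ^ (j + 1) - (y + q * (a - t)) ^ (j + 1) := by
  rw [← intervalIntegral.integral_const_mul]
  refine intervalIntegral.integral_eq_sub_of_hasDerivAt (f := fun u => (y + q * (u - t)) ^ (j + 1))
    (fun u _ => ?_) (Continuous.intervalIntegrable (by fun_prop) _ _)
  refine ((((hasDerivAt_id u).sub_const t).const_mul q).const_add y |>.fun_pow (j + 1)).congr_deriv ?_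
  simp only [Nat.add_sub_cancel, id]
  push_cast
  ring

/-- The mass between `0` and `t` is at least the rectangle. -/
theorem mul_pow_le_low (hg : Regular g) (hσ : Transport p g σ) {t : ℝ} (ht : t ∈ Ioo (0 : ℝ) 1) :
    t * g t ^ (p + 1) ≤ circLow p (σ t) := by
  rw [← (mass_split hg hσ (Ioo_subset_Icc_self ht)).1]
  have hanti := antitoneOn_of_concave_even hg.concave hg.even
  have hc : ContinuousOn (fun u => g u ^ (p + 1)) (Icc 0 t) :=
    ((continuousOn_profile hg).mono (Icc_subset_Icc le_rfl ht.2.le)).pow _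
  calc t * g t ^ (p + 1) = ∫ _ in (0 : ℝ)..t, g t ^ (p + 1) := by simp
    _ ≤ _ := intervalIntegral.integral_mono_on ht.1.le intervalIntegrable_const
        (hc.intervalIntegrable_of_Icc ht.1.le) fun u hu => pow_le_pow_left₀
          (hg.nonneg t ⟨by linarith [ht.1], ht.2.le⟩)
          (hanti ⟨hu.1, hu.2.trans ht.2.le⟩ (Ioo_subset_Icc_self ht) hu.2) _

/-- The mass between `t` and `1` is at least that of the chord to the far end. -/
theorem mul_pow_le_high (hg : Regular g) (hσ : Transport p g σ) {t : ℝ} (ht : t ∈ Ioo (0 : ℝ) 1) :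
    g t ^ (p + 1) * (1 - t) ≤ ((p : ℝ) + 2) * circHigh p (σ t) := by
  rw [← (mass_split hg hσ (Ioo_subset_Icc_self ht)).2]
  have h1t : 0 < 1 - t := by linarith [ht.2]
  have hgt : 0 ≤ g t := hg.nonneg t ⟨by linarith [ht.1], ht.2.le⟩
  have hlow : ∀ u ∈ Icc t 1, g t + -(g t / (1 - t)) * (u - t) ≤ g u ∧
      0 ≤ g t + -(g t / (1 - t)) * (u - t) := fun u hu => by
    have e : g t + -(g t / (1 - t)) * (u - t) = (1 - u) / (1 - t) * g t := by
      field_simp
      ring
    have hw : 0 ≤ (1 - u) / (1 - t) := div_nonneg (by linarith [hu.2]) h1t.le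
    refine ⟨?_, by rw [e]; exact mul_nonneg hw hgt⟩
    have hw1 : 0 ≤ (u - t) / (1 - t) := div_nonneg (by linarith [hu.1]) h1t.le
    have hsum : (1 - u) / (1 - t) + (u - t) / (1 - t) = 1 := by
      field_simp
      ring
    have h := hg.concave.2 (show t ∈ Icc (-1 : ℝ) 1 from ⟨by linarith [ht.1], ht.2.le⟩)
      (show (1 : ℝ) ∈ Icc (-1 : ℝ) 1 by norm_num) hw hw1 hsum
    simp only [smul_eq_mul] at h
    rw [show (1 - u) / (1 - t) * t + (u - t) / (1 - t) * 1 = u by field_simp; ring] at h
    rw [e]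
    linarith [mul_nonneg hw1 (hg.nonneg 1 (by norm_num))]
  have hc : ContinuousOn (fun u => g u ^ (p + 1)) (Icc t 1) :=
    ((continuousOn_profile hg).mono (Icc_subset_Icc ht.1.le le_rfl)).pow _
  have hle : ∫ u in t..(1 : ℝ), (g t + -(g t / (1 - t)) * (u - t)) ^ (p + 1) ≤
      ∫ u in t..(1 : ℝ), g u ^ (p + 1) :=
    intervalIntegral.integral_mono_on ht.2.le (Continuous.intervalIntegrable (by fun_prop) _ _)
      (hc.intervalIntegrable_of_Icc ht.2.le) fun u hu =>
        pow_le_pow_left₀ (hlow u hu).2 (hlow u hu).1 _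
  have hval := integral_line (p + 1) (g t) (-(g t / (1 - t))) t t 1
  have e1 : g t + -(g t / (1 - t)) * (1 - t) = 0 := by field_simp; ring
  rw [e1, sub_self, mul_zero, add_zero, zero_pow (by omega)] at hval
  push_cast at hval
  rcases hgt.eq_or_lt with h0 | hpos
  · rw [← h0, zero_pow (by omega), zero_mul]
    exact mul_nonneg (by positivity) (intervalIntegral.integral_nonneg ht.2.le fun u hu =>
      pow_nonneg (hg.nonneg u ⟨by linarith [hu.1, ht.1], hu.2⟩) _)
  · refine le_trans (le_of_eq ?_) (mul_le_mul_of_nonneg_left hle (by positivity))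
    apply mul_left_cancel₀ hpos.ne'
    have h2 : -(g t / (1 - t)) * (1 - t) = -g t := by field_simp
    linear_combination (1 - t) * hval - ((p : ℝ) + 2) *
      (∫ u in t..(1 : ℝ), (g t + -(g t / (1 - t)) * (u - t)) ^ (p + 1)) * h2

/-- The mass between `0` and `t` is at most that of the tangent. -/
theorem low_le_tangent (hg : Regular g) (hσ : Transport p g σ) {t : ℝ} (ht : t ∈ Ioo (0 : ℝ) 1) :
    -slopeR g t * (((p : ℝ) + 2) * circLow p (σ t)) ≤ icept g t ^ (p + 2) - g t ^ (p + 2) := by
  rw [← (mass_split hg hσ (Ioo_subset_Icc_self ht)).1]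
  have hto : t ∈ Ioo (-1 : ℝ) 1 := ⟨by linarith [ht.1], ht.2⟩
  have hc : ContinuousOn (fun u => g u ^ (p + 1)) (Icc 0 t) :=
    ((continuousOn_profile hg).mono (Icc_subset_Icc le_rfl ht.2.le)).pow _
  have hle : ∫ u in (0 : ℝ)..t, g u ^ (p + 1) ≤
      ∫ u in (0 : ℝ)..t, (g t + slopeR g t * (u - t)) ^ (p + 1) :=
    intervalIntegral.integral_mono_on ht.1.le (hc.intervalIntegrable_of_Icc ht.1.le)
      (Continuous.intervalIntegrable (by fun_prop) _ _) fun u hu => by
        have hu' : u ∈ Icc (-1 : ℝ) 1 := ⟨by linarith [hu.1], hu.2.trans ht.2.le⟩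
        exact pow_le_pow_left₀ (hg.nonneg u hu') (le_tangent hg.concave hto hu') _
  have hval := integral_line (p + 1) (g t) (slopeR g t) t 0 t
  rw [sub_self, mul_zero, add_zero] at hval
  have h := mul_le_mul_of_nonneg_left hle (mul_nonneg (neg_nonneg.2 (slope_nonpos hg ht))
    (show (0 : ℝ) ≤ (p : ℝ) + 2 by positivity))
  rw [show icept g t = g t + slopeR g t * (0 - t) by rw [icept]; ring]
  push_cast at hval
  linarith

/-- The mass between `t` and `1` is at most that of the tangent. -/
theorem high_le_tangent (hg : Regular g) (hσ : Transport p g σ) {t : ℝ} (ht : t ∈ Ioo (0 : ℝ) 1) :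
    -slopeR g t * (((p : ℝ) + 2) * circHigh p (σ t)) ≤
      g t ^ (p + 2) - (g t + slopeR g t * (1 - t)) ^ (p + 2) := by
  rw [← (mass_split hg hσ (Ioo_subset_Icc_self ht)).2]
  have hto : t ∈ Ioo (-1 : ℝ) 1 := ⟨by linarith [ht.1], ht.2⟩
  have hc : ContinuousOn (fun u => g u ^ (p + 1)) (Icc t 1) :=
    ((continuousOn_profile hg).mono (Icc_subset_Icc ht.1.le le_rfl)).pow _
  have hle : ∫ u in t..(1 : ℝ), g u ^ (p + 1) ≤
      ∫ u in t..(1 : ℝ), (g t + slopeR g t * (u - t)) ^ (p + 1) :=
    intervalIntegral.integral_mono_on ht.2.le (hc.intervalIntegrable_of_Icc ht.2.le)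
      (Continuous.intervalIntegrable (by fun_prop) _ _) fun u hu => by
        have hu' : u ∈ Icc (-1 : ℝ) 1 := ⟨by linarith [hu.1, ht.1], hu.2⟩
        exact pow_le_pow_left₀ (hg.nonneg u hu') (le_tangent hg.concave hto hu') _
  have hval := integral_line (p + 1) (g t) (slopeR g t) t t 1
  rw [sub_self, mul_zero, add_zero] at hval
  have h := mul_le_mul_of_nonneg_left hle (mul_nonneg (neg_nonneg.2 (slope_nonpos hg ht))
    (show (0 : ℝ) ≤ (p : ℝ) + 2 by positivity))
  push_cast at hval
  linarith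

end Vale.Agent.P237.Petty.Lift
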